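import Crest.Agent.N49.Br.Fl

/-!
# Row 49 (helper16): block matrices and Fubini for bipartite graphs
-/

set_option autoImplicit false

open Matrix Finset

noncomputable section

namespace Crest.Agent.N49.Br

open Po

namespace Blk

variable {J : Type} [Fintype J] [DecidableEq J] {Cj : J → Type} [∀ j, Fintype (Cj j)]
  [∀ j, DecidableEq (Cj j)] (N : ∀ j, Matrix (Cj j) (Cj j) ℝ)

theorem det_bd : (blockDiagonal' N).det = ∏ j, (N j).det := by
  letI : LinearOrder J := LinearOrder.lift' (Fintype.equivFin J) (Equiv.injective _)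
  have t : (blockDiagonal' N).BlockTriangular Sigma.fst := fun _ _ h =>
    blockDiagonal'_apply_ne _ _ _ h.ne'
  rw [t.det_fintype]
  refine prod_congr rfl fun j _ => ?_
  rw [← det_submatrix_equiv_self (Equiv.sigmaSubtype j).symm]
  exact congrArg det (Matrix.ext fun a b => blockDiagonal'_apply_eq N j a b)

theorem inv_bd (h : ∀ j, (N j).det ≠ 0) :
    (blockDiagonal' N)⁻¹ = blockDiagonal' fun j => (N j)⁻¹ := by
  refine inv_eq_right_inv ?_
  rw [← blockDiagonal'_mul, ← blockDiagonal'_one]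
  exact congrArg _ (funext fun j => mul_nonsing_inv _ (h j).isUnit)

theorem qf_bd (x : (Σ j, Cj j) → ℝ) :
    qf (blockDiagonal' N) x = ∑ j, qf (N j) fun c => x ⟨j, c⟩ := by
  simp only [qf, dotProduct, mulVec, Fintype.sum_sigma]
  refine sum_congr rfl fun j _ => sum_congr rfl fun a _ => congrArg _ ?_
  rw [sum_eq_single j (fun i _ e => sum_eq_zero fun b _ => by
    rw [blockDiagonal'_apply_ne _ _ _ e.symm, zero_mul]) (by simp)]
  simp only [blockDiagonal'_apply_eq]

end Blk

theorem blk : BLK := fun J C _ _ _ _ Cj _ _ e M N h h' => by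
  obtain rfl : M = (blockDiagonal' N).submatrix e.symm e.symm := by
    ext p q
    obtain ⟨⟨i, a⟩, rfl⟩ := e.surjective p
    obtain ⟨⟨j, b⟩, rfl⟩ := e.surjective q
    simp only [submatrix_apply, Equiv.symm_apply_apply]
    obtain rfl | r := eq_or_ne i j
    · rw [h, blockDiagonal'_apply_eq]
    · rw [h' _ _ r, blockDiagonal'_apply_ne _ _ _ r]
  rw [det_submatrix_equiv_self, Blk.det_bd]
  refine ⟨rfl, fun d x => ?_⟩
  rw [inv_submatrix_equiv, Blk.inv_bd N fun j => prod_ne_zero_iff.1 d j (mem_univ j),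
    ← Blk.qf_bd _ fun p => x (e p), qf, submatrix_mulVec_equiv, ← comp_equiv_dotProduct_comp_equiv _ _ e]
  simp only [qf, Function.comp_def, Equiv.symm_symm, Equiv.symm_apply_apply]

theorem fub : FUB := fun Z X H _ k l Γ wz wx wy wh t _ _ _ _ s h => by
  refine h.prod_fiberwise fun z => ?_
  have s1 := h.summable.prod_factor z
  refine s1.hasSum_iff.2 ?_
  rw [s1.tsum_prod' s1.prod_factor, ← tsum_mul_left]
  refine tsum_congr fun p => ?_
  dsimp only
  rw [tsum_mul_left, tsum_mul_left, (Gw.hasSum_pi_prod (V := fun _ : Γ => H)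
    (fun e => wh z (p.1 e.1.1 + p.2 e.1.2)) fun e => s _ _).tsum_eq,
    prod_coe_sort Γ fun e => ∑' η, wh z (p.1 e.1 + p.2 e.2) η]

end Crest.Agent.N49.Br

end
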