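import Crest.Agent.N49.Br.Fl
import Crest.Agent.N49.Tw.Exp

/-!
# Row 49 (helper95): the fibre factorisation
-/

set_option autoImplicit false
set_option linter.unusedSectionVars false

open Matrix Finset

noncomputable section

namespace Crest.Agent.N49.Br

open Po Tw

namespace Fa

theorem Zc_sqrt {σ : Type} (T : TS σ) : T.Zc = √T.K.det / |T.A.det| := by
  rw [TS.Zc, dt_inv, dt, inv_inv, TS.D, det_mul, det_mul, det_transpose,
    det_nonsing_inv, Ring.inverse_eq_inv', mul_comm, ← mul_assoc, ← sq, Real.sqrt_mul (sq_nonneg _),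
    Real.sqrt_sq_eq_abs, abs_inv, div_eq_inv_mul]

variable {ι : Type} [Fintype ι] [LinearOrder ι] {B : Bd ι} (h : B.Ok) {k l : ℕ}
  {Γ : Finset (Fin k × Fin l)} {c c' : ℝ}

theorem blkK (hb : BLK) (kw : h.KWB) (Γ : Finset (Fin k × Fin l)) (c c' : ℝ) :
    (B.T.sh (B.S Γ c c')).K.det = ∏ j : Jc Γ, (B.KC B.T.K (B.vj c c' j) (ja j) (jb j)).det ∧
      ((B.T.sh (B.S Γ c c')).K.det ≠ 0 → ∀ x, qf (B.T.sh (B.S Γ c c')).K⁻¹ x =
        ∑ j : Jc Γ, qf (B.KC B.T.K (B.vj c c' j) (ja j) (jb j))⁻¹ fun p => x (h.eC c c' ⟨j, p⟩)) :=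
  hb (Jc Γ) (B.T.sh (B.S Γ c c')).C (fun j => B.Cl (ja j) (jb j)) (h.eC c c') _ _
    (kw k l Γ c c' B.T.K).1 fun p p' n => ((kw k l Γ c c' B.T.K).2.2 p p' n).1

theorem blkA (hb : BLK) (kw : h.KWB) (p : 0 < c) (q : 0 < c') :
    (B.T.sh (B.S Γ c c')).A.det =
      ∏ j : Jc Γ, (B.KC B.T.A (fun _ _ => 1) (ja j) (jb j)).det := by
  rw [TS.sh_A' (h.ok_S p q)]
  exact (hb (Jc Γ) (B.T.sh (B.S Γ c c')).C (fun j => B.Cl (ja j) (jb j)) (h.eC c c') _ _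
    (kw k l Γ c c' B.T.A).2.1 fun p p' n => ((kw k l Γ c c' B.T.A).2.2 p p' n).2).1

theorem KC_pd (kw : h.KWB) (p : 0 < c) (q : 0 < c') (j : Jc Γ) :
    (B.KC B.T.K (B.vj c c' j) (ja j) (jb j)).PosDef := by
  have e : B.KC B.T.K (B.vj c c' j) (ja j) (jb j) =
      (B.T.sh (B.S Γ c c')).K.submatrix (fun r => h.eC c c' ⟨j, r⟩) fun r => h.eC c c' ⟨j, r⟩ :=
    Matrix.ext fun r r' => ((kw k l Γ c c' B.T.K).1 j r r').symm
  rw [e]
  exact (TS.sh_tri h.cl (h.ok_S p q)).pd.submatrix fun r r' z =>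
    eq_of_heq (Sigma.mk.inj ((h.eC c c').injective z)).2

theorem zc_prod (hb : BLK) (kw : h.KWB) (p : 0 < c) (q : 0 < c') :
    (B.T.sh (B.S Γ c c')).Zc = ∏ j : Jc Γ, B.ZC (B.vj c c' j) (ja j) (jb j) := by
  rw [Zc_sqrt, (blkK h hb kw Γ c c').1, blkA h hb kw p q,
    Real.sqrt_prod _ fun j _ => (KC_pd h kw p q j).det_pos.le, abs_prod, ← prod_div_distrib]
  rfl

theorem wt_prod (hb : BLK) (kw : h.KWB) (er : h.ERR) (p : 0 < c) (q : 0 < c') (y : B.Cf Γ) :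
    (B.T.sh (B.S Γ c c')).wt (h.cE c c' y) =
      ∏ j : Jc Γ, gs (B.KC B.T.K (B.vj c c' j) (ja j) (jb j))⁻¹ fun r => h.uj y ⟨j, r⟩ := by
  have e := (blkK h hb kw Γ c c').2 (TS.sh_tri h.cl (h.ok_S p q)).pd.det_pos.ne'
    ((B.T.sh (B.S Γ c c')).u (zc (h.cE c c' y)))
  refine (congrArg (fun t => Real.exp (-(Real.pi * t))) e).trans ?_
  rw [mul_sum, ← sum_neg_distrib, Real.exp_sum]
  refine prod_congr rfl fun j _ => ?_
  rw [gs]
  congr 4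
  exact funext fun r => er.1 k l Γ c c' p q y ⟨j, r⟩

theorem wt_div (hb : BLK) (kw : h.KWB) (er : h.ERR) (li : h.LIN) (p : 0 < c) (q : 0 < c')
    (y : B.Cf Γ) : (B.T.sh (B.S Γ c c')).wt (h.cE c c' y) / (B.T.sh (B.S Γ c c')).Zc =
      h.rho y.1 * ((∏ a, gd (c • h.M y.1) (h.ce y.1) (y.2.1.1 a)) *
        (∏ b, gd (c' • h.M y.1) 0 (y.2.1.2 b)) *
          ∏ e : Γ, h.wH y.1 (y.2.1.1 e.1.1 + y.2.1.2 e.1.2) (y.2.2 e)) := by
  rw [wt_prod h hb kw er p q, zc_prod h hb kw p q, ← prod_div_distrib, Fintype.prod_sum_type,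
    Fintype.prod_sum_type, Fintype.prod_sum_type, Fintype.prod_unique, mul_assoc]
  refine congrArg₂ (· * ·) rfl (congrArg₂ (· * ·) (prod_congr rfl fun a _ => ?_)
    (congrArg₂ (· * ·) (prod_congr rfl fun b _ => ?_) rfl))
  · rw [gd, ((li y.1).2.2 c p).1, ← (((li y.1).2.2 c p).2 _).1]; rfl
  · rw [gd, ((li y.1).2.2 c' q).1, ← (((li y.1).2.2 c' q).2 _).2]; rfl

theorem gd_nn {I : Type} [Fintype I] [DecidableEq I] (M : Matrix I I ℝ) (θ : I → ℝ) (a : I → ℤ) :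
    0 ≤ gd M θ a :=
  div_nonneg (gs_pos _ _).le (inv_nonneg.2 (Real.sqrt_nonneg _))

end Fa

theorem fac (hb : BLK) (hf : FUB) {ι : Type} [Fintype ι] [LinearOrder ι] {B : Bd ι} (h : B.Ok)
    (kw : h.KWB) (er : h.ERR) (li : h.LIN) (hi : h.HID) : h.FAC := by
  intro k l Γ c c' p q G b hG
  have ht := TS.sh_tri h.cl (h.ok_S (Γ := Γ) p q)
  have bb : Bb (h.PG Γ c c' G) := ⟨∏ _e : Γ, b, fun y => by
    rw [Bd.Ok.PG, Real.norm_of_nonneg (prod_nonneg fun e _ => (hG _ _ _).1)]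
    exact prod_le_prod (fun e _ => (hG _ _ _).1) fun e _ => (hG _ _ _).2⟩
  have s1 := (h.cE c c').hasSum_iff.2
    ((ht.sm bb).hasSum.div_const (B.T.sh (B.S Γ c c')).Zc)
  refine hf B.Zc (B.I → ℤ) B.Hc k l Γ h.rho (fun z => gd (c • h.M z) (h.ce z))
    (fun z => gd (c' • h.M z) 0) (fun z a η => h.wH z a η * G z a η) _ hi.2.1
    (fun z a => Fa.gd_nn _ _ a) (fun z a => Fa.gd_nn _ _ a)
    (fun z a η => mul_nonneg (hi.1 z a η) (hG z a η).1) (fun z a => ?_) ?_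
  · exact .of_nonneg_of_le (fun η => mul_nonneg (hi.1 z a η) (hG z a η).1)
      (fun η => mul_le_mul_of_nonneg_left (hG z a η).2 (hi.1 z a η)) ((hi.2.2.1 z a).mul_right b)
  · refine HasSum.congr_fun s1 fun y => ?_
    change _ = (B.T.sh (B.S Γ c c')).wt (h.cE c c' y) * h.PG Γ c c' G (h.cE c c' y) /
      (B.T.sh (B.S Γ c c')).Zc
    rw [mul_div_right_comm, Fa.wt_div h hb kw er li p q, Bd.Ok.PG,
      Equiv.symm_apply_apply, prod_mul_distrib]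
    ring

end Crest.Agent.N49.Br

end
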