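import Crest.Agent.N49.Br.Ring
import Crest.Agent.N49.Tw.Sa
import Crest.Agent.N49.Tw.Tw

/-!
# Row 49 (helper4): the visible ring of a grid (functions on the points) and its points
-/

set_option autoImplicit false
set_option linter.unusedSectionVars false

open Finset Matrix MvPolynomial

noncomputable section

namespace Crest.Agent.N49.Br

open Po Tw

variable {ι : Type} [Fintype ι] [LinearOrder ι] {s : ℕ} {q : ι → ℕ} {u ω : Pt ι}

theorem mem_grid : u ∈ grid q ↔ ∀ i a, u i = some a → a < q i := by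
  simp [grid, Fintype.mem_piFinset, mem_insertNone]

theorem mem_pts : u ∈ pts q ↔ ∀ i, ∃ a, a < q i ∧ u i = some a := by
  simp [pts, Fintype.mem_piFinset, eq_comm]

theorem dc_grid (q : ι → ℕ) : Dc (grid q) := fun _ h _ k => mem_grid.2 fun i a e =>
  mem_grid.1 h i a (by rw [← k i (by simp [e]), e])

theorem pts_grid (h : u ∈ pts q) : u ∈ grid q := mem_grid.2 fun i a e => by
  obtain ⟨b, h1, h2⟩ := mem_pts.1 h i
  rw [h2] at e; exact Option.some.inj e ▸ h1

theorem pts_bl (h : u ∈ pts q) : bl u = univ := eq_univ_of_forall fun i => mem_bl.2 (by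
  obtain ⟨b, -, h2⟩ := mem_pts.1 h i
  simp [h2])

/-- the words of the visible ring: sets of letters other than the reference clones `0` -/
abbrev Vw (s : ℕ) (q : ι → ℕ) : Type :=
  {p : Fin s × grid q // (∀ i, p.2.1 i ≠ some 0) ∧ #(bl p.2.1) ≤ p.1.val + 1}

/-- the level -/
def Vw.lv (w : Vw s q) : ℕ := w.1.1.val + 1
/-- the letters -/
def Vw.tr (w : Vw s q) : Pt ι := w.1.2.1
/-- the blocks used by a product -/
def vu (m : Vw s q →₀ ℕ) : Finset ι := m.support.biUnion fun w => bl w.tr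
/-- `w` is the product `m` -/
def Rv (w : Vw s q) (m : Vw s q →₀ ℕ) : Prop :=
  Finsupp.weight Vw.lv m = w.lv ∧ (∀ w' ∈ m.support, Le w'.tr w.tr) ∧ vu m = bl w.tr

instance (w : Vw s q) (m : Vw s q →₀ ℕ) : Decidable (Rv w m) := by unfold Rv; infer_instance

variable (s q) in
/-- **the visible ring** -/
abbrev vis (K : Matrix (Vw s q) (Vw s q) ℝ) : Sh Unit Unit where
  W := Vw s q
  col := id
  ty w := Finsupp.single () w.lv
  r w m := if Rv w m then 1 else 0
  ε w := if w.lv = 1 ∧ bl w.tr = ∅ then 1 else 0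
  K := K

/-- its points -/
def cv (ω : Pt ι) : Vw s q → ℤ := fun w => if Le w.tr ω then 1 else 0

namespace Vs

theorem lv_pos (w : Vw s q) : 1 ≤ w.lv := Nat.le_add_left ..
theorem lv_le (w : Vw s q) : w.lv ≤ s := w.1.1.2
theorem ext' {w w' : Vw s q} (h : w.lv = w'.lv) (k : w.tr = w'.tr) : w = w' :=
  Subtype.ext (Prod.ext (Fin.ext (Nat.succ_injective h)) (Subtype.ext k))
theorem exists_vw {k : ℕ} (h1 : 1 ≤ k) (h2 : k ≤ s) (hu : u ∈ grid q) (h0 : ∀ i, u i ≠ some 0)
    (e : #(bl u) ≤ k) : ∃ w : Vw s q, w.lv = k ∧ w.tr = u :=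
  ⟨⟨(⟨k - 1, by omega⟩, ⟨u, hu⟩), h0, by simp only; omega⟩, by simp only [Vw.lv]; omega, rfl⟩

theorem vu_add (m m' : Vw s q →₀ ℕ) : vu (m + m') = vu m ∪ vu m' := by
  classical
  rw [vu, Finsupp.support_add_eq_union, union_biUnion]; rfl
theorem vu_single (w : Vw s q) : vu (Finsupp.single w 1) = bl w.tr := by simp [vu]
theorem card_vu (m : Vw s q →₀ ℕ) : #(vu m) ≤ Finsupp.weight Vw.lv m := by
  refine card_biUnion_le.trans ?_
  rw [Finsupp.weight_apply, Finsupp.sum]
  refine sum_le_sum fun w hw => w.2.2.trans ?_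
  exact Nat.le_mul_of_pos_left _ (Nat.pos_of_ne_zero (Finsupp.mem_support_iff.1 hw))
theorem weight_pos {m : Vw s q →₀ ℕ} (h : m ≠ 0) : 1 ≤ Finsupp.weight Vw.lv m := by
  obtain ⟨w, hw⟩ := Finsupp.support_nonempty_iff.2 h
  exact (lv_pos w).trans (Finsupp.le_weight_of_ne_zero' _ (Finsupp.mem_support_iff.1 hw))
theorem forall_add {p : Vw s q → Prop} {m m' : Vw s q →₀ ℕ} :
    (∀ w ∈ (m + m').support, p w) ↔ (∀ w ∈ m.support, p w) ∧ ∀ w ∈ m'.support, p w := by
  classical
  rw [Finsupp.support_add_eq_union, forall_mem_union]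
theorem uniq {w w' : Vw s q} {m : Vw s q →₀ ℕ} (a : Rv w m) (a' : Rv w' m) (b : Le w.tr ω)
    (b' : Le w'.tr ω) : w = w' := ext' (a.1.symm.trans a'.1) (b.eq b' (a.2.2.symm.trans a'.2.2))
theorem rv_single {w w' : Vw s q} : Rv w (Finsupp.single w' 1) ↔ w = w' := by
  have : Rv w' (Finsupp.single w' 1) :=
    ⟨by simp [Finsupp.weight_single], by simp [Le.refl], vu_single _⟩
  exact ⟨fun h => uniq h this (.refl _) (h.2.1 _ (by simp)), fun e => e ▸ this⟩
theorem rv_add {w w' : Vw s q} {m' : Vw s q →₀ ℕ} : Rv w (Finsupp.single w' 1 + m') ↔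
    w'.lv + Finsupp.weight Vw.lv m' = w.lv ∧ (Le w'.tr w.tr ∧ ∀ x ∈ m'.support, Le x.tr w.tr) ∧
      bl w'.tr ∪ vu m' = bl w.tr := by
  unfold Rv
  rw [forall_add, vu_add, vu_single]
  simp [Finsupp.weight_single]
theorem exists_rv {m : Vw s q →₀ ℕ} (h0 : m ≠ 0) (h2 : Finsupp.weight Vw.lv m ≤ s)
    (hm : ∀ x ∈ m.support, Le x.tr ω) : ∃ w, Rv w m ∧ Le w.tr ω := by
  have k : ∀ i ∈ vu m, ∃ x : Vw s q, x.tr i ≠ none ∧ ω i = x.tr i := fun i hi => by
    obtain ⟨x, hx, e⟩ := mem_biUnion.1 hi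
    exact ⟨x, mem_bl.1 e, (hm x hx i (mem_bl.1 e)).symm⟩
  have hF : vu m ⊆ bl ω := fun i hi => by
    obtain ⟨x, a, b⟩ := k i hi
    exact mem_bl.2 (b ▸ a)
  obtain ⟨w, e1, e2⟩ := exists_vw (u := rs ω (vu m)) (q := q) (weight_pos h0) h2
    (mem_grid.2 fun i a e => by
      unfold rs at e
      split_ifs at e with c
      obtain ⟨x, -, b⟩ := k i c
      exact mem_grid.1 x.1.2.2 i a (b.symm.trans e))
    (fun i e => by
      unfold rs at e
      split_ifs at e with c
      obtain ⟨x, -, b⟩ := k i c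
      exact x.2.1 i (b.symm.trans e)) (by rw [bl_rs hF]; exact card_vu m)
  refine ⟨w, ⟨e1.symm, fun x hx => ?_, by rw [e2, bl_rs hF]⟩, e2 ▸ rs_le _ _⟩
  rw [e2]; exact (hm x hx).rs (subset_biUnion_of_mem (fun w : Vw s q => bl w.tr) hx)

end Vs

open Vs

variable {K : Matrix (Vw s q) (Vw s q) ℝ}

theorem vis_dg (w : Vw s q) : (vis s q K).dg w = w.lv := by simp [Sh.dg]
theorem vis_cd (w : Vw s q) : (vis s q K).cd w = Finsupp.single () w.lv := by simp [Sh.cd]

theorem vis_ok (hK : K.PosDef) (hb : ∀ w w', K w w' ≠ 0 → w.lv = w'.lv) : (vis s q K).Ok where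
  ne := fun w : Vw s q => Finsupp.single_ne_zero.2 (Nat.succ_ne_zero _)
  one := fun w w' : Vw s q => by
    change (if Rv w (Finsupp.single w' 1) then 1 else 0) = _
    simp only [rv_single]
  gr := fun (w : Vw s q) (m : Vw s q →₀ ℕ) h => by
    have h' : Rv w m := by simpa using h
    rw [vis_cd, ← h'.1, show (vis s q K).cd = fun w => Finsupp.single () w.lv from funext vis_cd]
    rw [Finsupp.weight_apply, Finsupp.weight_apply, Finsupp.sum, Finsupp.sum,
      Finsupp.single_finsetSum]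
    exact sum_congr rfl fun x _ => by rw [Finsupp.smul_single]
  mul := fun (w : Vw s q) (m m' : Vw s q →₀ ℕ) h0 =>
    sum_two (α := Vw s q) (P := fun w' => Rv w' m) (Q := fun w' => Rv w (Finsupp.single w' 1 + m'))
      (R := Rv w (m + m')) ⟨fun ⟨a1, a2, a3⟩ => by
        rw [map_add] at a1
        rw [vu_add] at a3
        have := lv_le w
        obtain ⟨w', h, k⟩ := exists_rv h0 (by omega) (Vs.forall_add.1 a2).1
        exact ⟨w', h, rv_add.2 ⟨h.1 ▸ a1, ⟨k, (Vs.forall_add.1 a2).2⟩, h.2.2 ▸ a3⟩⟩,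
      fun ⟨_, a, b⟩ => by
        obtain ⟨b1, ⟨b2, b3⟩, b4⟩ := rv_add.1 b
        exact ⟨by rw [map_add, a.1, b1],
          Vs.forall_add.2 ⟨fun x hx => (a.2.1 x hx).trans b2, b3⟩, by rw [vu_add, a.2.2, b4]⟩⟩
      fun _ _ a b a' b' => uniq a a' (rv_add.1 b).2.1.1 (rv_add.1 b').2.1.1
  eps := fun w : Vw s q => fun h => by
    rw [vis_dg]; by_contra n; exact h (if_neg fun c => n c.1)
  pd := hK
  blk := fun w w' : Vw s q => fun h => by rw [vis_cd, vis_cd, hb w w' h]

theorem cv_mul (ω : Pt ι) {m : Vw s q →₀ ℕ} (h0 : m ≠ 0) (h : Finsupp.weight Vw.lv m ≤ s) :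
    m.prod (fun w n => cv ω w ^ n) = ∑ w, (if Rv w m then 1 else 0) * cv ω w := by
  refine Eq.trans ?_ (sum_two (α := Vw s q) (P := fun w => Rv w m) (Q := fun w => Le w.tr ω)
    (R := ∀ x ∈ m.support, Le x.tr ω) ⟨fun r => exists_rv h0 h r,
    fun ⟨_, a, b⟩ x hx => (a.2.1 x hx).trans b⟩ fun _ _ a b a' b' => uniq a a' b b')
  split_ifs with r
  · exact prod_eq_one fun x hx => by
      change (if Le x.tr ω then (1 : ℤ) else 0) ^ _ = 1
      rw [if_pos (r x hx), one_pow]
  · push Not at r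
    obtain ⟨x, hx, n⟩ := r
    exact prod_eq_zero hx (by
      change (if Le x.tr ω then (1 : ℤ) else 0) ^ _ = 0
      rw [if_neg n]
      exact zero_pow (Finsupp.mem_support_iff.1 hx))

theorem cv_mass (ω : Pt ι) (hs : 1 ≤ s) : ∑ w, (vis s q K).ε w * cv ω w = 1 := by
  have l : ∀ u : Pt ι, bl u = ∅ → Le u ω := fun u e i hi => absurd (mem_bl.2 hi) (by simp [e])
  obtain ⟨w, e1, e2⟩ := exists_vw (u := fun _ => none) (q := q) le_rfl hs
    (mem_grid.2 (by simp)) (by simp) (by simp [bl])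
  exact (sum_two (R := True) (P := fun w : Vw s q => w.lv = 1 ∧ bl w.tr = ∅)
    (Q := fun w => Le w.tr ω) ⟨fun _ => ⟨w, ⟨e1, by simp [e2, bl]⟩, l _ (by simp [e2, bl])⟩,
      fun _ => trivial⟩ fun _ _ a b a' b' =>
        ext' (a.1.trans a'.1.symm) (b.eq b' (a.2.trans a'.2.symm))).symm.trans (if_pos trivial)

theorem vis_pt (ω : Pt ι) (hs : 1 ≤ s) : (vis s q K).Pt s (cv ω) :=
  ⟨fun _ h0 h => cv_mul ω h0 (by rwa [show (vis s q K).dg = Vw.lv from funext vis_dg] at h),
    cv_mass ω hs⟩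

/-- the words of one level are independent on the points -/
theorem vis_ind (hq : ∀ i, 0 < q i) {x : Vw s q → ℤ} {j : ℕ} (hx : ∀ w, x w ≠ 0 → w.lv = j)
    (h : ∀ ω ∈ pts q, cv ω ⬝ᵥ x = 0) : x = 0 := by
  have k : ∀ n, ∀ w : Vw s q, #(bl w.tr) = n → x w = 0 := fun n => by
    induction n using Nat.strong_induction_on with
    | _ n ih =>
    intro w hw
    by_contra c
    have e := h (fun i => some ((w.tr i).getD 0)) (mem_pts.2 fun i => ⟨_, by
      cases t : w.tr i with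
      | none => exact hq i
      | some a => exact mem_grid.1 w.1.2.2 i a t, rfl⟩)
    rw [dotProduct, Fintype.sum_eq_single w, cv, if_pos, one_mul] at e
    · exact c e
    · intro i hi
      obtain ⟨a, t⟩ := Option.ne_none_iff_exists'.1 hi
      simp [t]
    · intro w' n
      by_contra z
      have l : Le w'.tr w.tr := fun i hi => by
        have t : Le w'.tr fun i => some ((w.tr i).getD 0) := by
          by_contra t; exact left_ne_zero_of_mul z (if_neg t)
        have t1 := t i hi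
        cases t2 : w.tr i with
        | none => exact absurd (show w'.tr i = some 0 by simpa [t2] using t1) (w'.2.1 i)
        | some a => simpa [t2] using t1
      refine right_ne_zero_of_mul z (ih _ ?_ w' rfl)
      rw [← hw]
      exact card_lt_card (l.bl.ssubset_of_ne fun b => n (ext'
        ((hx _ (right_ne_zero_of_mul z)).trans (hx _ c).symm) (l.eq (.refl _) b)))
  exact funext fun w => k _ w rfl

/-- evaluation of a homogeneous polynomial -/
theorem cv_cf (ω : Pt ι) {P : MvPolynomial (Vw s q) ℤ} {j : ℕ} (h1 : 1 ≤ j) (h2 : j ≤ s)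
    (hP : P.IsWeightedHomogeneous Vw.lv j) :
    cv ω ⬝ᵥ (fun w => (vis s q K).cf ℤ w P) = eval (cv ω) P := by
  rw [eval_eq, dotProduct]
  have c := fun w => Sh.cf_eq (S := vis s q K) (R := ℤ) w P
  simp only [c, mul_sum]
  rw [sum_comm]
  refine sum_congr rfl fun m hm => ?_
  have e := hP (mem_support_iff.1 hm)
  have := cv_mul ω (m := m) (by rintro rfl; rw [map_zero] at e; omega) (e ▸ h2)
  rw [Finsupp.prod] at this
  rw [this, mul_sum]
  exact sum_congr rfl fun w _ => by simp only [Int.cast_id]; ring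

end Crest.Agent.N49.Br

end
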