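import Crest.Agent.N49.Br.Fl
import Crest.Agent.N49.Br.Vis

/-! # Row 49 (helper17): grid counts are edge counts; sizes of the bipartite shapes -/

set_option autoImplicit false
set_option linter.unusedSectionVars false

open Finset

noncomputable section

namespace Crest.Agent.N49.Br

open Po Tw Bd

namespace Gr

variable {ι : Type} [Fintype ι] [LinearOrder ι] {x y : ι} {q : ι → ℕ} {s Q : ℕ} {T : TS Unit}
  {v : ℕ → Finset ι → ℝ}

theorem mem_zq {t : Pt ι} : t ∈ zq x y q ↔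
    t x = none ∧ t y = none ∧ ∀ i a, t i = some a → a < q i := by
  rw [zq, mem_grid]
  refine ⟨fun h => ⟨Option.eq_none_iff_forall_ne_some.2 fun a e => by simpa using h _ a e,
    Option.eq_none_iff_forall_ne_some.2 fun a e => by simpa using h _ a e, fun i a e => ?_⟩,
    fun h i a e => ?_⟩
  · have := h i a e
    split_ifs at this <;> omega
  · rw [if_neg]
    · exact h.2.2 i a e
    · rintro (rfl | rfl) <;> simp_all

theorem ok (h : XY x y) (hT : T.Cl) (hv : ∀ j A, 0 < v j A) : (gB x y q s T v).Ok :=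
  ⟨h, dc_grid _, fun _ a => (mem_zq.1 a).1, fun _ a => (mem_zq.1 a).2.1, hT, fun _ _ => hv _ _,
    fun _ _ => hv _ _, fun _ _ => hv _ _⟩

theorem pu_zq (h : (gB x y q s T v).Ok) {t : Pt ι} (a : t ∈ grid q) :
    (gB x y q s T v).pu t none none ∈ zq x y q :=
  mem_zq.2 ⟨pu_x .., h.pu_y .., fun i b e => mem_grid.1 a i b (by
    unfold pu at e; split_ifs at e; exact e)⟩

theorem D_eq (h : (gB x y q s T v).Ok) (hx : q x = Q) (hy : q y = Q) :
    (gB x y q s T v).D (univ : Finset (Fin Q × Fin Q)) = grid q := by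
  ext w
  rw [h.mem_D]
  refine ⟨fun ⟨a, j, p, r⟩ => mem_grid.2 (h.xy.all.2 ⟨fun b e => ?_, fun b e => ?_,
    fun i c d b e => (mem_zq.1 a).2.2 i b (by rwa [pu_ne _ _ _ c d])⟩), fun a => ⟨pu_zq h a, ?_⟩⟩
  · rw [p] at e
    change b < q x
    rcases j with _ | a | b | f <;> simp only [jx, reduceCtorEq, Option.some.injEq] at e <;> omega
  · rw [r] at e
    change b < q y
    rcases j with _ | a | b | f <;> simp only [jy, reduceCtorEq, Option.some.injEq] at e <;> omega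
  · have a := mem_grid.1 a
    change ∃ j : Jc _, w x = jx j ∧ w y = jy j
    rcases e : w x with _ | b <;> rcases e' : w y with _ | c
    exacts [⟨.inl (), rfl, rfl⟩, ⟨.inr (.inr (.inl ⟨c, hy ▸ a _ _ e'⟩)), rfl, rfl⟩,
      ⟨.inr (.inl ⟨b, hx ▸ a _ _ e⟩), rfl, rfl⟩,
      ⟨.inr (.inr (.inr ⟨(⟨b, hx ▸ a _ _ e⟩, ⟨c, hy ▸ a _ _ e'⟩), mem_univ _⟩)), rfl, rfl⟩]

theorem V_eq (h : (gB x y q s T v).Ok)
    (hs : ∀ j A, x ∉ A → y ∉ A → v j (insert y A) = v j (insert x A)) :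
    (gB x y q s T v).V 1 1 = fun j w => v j (bl w) := by
  funext j t
  have m : ∀ i, i ∈ bl ((gB x y q s T v).pu t none none) ↔ i ≠ x ∧ i ≠ y ∧ t i ≠ none := fun i => by
    rw [mem_bl, pu]; split_ifs with a b <;> simp_all [gB]
  unfold V
  simp only [div_one]
  split_ifs with a b b
  · refine congrArg (v j) (ext fun i => ?_)
    rw [m, mem_bl]
    exact ⟨fun k => k.2.2, fun k => ⟨by rintro rfl; exact k a, by rintro rfl; exact k b, k⟩⟩
  · refine (hs j _ (by simp [m]) (by simp [m])).symm.trans (congrArg (v j) (ext fun i => ?_))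
    rw [mem_insert, m, mem_bl]
    refine ⟨?_, fun k => (em _).imp_right fun c => ⟨by rintro rfl; exact k a, c, k⟩⟩
    rintro (rfl | k)
    exacts [b, k.2.2]
  · refine congrArg (v j) (ext fun i => ?_)
    rw [mem_insert, m, mem_bl]
    refine ⟨?_, fun k => (em _).imp_right fun c => ⟨c, by rintro rfl; exact k b, k⟩⟩
    rintro (rfl | k)
    exacts [a, k.2.2]
  · refine congrArg (v j) (ext fun i => ?_)
    rw [mem_insert, mem_insert, m, mem_bl]
    refine ⟨?_, fun k => (em _).imp_right fun c => (em _).imp_right fun d => ⟨c, d, k⟩⟩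
    rintro (rfl | rfl | k)
    exacts [a, b, k.2.2]

theorem prod_pts (h : (gB x y q s T v).Ok) (hx : q x = Q) (hy : q y = Q) (g : Pt ι → ℝ) :
    ∏ ω ∈ pts q, g ω = ∏ e : (univ : Finset (Fin Q × Fin Q)), ∏ ω ∈ zp x y q,
      g ((gB x y q s T v).pu ω (some e.1.1) (some e.1.2)) := by
  rw [← prod_product']
  refine (prod_bij (fun p _ => (gB x y q s T v).pu p.2 (some p.1.1.1) (some p.1.1.2)) ?_ ?_ ?_
    fun _ _ => rfl).symm
  · rintro ⟨e, ω⟩ m
    obtain ⟨m1, m2⟩ := mem_filter.1 (mem_product.1 m).2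
    refine mem_pts.2 (h.xy.all.2 ⟨⟨_, hx ▸ e.1.1.2, pu_x ..⟩, ⟨_, hy ▸ e.1.2.2, h.pu_y ..⟩,
      fun i a b => ?_⟩)
    obtain ⟨c, hc⟩ := Option.ne_none_iff_exists'.1 (m2 i a b)
    exact ⟨c, (mem_zq.1 m1).2.2 i c hc, by rw [pu_ne _ _ _ a b, hc]⟩
  · rintro ⟨e, ω⟩ m ⟨e', ω'⟩ m' k
    have m1 := mem_zq.1 (mem_filter.1 (mem_product.1 m).2).1
    have m2 := mem_zq.1 (mem_filter.1 (mem_product.1 m').2).1
    refine Prod.ext (Subtype.ext (Prod.ext (Fin.ext ?_) (Fin.ext ?_)))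
      (funext (h.xy.all.2 ⟨m1.1.trans m2.1.symm, m1.2.1.trans m2.2.1.symm, fun i a b => ?_⟩))
    · simpa [pu_x] using congrFun k (gB x y q s T v).x
    · simpa [h.pu_y] using congrFun k (gB x y q s T v).y
    · simpa [pu_ne _ _ _ a b] using congrFun k i
  · intro ω m
    obtain ⟨a, a1, a2⟩ := mem_pts.1 m x
    obtain ⟨b, b1, b2⟩ := mem_pts.1 m y
    refine ⟨(⟨(⟨a, hx ▸ a1⟩, ⟨b, hy ▸ b1⟩), mem_univ _⟩, (gB x y q s T v).pu ω none none),
      mem_product.2 ⟨mem_univ _, mem_filter.2 ⟨pu_zq h (pts_grid m), fun i c d => ?_⟩⟩, ?_⟩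
    · exact (pu_ne (B := gB x y q s T v) ω none none c d).trans_ne
        (mem_bl.1 (pts_bl m ▸ mem_univ i))
    · change (gB x y q s T v).pu _ (some a) (some b) = ω
      rw [pu_pu, ← a2, ← b2]
      exact pu_self (B := gB x y q s T v) ω

theorem GS_eq {D : Finset (Pt ι)} {V : ℕ → Pt ι → ℝ} (e : D = grid q)
    (e' : V = fun j w => v j (bl w)) (f : (T.C → ℤ) → ℝ) : Top.GS T s q v f =
    (T.sh (tw s D V)).E fun z => ∏ ω ∈ pts q, f (T.pw (tw s D V) (chi V ω) z) := by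
  subst e e'; rfl

end Gr

theorem grd : GRD := by
  intro ι _ _ x y q s Q T v xy hT hv hs hx hy
  have h : (gB x y q s T v).Ok := Gr.ok xy hT hv
  refine ⟨h, fun hp f => (Gr.GS_eq (Gr.D_eq h hx hy) (Gr.V_eq h hs) f).trans ?_⟩
  refine congrArg _ (funext fun z => ?_)
  obtain ⟨c, rfl⟩ := (h.cE 1 1).surjective z
  rw [Gr.prod_pts h hx hy]
  simp only [Ok.PG, Equiv.symm_apply_apply, ← hp _ _ _ 1 1 c]
  rfl

theorem szb : SZB := by
  intro ι _ _ B h k l Γ c c' a n ha hc hc' h1 hn hv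
  have : Nonempty ι := ⟨B.x⟩
  refine tw_sz h.dc_D ha (fun j t => ?_) h1 (le_trans (Nat.mul_le_mul_left _ ?_) hn)
  · unfold V; split_ifs
    exacts [(hv _ _).1, (le_div_iff₀ hc').2 (hv _ _).2.2.2, (le_div_iff₀ hc).2 (hv _ _).2.2.1,
      (hv _ _).2.1]
  · refine card_image_le.trans ?_
    have : #Γ ≤ k * l := (card_le_univ Γ).trans_eq (by simp)
    rw [card_product, mul_comm]
    refine Nat.mul_le_mul_left _ ?_
    simp only [card_univ, Fintype.card_sum, Fintype.card_unique, Fintype.card_fin, Fintype.card_coe]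
    nlinarith

end Crest.Agent.N49.Br

end
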