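import Crest.Agent.N49.Br.Lf0

/-!
# Row 49 (helper70): a popular set of backgrounds satisfies the hypotheses of the KM step
-/

set_option autoImplicit false
set_option linter.unusedSectionVars false

open Finset Matrix

noncomputable section

namespace Crest.Agent.N49.Br

open Po

namespace Lf

variable {I : Type} [Fintype I] [DecidableEq I] {k l : ℕ}

variable {Z : Type} {ρ : Z → ℝ} {Mx My : Z → Matrix I I ℝ} {t t' : Z → I → ℝ}
  {ν : Z → (I → ℤ) → ℝ} {n : ℕ} {η : ℝ}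

theorem mass (h : MS ρ Mx My t t' ν n η) (hx : ∀ z, (Mx z).PosDef) (hy : ∀ z, (My z).PosDef) :
    ∃ s, |s - 1| ≤ η ∧ HasSum ρ s := by
  obtain ⟨s, a, b⟩ := h 0 n.zero_le 0 n.zero_le ∅
  refine ⟨s, a, ?_⟩
  simpa only [XC_empty (ms_gd (hx _) _) (ms_gd (hy _) _) _ rfl, pow_zero, mul_one] using b

theorem dev1 (h : MS ρ Mx My t t' ν (2 * n) η) (hx : ∀ z, (Mx z).PosDef) (hy : ∀ z, (My z).PosDef)
    (ν0 : ∀ z x, 0 ≤ ν z x) (νB : ∀ z, ∃ B, ∀ x, ν z x ≤ B) (hk : k ≤ n) (hl : l ≤ n)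
    (Γ : Finset (Fin k × Fin l)) : ∃ s ≤ 4 * η,
      HasSum (fun z => ρ z * (XC (gd (Mx z) (t z)) (gd (My z) (t' z)) (ν z) Γ - 1) ^ 2) s := by
  obtain ⟨s0, a0, b0⟩ := mass h hx hy
  obtain ⟨s1, a1, b1⟩ := h k (by omega) l (by omega) Γ
  obtain ⟨s2, a2, b2⟩ := h (k + k) (by omega) (l + l) (by omega) (db Γ)
  rw [abs_le] at a0 a1 a2
  refine ⟨s2 - 2 * s1 + s0, by linarith, ?_⟩
  refine hcg ((b2.sub (b1.mul_left 2)).add b0) fun z => ?_
  obtain ⟨B, hB⟩ := νB z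
  rw [XC_db (ms_gd (hx z) _) (ms_gd (hy z) _) (ν0 z) hB]
  ring

theorem dev (h : MS ρ Mx My t t' ν (2 * n) η) (hx : ∀ z, (Mx z).PosDef) (hy : ∀ z, (My z).PosDef)
    (ν0 : ∀ z x, 0 ≤ ν z x) (νB : ∀ z, ∃ B, ∀ x, ν z x ≤ B) (hn : 2 ≤ n) :
    ∃ (D : Z → ℝ) (s : ℝ), (∀ z, 0 ≤ D z) ∧ s ≤ ((n + 1) ^ 2 + 16) * (4 * η) ∧
      HasSum (fun z => ρ z * D z) s ∧
      ∀ z δ, 0 ≤ δ → D z ≤ δ ^ 2 → Cl (Mx z) (My z) (t z) (t' z) (ν z) n δ := by
  choose s a b using fun q : Fin (n + 1) × Fin (n + 1) =>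
    dev1 h hx hy ν0 νB (Nat.lt_succ_iff.1 q.1.2) (Nat.lt_succ_iff.1 q.2.2) univ
  choose s' a' b' using fun Γ : Finset (Fin 2 × Fin 2) => dev1 h hx hy ν0 νB hn hn Γ
  have p1 := fun z => sum_nonneg fun (q : Fin (n + 1) × Fin (n + 1)) (_ : q ∈ univ) => sq_nonneg
    (XC (gd (Mx z) (t z)) (gd (My z) (t' z)) (ν z) (univ : Finset (Fin q.1 × Fin q.2)) - 1)
  have p2 := fun z => sum_nonneg fun (Γ : Finset (Fin 2 × Fin 2)) (_ : Γ ∈ univ) => sq_nonneg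
    (XC (gd (Mx z) (t z)) (gd (My z) (t' z)) (ν z) Γ - 1)
  refine ⟨_, ∑ q, s q + ∑ Γ, s' Γ, fun z => add_nonneg (p1 z) (p2 z), ?_, ?_, fun z δ d0 hd =>
    ⟨fun k hk l hl => abs_le.2 (abs_le_of_sq_le_sq' ?_ d0), fun Γ =>
      abs_le.2 (abs_le_of_sq_le_sq' ?_ d0)⟩⟩
  · have := sum_le_card_nsmul univ s _ fun q _ => a q
    have := sum_le_card_nsmul univ s' _ fun q _ => a' q
    simp only [card_univ, Fintype.card_prod, Fintype.card_fin, Fintype.card_finset, nsmul_eq_mul]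
      at *
    push_cast at *
    linarith
  · simpa only [mul_add, mul_sum] using (hasSum_sum fun q _ => b q).add (hasSum_sum fun Γ _ => b' Γ)
  · have := single_le_sum (fun (q : Fin (n + 1) × Fin (n + 1)) _ => sq_nonneg (XC (gd (Mx z) (t z))
      (gd (My z) (t' z)) (ν z) (univ : Finset (Fin q.1 × Fin q.2)) - 1))
      (mem_univ (⟨k, by omega⟩, ⟨l, by omega⟩))
    linarith [p2 z]
  · have := single_le_sum (fun (Γ : Finset (Fin 2 × Fin 2)) _ => sq_nonneg (XC (gd (Mx z) (t z))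
      (gd (My z) (t' z)) (ν z) Γ - 1)) (mem_univ Γ)
    linarith [p1 z]

theorem pop {X Y E : Z → ℝ} {t m y e c s : ℝ} (W : Set Z) (ρ0 : ∀ z, 0 ≤ ρ z)
    (hX : HasSum (fun z => ρ z * X z) t) (hm : HasSum ρ m) (hY : HasSum (fun z => ρ z * Y z) y)
    (hE : HasSum (fun z => ρ z * E z) e) (XY : ∀ z, X z ^ 2 ≤ Y z) (E0 : ∀ z, 0 ≤ E z)
    (hW : ∀ z, c < X z → E z < 1 → z ∈ W) (hs : 0 < s) (hc : 0 ≤ c) :
    t ≤ c * m + s / 2 * (∑' z, W.indicator ρ z + e) + y / (2 * s) := by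
  have hI := (hm.summable.indicator W).hasSum
  refine hasSum_le (fun z => ?_) hX
    (((hm.mul_left c).add ((hI.add hE).mul_left (s / 2))).add (hY.div_const (2 * s)))
  have i0 : (0 : ℝ) ≤ W.indicator 1 z := Set.indicator_nonneg (fun _ _ => zero_le_one) z
  have y0 : 0 ≤ Y z / (2 * s) := div_nonneg ((sq_nonneg _).trans (XY z)) (by linarith)
  have key : X z ≤ c + s / 2 * (W.indicator 1 z + E z) + Y z / (2 * s) := by
    by_cases h : X z ≤ c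
    · nlinarith [E0 z]
    · have a : 1 ≤ W.indicator 1 z + E z := by
        by_cases h' : E z < 1
        · rw [Set.indicator_of_mem (hW z (not_le.1 h) h')]; simpa using E0 z
        · linarith
      have b : X z - s / 2 ≤ Y z / (2 * s) := by
        rw [le_div_iff₀ (by linarith)]; nlinarith [XY z, sq_nonneg (X z - s)]
      nlinarith
  have e : W.indicator ρ z = ρ z * W.indicator 1 z := by by_cases h : z ∈ W <;> simp [h]
  rw [e]
  exact (mul_le_mul_of_nonneg_left key (ρ0 z)).trans_eq (by ring)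

theorem num {P : ℕ} (hP : 2 ≤ P) : ((P ^ 7 : ℕ) : ℝ) ≤ 2 ^ P ^ 68 ∧
    ((((P ^ 7 : ℕ) : ℝ) + 1) ^ 2 + 16) * (2 ^ P ^ 3) ^ 4 * 2 ^ 18 ≤ 2 ^ P ^ 68 ∧
    (1 : ℝ) / 2 ^ P ^ 70 ≤ 1 / (2 ^ P ^ 68) ^ 4 := by
  have a : P ^ 3 ≤ P ^ 7 := Nat.pow_le_pow_right (by omega) (by norm_num)
  have b : 2 ^ 61 * P ^ 7 ≤ P ^ 68 := by
    rw [show P ^ 68 = P ^ 61 * P ^ 7 by ring]
    exact Nat.mul_le_mul_right _ (Nat.pow_le_pow_left hP 61)
  have c : 1 ≤ P ^ 7 := Nat.one_le_pow _ _ (by omega)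
  have d : ((P ^ 7 : ℕ) : ℝ) + 1 ≤ 2 ^ P ^ 7 := by exact_mod_cast Nat.lt_two_pow_self
  have e : (1 : ℝ) ≤ 2 ^ P ^ 7 := one_le_pow₀ one_le_two
  refine ⟨(by linarith : _ ≤ (2 : ℝ) ^ P ^ 7).trans (pow_le_pow_right₀ one_le_two (by omega)),
    ?_, one_div_le_one_div_of_le (by positivity) ?_⟩
  · calc _ ≤ (2 ^ 5 * (2 ^ P ^ 7) ^ 2) * (2 ^ P ^ 3) ^ 4 * (2 : ℝ) ^ 18 := by
          gcongr
          nlinarith [Nat.cast_nonneg (α := ℝ) (P ^ 7)]
      _ = 2 ^ (5 + P ^ 7 * 2 + P ^ 3 * 4 + 18) := by simp only [pow_add, pow_mul]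
      _ ≤ _ := pow_le_pow_right₀ one_le_two (by omega)
  · rw [← pow_mul]
    refine pow_le_pow_right₀ one_le_two ?_
    rw [show P ^ 70 = P ^ 68 * (P * P) by ring]
    exact Nat.mul_le_mul_left _ (Nat.mul_le_mul hP hP)

theorem fin {A N K G w e η : ℝ} (A1 : 1 ≤ A) (K1 : 1 ≤ K) (hN : K * A ^ 4 * 2 ^ 18 ≤ N)
    (hG : 1 / A ≤ G) (hη : η ≤ 1 / N ^ 4) (he : e ≤ 3 * (K * (4 * η)) * (64 * N) ^ 2 + 20 * η)
    (h : 4 * G ≤ 2 * G * (1 + η) + 2 * A ^ 3 / 2 * (w + e) + A ^ 2 * (1 + η) / (2 * (2 * A ^ 3))) :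
    1 / (A ^ 4 * 2 ^ 10) ≤ w := by
  have A4 : 1 ≤ A ^ 4 := one_le_pow₀ A1
  have N1 : 2 ≤ N := by nlinarith [mul_le_mul K1 A4 zero_le_one (by linarith)]
  have N2 : 4 ≤ N ^ 2 := by nlinarith
  have η1 : η ≤ 1 / 2 := hη.trans (one_div_le_one_div_of_le two_pos (by nlinarith))
  have G0 : 0 < G := (by positivity : 0 < 1 / A).trans_le hG
  have a : A ^ 2 * (1 + η) / (2 * (2 * A ^ 3)) ≤ 1 / A / 2 := by
    rw [div_le_iff₀ (by positivity), show 1 / A / 2 * (2 * (2 * A ^ 3)) = A ^ 2 * 2 by field_simp]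
    gcongr; linarith
  have b : 1 / A / 2 ≤ A ^ 3 * (w + e) := by nlinarith
  have c : 1 / A ^ 4 / 2 ≤ w + e := by
    refine le_of_mul_le_mul_left ?_ (by positivity : 0 < A ^ 3)
    rwa [show A ^ 3 * (1 / A ^ 4 / 2) = 1 / A / 2 by field_simp]
  have d : e ≤ 2 ^ 16 * K / N := by
    calc e ≤ 3 * (K * (4 * (1 / N ^ 4))) * (64 * N) ^ 2 + 20 * (1 / N ^ 4) := by
          refine he.trans ?_; gcongr
      _ = (49152 * K * N ^ 2 + 20) / N ^ 3 / N := by field_simp; ring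
      _ ≤ _ := by
        gcongr
        rw [div_le_iff₀ (by positivity)]
        have : N ^ 2 ≤ N ^ 3 := pow_le_pow_right₀ (by linarith) (by norm_num)
        nlinarith [mul_le_mul_of_nonneg_left this (show 0 ≤ K by linarith),
          mul_le_mul K1 (N2.trans this) (by norm_num) (show 0 ≤ K by linarith)]
  have f : 2 ^ 16 * K / N ≤ 1 / A ^ 4 / 4 := by
    rw [div_div, div_le_div_iff₀ (by linarith) (by positivity)]; linarith
  have g : 1 / (A ^ 4 * 2 ^ 10) = 1 / A ^ 4 / 1024 := by rw [div_div]; norm_num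
  have : 0 < 1 / A ^ 4 := by positivity
  linarith

end Lf

set_option maxHeartbeats 1000000 in
open Lf in
theorem lfa (I : Type) [Fintype I] [DecidableEq I] : LFA I := by
  intro Z ρ Mx My Ms θ θ' g ν P Q γ η t hQ hP ρ0 pd qq gν νB γ1 γ2 hη m1 m2 m3 m4 ht hX
  have P2 : 2 ≤ P := hQ.trans hP
  have px := fun z => (pd z).1
  have py := fun z => (pd z).2.1
  have ps := fun z => (pd z).2.2
  have pc := fun z => (py z).smul (Kg.cw_pos (I := I))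
  have pm : ∀ z, (mp (Mx z) (My z)).PosDef := fun z => ((px z).inv.add (pc z).inv).inv
  have p2 := fun z => (ps z).smul (two_pos : (0 : ℝ) < 2)
  have ν0 := fun z x => (gν z x).2.2
  have Pn : P ≤ P ^ 7 := Nat.le_self_pow (by norm_num) P
  have n2 : 2 ≤ P ^ 7 := P2.trans Pn
  obtain ⟨u1, u2, u3⟩ := num P2
  obtain ⟨D1, s1, a1, b1, c1, d1⟩ := dev m1 px py ν0 νB n2
  obtain ⟨D2, s2, a2, b2, c2, d2⟩ := dev m2 px pc ν0 νB n2
  obtain ⟨D3, s3, a3, b3, c3, d3⟩ := dev m3 pm ps ν0 νB n2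
  obtain ⟨m, am, bm⟩ := mass m1 px py
  obtain ⟨r, ar, br⟩ := m4 0 zero_le_one 1 le_rfl ∅
  obtain ⟨y, ay, hy⟩ := m1 (Q + Q) (by omega) (Q + Q) (by omega) (db univ)
  have er : ∀ z, XC (gd (Mx z) (θ z)) (gd ((2 : ℝ) • Ms z) ((0 : Z → I → ℝ) z)) (ν z)
      (∅ : Finset (Fin 0 × Fin 1)) = th ((2 : ℝ) • Ms z)⁻¹ 0 := fun z => by
    rw [XC_empty (ms_gd (px z) _) (ms_gd (p2 z) _) _ rfl, Pi.zero_apply, th_dual (p2 z), pow_zero,
      pow_one, one_mul, mul_div_cancel_left₀ _ (dt_pos (p2 z)).ne']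
  simp only [er] at br
  set N : ℝ := 2 ^ P ^ 68 with hN
  set A : ℝ := 2 ^ P ^ 3 with hA
  have N0 : 0 < N := by positivity
  have A1 : 1 ≤ A := one_le_pow₀ one_le_two
  have γ0 : 0 < γ := (by positivity : (0 : ℝ) < 1 / 2 ^ P).trans_le γ1
  have QA : ((2 : ℝ) ^ P) ^ (Q * Q) ≤ A := by
    rw [← pow_mul]
    exact pow_le_pow_right₀ one_le_two (by
      rw [show P ^ 3 = P * (P * P) by ring]; exact Nat.mul_le_mul_left _ (Nat.mul_le_mul hP hP))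
  have GA : 1 / A ≤ γ ^ (Q * Q) := (one_div_le_one_div_of_le (by positivity) QA).trans (by
    rw [← _root_.one_div_pow]; exact pow_le_pow_left₀ (by positivity) γ1 _)
  have hδ : 20 * ((P ^ 7 : ℕ) : ℝ) * (1 / (64 * N)) ≤ 1 := by
    rw [mul_one_div, div_le_one (by positivity)]; linarith
  have eδ : 32 * (1 / (64 * N)) = 1 / 2 ^ (P ^ 68 + 1) := by rw [pow_succ, ← hN]; field_simp; norm_num
  have r1 := fun z => one_le_th (p2 z).inv
  rw [abs_le] at am ar ay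
  refine ⟨{z | HK (Mx z) (My z) (Ms z) (θ z) (θ' z) (g z) (ν z) P Q γ}, ?_, fun z hz => hz⟩
  rw [pow_add, mul_comm 4, pow_mul]
  refine fin (η := η) A1 (by nlinarith [sq_nonneg (((P ^ 7 : ℕ) : ℝ) + 1)]) u2 GA (hη.trans u3)
    (e := (s1 + s2 + s3) * (64 * N) ^ 2 + 10 * (r - m)) (by nlinarith [sq_nonneg (64 * N)])
    ((ht.trans (pop (X := fun z => XC (gd (Mx z) (θ z)) (gd (My z) (θ' z)) (g z) univ)
    (Y := fun z => A ^ 2 * XC (gd (Mx z) (θ z)) (gd (My z) (θ' z)) (ν z) (db univ))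
    (E := fun z => (D1 z + D2 z + D3 z) * (64 * N) ^ 2 + 10 * (th ((2 : ℝ) • Ms z)⁻¹ 0 - 1))
    (c := 2 * γ ^ (Q * Q)) (s := 2 * A ^ 3) _ ρ0 hX bm (hcg (hy.mul_left (A ^ 2)) fun z => by ring)
    (hcg ((((c1.add c2).add c3).mul_right ((64 * N) ^ 2)).add
      ((br.sub bm).mul_left 10)) fun z => by ring) (fun z => ?_)
    (fun z => by nlinarith [a1 z, a2 z, a3 z, r1 z, sq_nonneg (64 * N)]) (fun z hz hE => ?_)
    (by positivity) (by positivity))).trans (by gcongr <;> linarith))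
  · obtain ⟨B, hB⟩ := νB z
    have mx := ms_gd (px z) (θ z)
    have my := ms_gd (py z) (θ' z)
    have g0 := fun x => (gν z x).1
    have g1 := fun x => (gν z x).2.1
    have hg := hs mx my g0 (fun x => (g1 x).trans (mul_le_mul_of_nonneg_left (hB x) (by positivity)))
      (univ : Finset (Fin Q × Fin Q))
    have hν := hs mx my (ν0 z) hB (univ : Finset (Fin Q × Fin Q))
    have := hasSum_le (xw_le mx my g0 g1 univ) hg (hν.mul_left _)
    rw [card_univ, Fintype.card_prod, Fintype.card_fin] at this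
    rw [XC_db mx my (ν0 z) hB, ← mul_pow]
    exact pow_le_pow_left₀ (hg.nonneg (xw_nonneg mx my g0 _))
      (this.trans (mul_le_mul_of_nonneg_right QA (hν.nonneg (xw_nonneg mx my (ν0 z) _)))) 2
  · obtain ⟨B, hB⟩ := νB z
    have w : ∀ D, D ≤ D1 z + D2 z + D3 z → D ≤ (1 / (64 * N)) ^ 2 := fun D hD => by
      rw [_root_.one_div_pow, le_div_iff₀ (by positivity)]
      nlinarith [r1 z, sq_nonneg (64 * N)]
    have e1 := d1 z _ (by positivity) (w _ (by linarith [a2 z, a3 z]))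
    have e2 := d2 z _ (by positivity) (w _ (by linarith [a1 z, a3 z]))
    have e3 := d3 z _ (by positivity) (w _ (by linarith [a1 z, a2 z]))
    have sm : th ((2 : ℝ) • Ms z)⁻¹ 0 ≤ 11 / 10 := by
      nlinarith [a1 z, a2 z, a3 z, sq_nonneg (64 * N)]
    refine ⟨sm, Kg.sm_anti ((py z).smul two_pos) (p2 z) (fun x => ?_) sm, ?_,
      eδ ▸ e1.lf (px z) (py z) (ν0 z) hB n2 hδ, eδ ▸ e2.lf (px z) (pc z) (ν0 z) hB n2 hδ,
      fun l hl => ?_⟩
    · rw [qf_smul, qf_smul]; linarith [(qq z x).2]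
    · have := e1.mass (px z) (py z) (by omega) hδ (hP.trans Pn) (hP.trans Pn)
      rw [GC_eq (px z) (py z), lt_div_iff₀ (by linarith)]
      exact (mul_lt_mul_of_pos_left this.2 (pow_pos γ0 _)).trans (by linarith)
    · have := e3.lf (pm z) (ps z) (ν0 z) hB n2 hδ
      exact (this.1 1 (by omega) l hl).trans (by norm_num)

end Crest.Agent.N49.Br

end
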