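import Crest.Agent.N49.Br.Fl
import Crest.Agent.N49.Br.Lfa
import Crest.Agent.N49.Tw.Exp

/-!
# Row 49 (helper70): the Kelley–Meka hypotheses on a popular set of backgrounds
-/

set_option autoImplicit false

open Matrix Finset

noncomputable section

namespace Crest.Agent.N49.Br

open Po Tw

theorem mp_self {I : Type} [Fintype I] [DecidableEq I] {M : Matrix I I ℝ} (hM : M.PosDef) :
    mp M M = (1 + (cw I)⁻¹)⁻¹ • M := by
  have c := Kg.cw_pos (I := I)
  have u := hM.det_pos.ne'.isUnit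
  have e : (cw I • M)⁻¹ = (cw I)⁻¹ • M⁻¹ := inv_eq_right_inv (by
    rw [smul_mul_smul_comm, mul_nonsing_inv _ u, mul_inv_cancel₀ c.ne', one_smul])
  refine inv_eq_right_inv ?_
  rw [e, show M⁻¹ + (cw I)⁻¹ • M⁻¹ = (1 + (cw I)⁻¹) • M⁻¹ by rw [add_smul, one_smul],
    smul_mul_smul_comm, nonsing_inv_mul _ u, mul_inv_cancel₀ (by positivity), one_smul]

theorem half_le_cw (I : Type) [Fintype I] [DecidableEq I] : 1 / 2 ≤ cw I := by
  unfold cw
  rw [div_le_div_iff₀ two_pos (by positivity)]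
  linarith [Nat.cast_nonneg (α := ℝ) (Fintype.card I)]

variable {ι : Type} [Fintype ι] [LinearOrder ι] {B : Bd ι}

theorem kmt (h : B.Ok) (hF : h.FAC) (hL : h.LIN) (hH : h.HID) : h.KMT := by
  intro G P Q γ η lam hQ hP hl hG γ1 γ2 hη hM hE
  obtain ⟨w0, ρ0, sm, b, hb⟩ := hH
  have pd := fun z => (hL z).1
  have ms : ∀ c c' : ℝ, 1 / 3 ≤ c → c ≤ 1 → 1 / 3 ≤ c' → c' ≤ 2 * lam → ∀ n ≤ 2 * P ^ 7,
      MS h.rho (fun z => c • h.M z) (fun z => c' • h.M z) h.ce 0 (h.av fun _ _ _ => 1) n η := by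
    intro c c' a1 a2 a3 a4 n hn k hk l hl Γ
    refine ⟨_, ?_, hF k l Γ c c' (by linarith) (by linarith) (fun _ _ _ => 1) 1
      fun _ _ _ => ⟨zero_le_one, le_rfl⟩⟩
    have zc := (TS.sh_tri h.cl (h.ok_S (Γ := Γ) (c := c) (c' := c') (by linarith)
      (by linarith))).Zc_pos
    have e : (B.T.sh (B.S Γ c c')).S (h.PG Γ c c' fun _ _ _ => 1) = (B.T.sh (B.S Γ c c')).Z :=
      (congrArg _ (funext fun y => prod_const_one)).trans (TS.S_one _)
    rw [e, div_sub_one zc.ne', abs_div, abs_of_pos zc, div_le_iff₀ zc]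
    exact hM k (hk.trans hn) l (hl.trans hn) Γ c c' a1 a2 a3 a4
  have c0 := half_le_cw B.I
  have c1 := Kg.cw_le (I := B.I)
  have c2 : 1 ≤ (cw B.I)⁻¹ := (one_le_inv₀ (by linarith)).2 c1
  have c3 : (cw B.I)⁻¹ ≤ 2 := inv_le_of_inv_le₀ two_pos (by linarith)
  have Pn : P ≤ P ^ 7 := Nat.le_self_pow (by norm_num) P
  have hX := hF Q Q univ 1 1 one_pos one_pos G _ hG
  simp only [one_smul] at hX
  refine lfa B.I _ h.rho h.M h.M (fun z => lam • h.M z) h.ce 0 (h.av G) (h.av fun _ _ _ => 1) P Q γ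
    η _ hQ hP ρ0 (fun z => ⟨pd z, pd z, (pd z).smul (by linarith)⟩) (fun z x => ⟨le_rfl, ?_⟩)
    (fun z x => ⟨tsum_nonneg fun e => mul_nonneg (w0 _ _ _) (hG _ _ _).1, ?_,
      tsum_nonneg fun e => mul_nonneg (w0 _ _ _) zero_le_one⟩)
    (fun z => ⟨b, fun x => by simpa only [Bd.Ok.av, mul_one] using hb z x⟩) γ1 γ2 hη ?_ ?_ ?_ ?_ ?_ hX
  · rw [qf_smul]; nlinarith [qf_nonneg (pd z) x]
  · have k : ∀ e, h.wH z x e * G z x e ≤ 2 ^ P * (h.wH z x e * 1) := fun e => by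
      rw [mul_one, mul_comm]; exact mul_le_mul_of_nonneg_right (hG _ _ _).2 (w0 _ _ _)
    have s := ((sm z x).mul_right 1).mul_left (2 ^ P)
    exact ((Summable.of_nonneg_of_le (fun e => mul_nonneg (w0 _ _ _) (hG _ _ _).1) k
      s).tsum_le_tsum k s).trans_eq tsum_mul_left
  · simpa only [one_smul] using ms 1 1 (by norm_num) le_rfl (by norm_num) (by linarith) _ le_rfl
  · simpa only [one_smul] using ms 1 (cw B.I) (by norm_num) le_rfl (by linarith) (by linarith) _ le_rfl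
  · simp only [add_zero, mp_self (pd _)]
    exact ms _ lam (le_inv_of_le_inv₀ (by linarith) (by linarith))
      (inv_le_one_of_one_le₀ (by linarith)) (by linarith) (by linarith) _ le_rfl
  · simpa only [one_smul, smul_smul] using
      ms 1 (2 * lam) (by norm_num) le_rfl (by linarith) le_rfl 1 (by omega)
  · have t := TS.sh_tri h.cl (h.ok_S (Γ := (univ : Finset (Fin Q × Fin Q))) one_pos one_pos)
    have m := (abs_le.1 (hM Q (by omega) Q (by omega) univ 1 1 (by norm_num) le_rfl (by norm_num)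
      (by linarith))).1
    have η1 : η ≤ 1 / 2 := hη.trans (one_div_le_one_div_of_le two_pos
      (le_self_pow₀ one_le_two (pow_pos (by omega) _).ne'))
    have g : 0 < γ ^ (Q * Q) := pow_pos ((by positivity : (0 : ℝ) < 1 / 2 ^ P).trans_le γ1) _
    rw [TS.E, le_div_iff₀ t.Z_pos] at hE
    rw [le_div_iff₀ t.Zc_pos]
    nlinarith [t.Zc_pos, mul_le_mul_of_nonneg_right η1 t.Zc_pos.le]

end Crest.Agent.N49.Br

end
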