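import Crest.Agent.N49.Br.Fl
/-! Row 49 (helper68): block structure of the matrices and of the points of a bipartite shape. -/
set_option autoImplicit false
set_option linter.unusedSectionVars false
open Matrix Finset
noncomputable section
namespace Crest.Agent.N49.Br
open Po Tw

variable {ι : Type} [Fintype ι] [LinearOrder ι]
namespace Bd
variable {B : Bd ι} {k l : ℕ} {Γ : Finset (Fin k × Fin l)} {c c' : ℝ}

theorem Ok.eC_F (h : B.Ok) (q : Σ j : Jc Γ, B.Cl (ja j) (jb j)) :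
    (h.eC c c' q).1.1 = q.2.1.1.1 := rfl
theorem Ok.eC_tr (h : B.Ok) (q : Σ j : Jc Γ, B.Cl (ja j) (jb j)) :
    Wd.tr (h.eC c c' q).1.2 = B.pu q.2.1.1.2.tr (jx q.1) (jy q.1) := rfl
theorem Ok.eC_lv (h : B.Ok) (q : Σ j : Jc Γ, B.Cl (ja j) (jb j)) :
    Wd.lv (h.eC c c' q).1.2 = q.2.1.1.2.lv := rfl

theorem Ok.eC_j (h : B.Ok) {q q' : Σ j : Jc Γ, B.Cl (ja j) (jb j)}
    (e : (h.eC c c' q).1.2 = (h.eC c c' q').1.2) : q.1 = q'.1 := by
  have e1 := congrArg Wd.tr e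
  rw [h.eC_tr, h.eC_tr] at e1
  exact j_inj (by simpa [pu_x] using congrFun e1 B.x) (by simpa [h.pu_y] using congrFun e1 B.y)

theorem Ok.eC_w (h : B.Ok) {j : Jc Γ} {p p' : B.Cl (ja j) (jb j)} :
    (h.eC c c' ⟨j, p⟩).1.2 = (h.eC c c' ⟨j, p'⟩).1.2 ↔ p.1.1.2 = p'.1.1.2 := by
  refine ⟨fun e => Wd.ext' (congrArg Wd.lv e :) (funext (h.xy.all.2 ⟨?_, ?_, fun i a b => ?_⟩)),
    fun e => Wd.ext' (congrArg Wd.lv e :) (by rw [h.eC_tr, h.eC_tr, e])⟩
  · rw [(h.val1 p.1.1.2.mem).1, (h.val1 p'.1.1.2.mem).1, p.2.1, p'.2.1]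
  · rw [(h.val1 p.1.1.2.mem).2, (h.val1 p'.1.1.2.mem).2, p.2.2, p'.2.2]
  · simpa [h.eC_tr, pu_ne _ _ _ a b] using congrFun (congrArg Wd.tr e) i

theorem Ok.V_pu (h : B.Ok) (j : Jc Γ) (n : ℕ) (t : Pt ι) :
    B.V c c' n (B.pu t (jx j) (jy j)) = B.vj c c' j n (B.pu t none none) := by
  rcases j with _ | a | b | e <;> simp [V, vj, jx, jy, pu_x, h.pu_y, pu_pu]

theorem Ok.le_pu (h : B.Ok) (t ω : Pt ι) (a b a' b' : Option ℕ) :
    Le (B.pu t a b) (B.pu ω a' b') ↔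
      (a ≠ none → a = a') ∧ (b ≠ none → b = b') ∧ Le (B.pu t none none) ω := by
  refine h.xy.all.trans (and_congr (by rw [pu_x, pu_x]) (and_congr (by rw [h.pu_y, h.pu_y])
    (Iff.trans ?_ h.xy.all.symm)))
  simp only [pu_x, h.pu_y, ne_eq, not_true, false_imp_iff, true_and]
  exact forall₃_congr fun i p q => by rw [pu_ne _ _ _ p q, pu_ne _ _ _ p q, pu_ne _ _ _ p q]

theorem pc_add (ω : Pt ι) {i j : Bool} (y y' : B.Cl i j → ℤ) :
    B.pc ω (y + y') = B.pc ω y + B.pc ω y' := funext fun _ => sum_add_distrib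

theorem pc_eq (ω : Pt ι) {i j : Bool} (y : B.Cl i j → ℤ) (F : B.T.C) (P : Prop) [Decidable P] :
    (∑ p : B.Cl i j, if p.1.1.1 = F then
      (if P ∧ Le (B.pu p.1.1.2.tr none none) ω then 1 else 0) * y p else 0) =
      if P then B.pc ω y F else 0 := by
  by_cases k : P
  · rw [if_pos k, pc, sum_filter]
    exact sum_congr rfl fun p _ => by simp [k, ite_and]
  · simp [k]
end Bd
open Bd

theorem kwb {B : Bd ι} (h : B.Ok) : h.KWB := fun k l Γ c c' N => by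
  refine ⟨fun j p p' => congrArg (N _ _ * ·) ?_, fun j p p' => congrArg (N _ _ * ·) ?_,
    fun p p' e => ?_⟩
  · exact if_congr h.eC_w (h.V_pu j _ _) rfl
  · exact if_congr h.eC_w rfl rfl
  · exact ⟨mul_eq_zero_of_right _ (if_neg fun k => e (h.eC_j k)),
      mul_eq_zero_of_right _ (if_neg fun k => e (h.eC_j k))⟩

theorem pts_ {B : Bd ι} (h : B.Ok) : h.PTS := fun k l Γ c c' q e ω => funext fun F => by
  rw [TS.pw, sum_filter, ← (h.eC c c').sum_comp, Fintype.sum_sigma]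
  simp only [h.cE_eC, chi, h.eC_tr, h.le_pu, h.eC_F, ← and_assoc, pc_eq, Fintype.sum_sum_type]
  simp only [jx, jy, ne_eq, not_true, false_imp_iff, and_self, if_true, reduceCtorEq,
    not_false_eq_true, true_imp_iff, Option.some.injEq, Fin.val_inj, and_true, true_and,
    sum_ite_eq', mem_univ, ← Prod.ext_iff, Subtype.val_inj, univ_unique, sum_singleton]
  simp only [pt, pc_add, Pi.add_apply, add_assoc]
  rfl
end Crest.Agent.N49.Br
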