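import Crest.Agent.N49.Br.Fl
import Crest.Agent.N49.Tw.Mas0

/-!
# Row 49 (helper85): the clones are lattice Gaussians, the hidden weights are bounded
-/

set_option autoImplicit false
set_option linter.unusedSectionVars false

open Matrix Finset

noncomputable section

namespace Crest.Agent.N49.Br

open Po Tw

namespace Li

theorem add_lin {C D : Type} [Fintype C] [DecidableEq C] (u : (C → ℤ) → D → ℝ)
    (h : ∀ a b p, u (a + b) p + u 0 p = u a p + u b p) (a : C → ℤ) :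
    u a = (Matrix.of fun p p' => u (Pi.single p' 1) p - u 0 p) *ᵥ zc a + u 0 := by
  funext p
  let f : (C → ℤ) →+ ℝ := AddMonoidHom.mk' (fun a => u a p - u 0 p) fun a b => by linarith [h a b p]
  have e : f a = ∑ c, (u (Pi.single c 1) p - u 0 p) * a c := by
    conv_lhs => rw [← univ_sum_single a, map_sum]
    refine sum_congr rfl fun c _ => ?_
    rw [show Pi.single c (a c) = a c • (Pi.single c 1 : C → ℤ) by rw [← Pi.single_smul]; simp,
      map_zsmul, zsmul_eq_mul, mul_comm]; rfl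
  exact eq_add_of_sub_eq e

theorem det_lin {σ : Type} {T : TS σ} (h : T.Tri) :
    (Matrix.of fun p p' => T.u (zc (Pi.single p' 1)) p - T.u (zc 0) p).det = T.A.det := by
  let N : Matrix T.C T.C ℝ := Matrix.of fun p p' =>
    zc (Pi.single p' 1) p - T.th (zc (Pi.single p' 1)) p - (zc 0 p - T.th (zc 0) p)
  have e : (Matrix.of fun p p' => T.u (zc (Pi.single p' 1)) p - T.u (zc 0) p) = T.A * N := by
    ext p p'
    simp only [of_apply, h.u_eq, mulVec, dotProduct, mul_apply, N, Pi.sub_apply, mul_sub,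
      sum_sub_distrib]
  have k : ∀ p p', T.lev p ≤ T.lev p' → N p p' = if p = p' then 1 else 0 := fun p p' l => by
    simp only [N, of_apply]
    rw [h.th_low (y' := zc 0) fun j hj => by
      rw [zc, zc, Pi.single_eq_of_ne fun e => by rw [e] at hj; omega]; rfl]
    simp [zc, Pi.single_apply]
  have t : Nᵀ.BlockTriangular T.lev := fun i j l => by
    rw [transpose_apply, k _ _ l.le, if_neg fun e => by rw [e] at l; omega]
  rw [e, det_mul, ← det_transpose N, t.det, prod_eq_one fun a _ => ?_, mul_one]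
  rw [show Nᵀ.toSquareBlock T.lev a = 1 from ?_, det_one]
  ext i j
  rw [toSquareBlock_def, of_apply, transpose_apply, k _ _ (j.2.trans i.2.symm).le, one_apply]
  simp only [Subtype.ext_iff, eq_comm]

theorem aff : AFF := fun _ T h a => ⟨_, congrArg _ (det_lin h), fun b => by
  have := add_lin (fun a => T.u (zc a)) (fun b c p => by rw [zc_zero]; exact congrFun (a b c) p) b
  rwa [zc_zero] at this ⊢⟩

/-- a bound for the partition function that depends on the matrices only -/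
def bd {C : Type} [Fintype C] [DecidableEq C] (lev : C → ℕ) (A K : Matrix C C ℝ) (s : ℕ) : ℝ :=
  ∏ l ∈ range s, th (Rw.blk lev (A⁻¹ * K * A⁻¹ᵀ)⁻¹ l) 0

theorem Z_bd {σ : Type} {T : TS σ} (h : T.Tri) {s : ℕ} (hs : ∀ c, T.lev c < s) :
    T.Z ≤ bd T.lev T.A T.K s :=
  (TS.Z_le_prod h hs).trans_eq (prod_congr rfl fun l _ => (TS.th_blk h l).symm)

section cut
variable {σ : Type} {T : TS σ} (h : T.Tri) (p : T.C → Prop) [DecidablePred p]
  (hp : ∀ c, p c → ∀ c', ¬ p c' → T.A c c' = 0) [i1 : Fintype {c // p c}]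
  [i2 : DecidableEq {c // p c}]
include h hp

theorem cut_det (b : T.C → ℤ) : (Matrix.of fun c c' : {c // p c} =>
    T.u (zc (glue p (Pi.single c' 1) b)) c.1 - T.u (zc (glue p 0 b)) c.1).det =
      (T.A.submatrix (Subtype.val : {c // p c} → _) Subtype.val).det ∧
    (T.A.submatrix (Subtype.val : {c // p c} → _) Subtype.val).det ≠ 0 := by
  obtain rfl : i1 = (T.cut p b).fin := Subsingleton.elim _ _
  obtain rfl : i2 = (T.cut p b).dec := Subsingleton.elim _ _
  have t := h.cut p b (.inl hp)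
  rw [← h.A_cut p b]
  refine ⟨Eq.trans (congrArg _ (Matrix.ext fun c c' => ?_)) (det_lin t), t.det⟩
  simp only [of_apply, zc_glue]
  exact congrArg₂ _ (T.u_cut p b _ c).symm (T.u_cut p b _ c).symm

theorem cut_bd : ∃ x, ∀ b : T.C → ℤ, ∃ y ≤ x, HasSum (fun η => gs (T.K.submatrix
    (Subtype.val : {c // p c} → _) Subtype.val)⁻¹ fun c => T.u (zc (glue p η b)) c.1) y := by
  obtain ⟨s, hs⟩ : ∃ s, ∀ c, T.lev c < s :=
    ⟨univ.sup T.lev + 1, fun c => Nat.lt_succ_of_le (le_sup (mem_univ c))⟩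
  refine ⟨bd (fun c : {c // p c} => T.lev c.1) (T.A.submatrix Subtype.val Subtype.val)
    (T.K.submatrix Subtype.val Subtype.val) s, fun b => ?_⟩
  obtain rfl : i1 = (T.cut p b).fin := Subsingleton.elim _ _
  obtain rfl : i2 = (T.cut p b).dec := Subsingleton.elim _ _
  have t := h.cut p b (.inl hp)
  have z := Z_bd t fun c => hs c.1
  rw [h.A_cut] at z
  exact ⟨_, z, t.summable.hasSum.congr_fun fun η =>
    congrArg _ (funext fun c => by rw [zc_glue]; exact (T.u_cut p b _ c).symm)⟩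

end cut

variable {ι : Type} [Fintype ι] [LinearOrder ι] {B : Bd ι} (h : B.Ok)

/-- the classes -/
abbrev cl (B : Bd ι) (a b : Bool) (p : B.T.Cw (B.S G1 1 1)) : Prop :=
  (p.1.2.tr B.x).isSome = a ∧ (p.1.2.tr B.y).isSome = b

theorem eC_x (q : Σ j : Jc G1, B.Cl (ja j) (jb j)) : (h.eC 1 1 q).1.2.tr B.x = jx q.1 := Bd.pu_x ..
theorem eC_y (q : Σ j : Jc G1, B.Cl (ja j) (jb j)) : (h.eC 1 1 q).1.2.tr B.y = jy q.1 := h.pu_y ..

theorem eC_one (j : Jc G1) (p : B.Cl (ja j) (jb j)) (a : (jx j).isSome = ja j)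
    (b : (jy j).isSome = jb j) : h.eC 1 1 ⟨j, p⟩ = p.1 := by
  refine Subtype.ext (Prod.ext rfl (Wd.ext' rfl ?_))
  refine Eq.trans ?_ (B.pu_self p.1.1.2.tr)
  rw [(h.val1 p.1.1.2.mem).1, (h.val1 p.1.1.2.mem).2, p.2.1.trans a.symm, p.2.2.trans b.symm]
  change B.pu _ (jx j) (jy j) = _
  rcases j with _ | a | b | e <;> simp [jx, jy]

theorem gl_x (z : B.Zc) (a : B.I → ℤ) (η : B.Hc) :
    glue (cl B true false) a (h.jn z 0 η) = h.jn z a η := by
  funext c
  obtain ⟨⟨j, p⟩, rfl⟩ := (h.eC 1 1).surjective c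
  rcases j with _ | i | i | e
  case inr.inl =>
    rw [Bd.Ok.jn, Bd.Ok.jn, h.cE_eC, eC_one h _ p rfl rfl]; exact glue_val ..
  all_goals
    rw [glue_neg _ _ (by simp [cl, eC_x, eC_y, jx, jy]), Bd.Ok.jn, Bd.Ok.jn, h.cE_eC, h.cE_eC]; rfl

theorem gl_h (z : B.Zc) (a : B.I → ℤ) (η : B.Hc) :
    glue (cl B true true) η (h.jn z a 0) = h.jn z a η := by
  funext c
  obtain ⟨⟨j, p⟩, rfl⟩ := (h.eC 1 1).surjective c
  rcases j with _ | i | i | e
  case inr.inr.inr =>
    rw [Bd.Ok.jn, Bd.Ok.jn, h.cE_eC, eC_one h _ p rfl rfl]; exact glue_val ..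
  all_goals
    rw [glue_neg _ _ (by simp [cl, eC_x, eC_y, jx, jy]), Bd.Ok.jn, Bd.Ok.jn, h.cE_eC, h.cE_eC]; rfl

include h

theorem tri1 : (B.T.sh (B.S G1 1 1)).Tri := TS.sh_tri h.cl (h.ok_S one_pos one_pos)

theorem sep (i j : Bool) (c : B.T.Cw (B.S G1 1 1)) (hc : cl B i j c) (c' : B.T.Cw (B.S G1 1 1))
    (hc' : ¬ cl B i j c') : (B.T.sh (B.S G1 1 1)).A c c' = 0 := by
  rw [TS.sh_A (h.ok_S one_pos one_pos), one_apply_ne fun e => hc' (by rw [cl, ← e]; exact hc),
    mul_zero]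

theorem sub_A (i j : Bool) : (B.T.sh (B.S G1 1 1)).A.submatrix (Subtype.val : B.Cl i j → _)
    (Subtype.val : B.Cl i j → _) = B.KC B.T.A (fun _ _ => 1) i j :=
  Matrix.ext fun _ _ => TS.sh_A (h.ok_S one_pos one_pos) _ _

theorem KC_pos {v : ℕ → Pt ι → ℝ} (hv : ∀ j t, 0 < v j t) (i j : Bool) :
    (B.KC B.T.K v i j).PosDef :=
  (TS.kw_posDef (S := B.S G1 1 1) h.cl.1.pd (PosDef.diagonal (d := fun w : Wd B.s (B.D G1) =>
    v w.lv (B.pu w.tr none none)) fun _ => hv _ _)).submatrix Subtype.val_injective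

omit h in
theorem KC_div (N : Matrix B.T.C B.T.C ℝ) (v : ℕ → Pt ι → ℝ) (c : ℝ) (i j : Bool) :
    B.KC N (fun j t => v j t / c) i j = c⁻¹ • B.KC N v i j := by
  ext p p'
  simp only [Bd.KC, of_apply, Matrix.smul_apply, smul_eq_mul]
  split_ifs <;> ring

theorem det_L (z : B.Zc) : (h.L z).det = (B.KC B.T.A (fun _ _ => 1) true false).det ∧
    (h.L z).det ≠ 0 := by
  have := cut_det (tri1 h) (cl B true false) (sep h true false) (h.jn z 0 0)
  have e : h.L z = _ := Matrix.ext fun p p' => congrArg₂ (fun a b =>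
    (B.T.sh (B.S G1 1 1)).u (zc a) p.1 - (B.T.sh (B.S G1 1 1)).u (zc b) p.1)
      (gl_x h z (Pi.single p' 1) 0).symm (gl_x h z 0 0).symm
  rw [← sub_A h, e]
  exact ⟨this.1, this.1.trans_ne this.2⟩

omit h in
theorem sub_K : (B.T.sh (B.S G1 1 1)).K.submatrix (Subtype.val : B.Cl true true → _)
    (Subtype.val : B.Cl true true → _) = B.KC B.T.K B.vh true true := by
  refine Matrix.ext fun p p' => congrArg (B.T.K p.1.1.1 p'.1.1.1 * ·) ?_
  refine (diagonal_apply ..).trans ?_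
  rw [Bd.V, if_neg (Option.isSome_iff_ne_none.1 p.2.1), if_neg (Option.isSome_iff_ne_none.1 p.2.2)]

end Li

open Li

variable {ι : Type} [Fintype ι] [LinearOrder ι] {B : Bd ι}

theorem lin (h : B.Ok) (e : h.ERR) : h.LIN := fun z => by
  have d := (det_L h z).2
  have p := KC_pos h h.pv true false
  have l : ∀ a : B.I → ℤ, h.U z a 0 = h.L z *ᵥ zc a + h.U z 0 0 :=
    add_lin (fun a => h.U z a 0) (e.2 z)
  refine ⟨posDef_conj p.inv (mulVec_injective_iff_isUnit.2 ((isUnit_iff_isUnit_det _).2 d.isUnit)),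
    l, fun c c0 => ?_⟩
  have k : c • h.M z = (h.L z)ᵀ * (B.KC B.T.K (fun j t => B.v j t / c) true false)⁻¹ * h.L z := by
    rw [KC_div, Po.inv_smul' p (inv_ne_zero c0.ne'), inv_inv, Matrix.mul_smul, Matrix.smul_mul,
      Bd.Ok.M]
  rw [k]
  refine ⟨?_, fun a => ⟨?_, ?_⟩⟩
  · rw [dt, Bd.ZC, ← (det_L h z).1, det_mul, det_mul, det_transpose, mul_right_comm,
      Real.sqrt_mul (mul_self_nonneg _), Real.sqrt_mul_self_eq_abs, det_nonsing_inv,
      Ring.inverse_eq_inv', Real.sqrt_inv, mul_inv, inv_inv, div_eq_inv_mul]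
  · rw [gs, gs, qf_conj, l a, Bd.Ok.ce, sub_neg_eq_add, mulVec_add, mulVec_mulVec,
      mul_nonsing_inv _ d.isUnit, one_mulVec]
  · rw [gs, gs, qf_conj, l a, add_sub_cancel_right, sub_zero]

theorem hid (h : B.Ok) : h.HID := by
  have p : ∀ v i j, 0 ≤ B.ZC v i j := fun v i j => by unfold Bd.ZC; positivity
  obtain ⟨x, hx⟩ := cut_bd (tri1 h) (cl B true true) (sep h true true)
  have k : ∀ z a, ∃ y ≤ x, HasSum (h.wH z a) (y / B.ZC B.vh true true) := fun z a => by
    obtain ⟨y, l, k⟩ := hx (h.jn z a 0)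
    refine ⟨y, l, HasSum.div_const ?_ _⟩
    have e : (fun η => h.U z a η (i := true) (j := true)) = _ := funext fun η => congrArg
      (fun b (p : B.Cl true true) => (B.T.sh (B.S G1 1 1)).u (zc b) p.1) (gl_h h z a η).symm
    simp only [funext_iff.1 e, ← sub_K]; exact k
  refine ⟨fun z a η => div_nonneg (gs_pos _ _).le (p _ _ _),
    fun z => div_nonneg (gs_pos _ _).le (p _ _ _), fun z a => ?_, x / B.ZC B.vh true true,
    fun z a => ?_⟩ <;> obtain ⟨y, l, k⟩ := k z a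
  exacts [k.summable, k.tsum_eq.trans_le (div_le_div_of_nonneg_right l (p _ _ _))]

end Crest.Agent.N49.Br
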