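import Crest.Agent.N49.Br.Err
import Crest.Agent.N49.Br.Kwb
import Crest.Agent.N49.Br.Blk
import Crest.Agent.N49.Br.Fac
import Crest.Agent.N49.Br.Kmt
import Crest.Agent.N49.Br.Grd
import Crest.Agent.N49.Br.Lin

/-!
# Row 49 (helper74): the bridge, unconditionally
-/

set_option autoImplicit false

namespace Crest.Agent.N49.Br.Bd

variable {ι : Type} [Fintype ι] [LinearOrder ι] {B : Bd ι} (h : B.Ok)

theorem Ok.lin : h.LIN := Br.lin h h.err
theorem Ok.hid : h.HID := Br.hid h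
theorem Ok.kwb : h.KWB := Br.kwb h
theorem Ok.pts : h.PTS := Br.pts_ h
theorem Ok.fac : h.FAC := Br.fac blk fub h h.kwb h.err h.lin h.hid
theorem Ok.kmt : h.KMT := Br.kmt h h.fac h.lin h.hid

end Crest.Agent.N49.Br.Bd
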