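import Crest.Agent.N49.Po.Mix

/-!
# Row 49 (helper74): the relative Kelley–Meka step on `ℤ^I` (statements)
-/

set_option autoImplicit false

open Finset Matrix

noncomputable section

namespace Crest.Agent.N49.Br

open Po

variable {I : Type}

/-- probability weights on a lattice -/
def Pz (μ : (I → ℤ) → ℝ) : Prop := (∀ a, 0 ≤ μ a) ∧ HasSum μ 1
/-- grid counts on a lattice -/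
def GCz (μ β f : (I → ℤ) → ℝ) (k l : ℕ) : ℝ :=
  ∑' p : (Fin k → I → ℤ) × (Fin l → I → ℤ),
    (∏ i, μ (p.1 i)) * (∏ j, β (p.2 j)) * ∏ i, ∏ j, f (p.1 i + p.2 j)
/-- the linear forms condition on a lattice -/
def LFz (μ β ν : (I → ℤ) → ℝ) (n : ℕ) (τ : ℝ) : Prop :=
  (∀ k ≤ n, ∀ l ≤ n, GCz μ β ν k l ≤ 3 / 2) ∧ GCz μ β (fun a => ν a - 1) 2 2 ≤ τ
/-- total variation of a shift -/
def tvz (μ : (I → ℤ) → ℝ) (t : I → ℤ) : ℝ := ∑' a, |μ (a + t) - μ a|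

variable [Fintype I] [DecidableEq I]

/-- the discrete Gaussian law -/
def gz (M : Matrix I I ℝ) (θ : I → ℝ) (a : I → ℤ) : ℝ := gs M (zc a - θ) / th M θ
/-- distance to the integers of `ξ ⬝ w` -/
def fr (ξ : I → ℝ) (w : I → ℤ) : ℝ := |ξ ⬝ᵥ zc w - round (ξ ⬝ᵥ zc w)|

variable (I) in
/-- the step for arbitrary laws on `ℤ^I` -/
def KMZ : Prop := ∀ (my mb ma mv mt sg g ν : (I → ℤ) → ℝ) (P j Q : ℕ) (γ B : ℝ)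
  (W : Finset (I → ℤ)), 3 ≤ j → 2 ^ j ≤ Q → Q ≤ P → Pz my → Pz mb → Pz ma → Pz mv → Pz mt → Pz sg →
  (∀ y, my y ≤ 2 * ∑' v, mv v * ma (y + v)) → (∀ v t, mv v ≠ 0 → mb (t + v) ≤ 4 * mt t) →
  (∀ x, 0 ≤ g x) → (∀ x, g x ≤ 2 ^ P * ν x) → (∀ x, 0 ≤ ν x) → (∀ x, ν x ≤ B) →
  1 / 2 ^ P ≤ γ → γ ≤ 2 ^ P → γ ^ (Q * Q) < GCz my mb g Q Q →
  LFz my mb ν (P ^ 7) (1 / 2 ^ (P ^ 68 + 1)) → LFz ma mt ν (P ^ 7) (1 / 2 ^ (P ^ 68 + 1)) →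
  ∑' t, sg t * tvz mv t ≤ 1 / 2 ^ P ^ 68 → ∑' t, sg t * tvz ma t ≤ 1 / 2 ^ P ^ 68 →
  ∑' t, mv t * tvz ma t ≤ 1 / 2 ^ P ^ 68 →
    ∃ (ξ : Fin (P ^ 68) → I → ℝ) (ρ : (I → ℤ) → ℝ), Pz ρ ∧
      (∀ p, ρ p ≤ 2 ^ (P ^ 68 + 2) * ∑' t, mt t * ma (p - t)) ∧
      ∀ w ∈ W, (∀ l, fr (ξ l) w ≤ 1 / 2 ^ (2 * P ^ 68 + 3)) → tvz sg w ≤ 1 / 2 ^ P ^ 68 →
        tvz ma w ≤ 1 / 2 ^ P ^ 68 → (1 - 12 / 2 ^ j) * γ ≤ ∑' p, ρ p * g (p + w)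

variable (I) in
/-- the widening factor -/
def cw : ℝ := (Fintype.card I + 1) / (Fintype.card I + 2)

variable (I) in
/-- the step for discrete Gaussians -/
def KMG : Prop := ∀ (Mx My : Matrix I I ℝ) (θ θ' : I → ℝ) (g ν : (I → ℤ) → ℝ) (P j Q : ℕ) (γ B : ℝ),
  3 ≤ j → 2 ^ j ≤ Q → Q ≤ P → Mx.PosDef → My.PosDef → (∀ x, qf Mx x ≤ qf My x) →
  th ((2 : ℝ) • My)⁻¹ 0 ≤ 11 / 10 →
  (∀ x, 0 ≤ g x) → (∀ x, g x ≤ 2 ^ P * ν x) → (∀ x, 0 ≤ ν x) → (∀ x, ν x ≤ B) →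
  1 / 2 ^ P ≤ γ → γ ≤ 2 ^ P → γ ^ (Q * Q) < GCz (gz Mx θ) (gz My θ') g Q Q →
  LFz (gz Mx θ) (gz My θ') ν (P ^ 7) (1 / 2 ^ (P ^ 68 + 1)) →
  LFz (gz Mx θ) (gz (cw I • My) θ') ν (P ^ 7) (1 / 2 ^ (P ^ 68 + 1)) →
    ∃ (ξ : Fin (P ^ 68) → I → ℝ) (ρ : (I → ℤ) → ℝ), Pz ρ ∧
      (∀ p, ρ p ≤ 2 ^ (P ^ 68 + 5) * gz (Mx⁻¹ + (cw I • My)⁻¹)⁻¹ (θ + θ') p) ∧
      ∀ w, (∀ l, fr (ξ l) w ≤ 1 / 2 ^ (2 * P ^ 68 + 3)) →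
        qf My (zc w) ≤ 1 / (2 ^ (12 * P ^ 68) * (Fintype.card I + 2) ^ 6) →
          (1 - 12 / 2 ^ j) * γ ≤ ∑' p, ρ p * g (p + w)

end Crest.Agent.N49.Br

end
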