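import Crest.Agent.N49.Tw.Sh
import Crest.Agent.N49.Br.K0

/-!
# Row 49 (helper74): the top-word ring of a grid (definitions)

Blocks `ι` (ordered), clones `ℕ`; the words of level `j` are the partial transversals with
`min j (card ι)` letters; a product is filled with the first unused blocks.
-/

set_option autoImplicit false

open Matrix MvPolynomial Finset

noncomputable section

namespace Crest.Agent.N49.Br

open Po Tw

/-- partial transversals -/
abbrev Pt (ι : Type) := ι → Option ℕ

variable {ι : Type} [Fintype ι] [LinearOrder ι]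

/-- the blocks used -/
def bl (w : Pt ι) : Finset ι := {i | w i ≠ none}
/-- sub-words -/
def Le (w ω : Pt ι) : Prop := ∀ i, w i ≠ none → w i = ω i
/-- `Ω` is `B` together with an initial segment -/
def Fill (B Ω : Finset ι) : Prop := B ⊆ Ω ∧ ∀ a ∈ Ω, a ∉ B → ∀ b < a, b ∈ Ω
/-- down-closed families -/
def Dc (D : Finset (Pt ι)) : Prop := ∀ ω ∈ D, ∀ w, Le w ω → w ∈ D
/-- restriction to a set of blocks -/
def rs (ω : Pt ι) (F : Finset ι) : Pt ι := fun i => if i ∈ F then ω i else none

instance (w ω : Pt ι) : Decidable (Le w ω) := by unfold Le; infer_instance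
instance (B Ω : Finset ι) : Decidable (Fill B Ω) := by unfold Fill; infer_instance

/-- the words of level `≤ s` -/
abbrev Wd (s : ℕ) (D : Finset (Pt ι)) : Type :=
  {p : Fin s × D // #(bl p.2.1) = min (p.1.val + 1) (Fintype.card ι)}

variable {s : ℕ} {D : Finset (Pt ι)}

/-- the level of a word -/
def Wd.lv (w : Wd s D) : ℕ := w.1.1.val + 1
/-- its transversal -/
def Wd.tr (w : Wd s D) : Pt ι := w.1.2.1
/-- `w` occurs in the product `m` -/
def Rr (w : Wd s D) (m : Wd s D →₀ ℕ) : Prop :=
  Finsupp.weight Wd.lv m = w.lv ∧ (∀ w' ∈ m.support, Le w'.tr w.tr) ∧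
    Fill (m.support.biUnion fun w' => bl w'.tr) (bl w.tr)

instance (w : Wd s D) (m : Wd s D →₀ ℕ) : Decidable (Rr w m) := by unfold Rr; infer_instance

variable (s D) in
/-- **the top-word ring**; the word `w` has variance `V (level) w` -/
abbrev tw (V : ℕ → Pt ι → ℝ) : Sh Unit Unit where
  W := Wd s D
  col := id
  ty w := Finsupp.single () w.lv
  r w m := if Rr w m then 1 else 0
  ε w := if w.lv = 1 ∧ Fill ∅ (bl w.tr) then 1 else 0
  K := diagonal fun w => V w.lv w.tr

/-- the point of a full transversal -/
def chi (V : ℕ → Pt ι → ℝ) (ω : Pt ι) : (tw s D V).W → ℤ := fun w => if Le w.tr ω then 1 else 0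

/-- the grid with `q i` clones in the block `i` -/
def grid (q : ι → ℕ) : Finset (Pt ι) := Fintype.piFinset fun i => insertNone (range (q i))
/-- its points -/
def pts (q : ι → ℕ) : Finset (Pt ι) := Fintype.piFinset fun i => (range (q i)).image some

end Crest.Agent.N49.Br

end
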