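import Crest.Agent.N49.Br.Fl

/-!
# Row 49 (helper74): the errors on a bipartite shape
-/

set_option autoImplicit false
set_option linter.unusedSectionVars false

open Matrix Finset

noncomputable section

namespace Crest.Agent.N49.Br

open Po Tw

variable {ι : Type} [Fintype ι] [LinearOrder ι]

section
variable {s : ℕ} {D D' : Finset (Pt ι)} {V V' : ℕ → Pt ι → ℝ} {T : TS Unit}

theorem cw_ext {p p' : T.Cw (tw s D V)} (h1 : p.1.1 = p'.1.1) (h2 : Wd.lv p.1.2 = Wd.lv p'.1.2)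
    (h3 : Wd.tr p.1.2 = Wd.tr p'.1.2) : p = p' := Subtype.ext (Prod.ext h1 (Wd.ext' h2 h3))

/-- the errors are local -/
theorem u_loc {y y' : T.Cw (tw s D V) → ℤ} (p : T.Cw (tw s D V))
    (h : ∀ p' : T.Cw (tw s D V), Le (Wd.tr p'.1.2) (Wd.tr p.1.2) → y p' = y' p') :
    (T.sh (tw s D V)).u (zc y) p = (T.sh (tw s D V)).u (zc y') p :=
  MvPolynomial.eval₂Hom_congr' rfl (fun q hq _ => by
    obtain ⟨-, m, a, b⟩ := TS.sh_vars p q hq
    exact congrArg (Int.cast : ℤ → ℝ) (h q ((tw_r.1 a).2.1 _ b))) rfl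

/-- a map of words that keeps the levels, on the coordinates -/
def cmap (g : Wd s D' → Wd s D) (hg : ∀ w, (g w).lv = w.lv) (p : T.Cw (tw s D' V')) :
    T.Cw (tw s D V) := ⟨(p.1.1, g p.1.2), by rw [← p.2, tw_cd, tw_cd, hg]⟩

theorem u_pm (hD : Dc D') (o : (tw s D V).Ok) (o' : (tw s D' V').Ok) (f : ι → ℕ → ℕ)
    (h : ∀ w ∈ D', cm f w ∈ D) (y : T.Cw (tw s D V) → ℤ) (p : T.Cw (tw s D' V')) :
    (T.sh (tw s D' V')).u (zc fun p' => y (cmap (pw f h) (fun _ => rfl) p')) p =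
      (T.sh (tw s D V)).u (zc y) (cmap (pw f h) (fun _ => rfl) p) := by
  have k : ∀ (R : Type) [CommRing R] (v : T.Cw (tw s D V) → R) (p : T.Cw (tw s D' V')),
      (T.hmM (tw s D V) (tw s D' V') ((pm s f h).map (Int.cast : ℤ → R)) *ᵥ v) p =
        v (cmap (pw f h) (fun _ => rfl) p) := fun R _ v p => by
    rw [mulVec, dotProduct, sum_eq_single (cmap (pw f h) (fun _ => rfl) p)]
    · simp [TS.hmM, pm, cmap]
    · intro q _ ne
      simp only [TS.hmM, pm, of_apply, map_apply]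
      split_ifs with a b
      · exact absurd (Subtype.ext (Prod.ext a b)) ne
      all_goals simp
    · simp
  refine Eq.trans ?_ ((congrFun (TS.sh_u_hm (T := T) (pm_hm (V := V) (V' := V') hD f h) o o' y)
    p).trans (k ℝ _ p))
  rw [TS.hm_eq]
  congr 2
  exact funext fun p' => (k ℤ y p').symm

instance : DecidableEq (T.Cw (tw s D V)) := (T.sh (tw s D V)).dec

theorem hmM_mm {x y : ι} (o : One x y D) (R : Type) [CommRing R] (v : T.Cw (tw s D V) → R)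
    (p : T.Cw (tw s D V)) :
    (T.hmM (tw s D V) (tw s D V) ((mm s o).map (Int.cast : ℤ → R)) *ᵥ v) p =
      ∑ q, if p = cmap (mw o) (mw_lv o) q then v q else 0 := by
  rw [mulVec, dotProduct]
  refine sum_congr rfl fun q _ => ?_
  simp only [TS.hmM, mm, of_apply, map_apply]
  split_ifs with a b c c c
  · simp
  · exact absurd (Subtype.ext (Prod.ext a.symm b) : p = cmap (mw o) (mw_lv o) q) c
  · exact absurd (congrArg (fun z : T.Cw (tw s D V) => z.1.2) c) b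
  · simp
  · exact absurd (congrArg (fun z : T.Cw (tw s D V) => z.1.1) c).symm a
  · simp

end

namespace Bd

variable {B : Bd ι} (h : B.Ok) {k l : ℕ} {Γ : Finset (Fin k × Fin l)}

/-- collapse of the classes -/
def ds : (Σ j : Jc Γ, B.Cl (ja j) (jb j)) → Σ j : Jc G1, B.Cl (ja j) (jb j)
  | ⟨.inl _, p⟩ => ⟨.inl (), p⟩
  | ⟨.inr (.inl _), p⟩ => ⟨.inr (.inl 0), p⟩
  | ⟨.inr (.inr (.inl _)), p⟩ => ⟨.inr (.inr (.inl 0)), p⟩
  | ⟨.inr (.inr (.inr _)), p⟩ => ⟨.inr (.inr (.inr ⟨(0, 0), mem_univ _⟩)), p⟩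

/-- merge of the classes -/
def ms : (Σ j : Jc G1, B.Cl (ja j) (jb j)) → Σ j : Jc G1, B.Cl (ja j) (jb j)
  | ⟨.inr (.inr (.inl _)), p⟩ => ⟨.inr (.inl 0), p⟩
  | p => p

variable (B) in
/-- collapse of the clones -/
def f0 (i : ι) (n : ℕ) : ℕ := if i = B.x ∨ i = B.y then 0 else n

include h in
theorem Ok.cm_pu (t : Pt ι) (a b : Option ℕ) :
    cm B.f0 (B.pu t a b) = B.pu t (a.map fun _ => 0) (b.map fun _ => 0) :=
  funext (h.xy.all.2 ⟨by cases a <;> simp [cm, pu_x, f0], by cases b <;> simp [cm, h.pu_y, f0],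
    fun i p q => by cases e : t i <;> simp [cm, pu_ne _ _ _ p q, f0, p, q, e]⟩)

include h in
theorem Ok.cm_mem : ∀ w ∈ B.D Γ, cm B.f0 w ∈ B.D G1 := fun w a => by
  obtain ⟨a, j, p, q⟩ := h.mem_D.1 a
  rw [← B.pu_self w, h.cm_pu, h.mem_D, pu_pu, pu_x, h.pu_y, p, q]
  refine ⟨a, ?_⟩
  rcases j with _ | a | b | e
  exacts [⟨.inl (), rfl, rfl⟩, ⟨.inr (.inl 0), rfl, rfl⟩, ⟨.inr (.inr (.inl 0)), rfl, rfl⟩,
    ⟨.inr (.inr (.inr ⟨(0, 0), mem_univ _⟩)), rfl, rfl⟩]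

theorem Ok.eC_tr1 (c c' : ℝ) (p : Σ j : Jc Γ, B.Cl (ja j) (jb j)) :
    Wd.tr (h.eC c c' p).1.2 = B.pu (Wd.tr p.2.1.1.2) (jx p.1) (jy p.1) := rfl

theorem Ok.dn_eC (c c' : ℝ) (p : Σ j : Jc Γ, B.Cl (ja j) (jb j)) :
    cmap (pw B.f0 (h.cm_mem (Γ := Γ))) (fun _ => rfl) (h.eC c c' p) = h.eC 1 1 (ds p) := by
  obtain ⟨_ | a | b | e, p⟩ := p <;> exact cw_ext rfl rfl (h.cm_pu _ _ _)

theorem Ok.red {c c' : ℝ} (hc : 0 < c) (hc' : 0 < c') (q : B.Cf Γ) (q1 : B.Cf G1)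
    (p : Σ j : Jc Γ, B.Cl (ja j) (jb j)) (hq : ∀ p' : Σ j : Jc Γ, B.Cl (ja j) (jb j),
      (jx p'.1 ≠ none → jx p'.1 = jx p.1) → (jy p'.1 ≠ none → jy p'.1 = jy p.1) →
        q.at p' = q1.at (ds p')) :
    (B.T.sh (B.S Γ c c')).u (zc (h.cE c c' q)) (h.eC c c' p) =
      (B.T.sh (B.S G1 1 1)).u (zc (h.cE 1 1 q1)) (h.eC 1 1 (ds p)) := by
  rw [← h.dn_eC c c', ← u_pm h.dc_D (h.ok_S one_pos one_pos) (h.ok_S hc hc')]
  refine u_loc (V := B.V c c') _ fun p' e => ?_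
  obtain ⟨p', rfl⟩ := (h.eC c c').surjective p'
  rw [h.dn_eC, h.cE_eC, h.cE_eC]
  rw [h.eC_tr1, h.eC_tr1] at e
  exact hq p' (by simpa only [pu_x] using e B.x) (by simpa only [h.pu_y] using e B.y)

include h in
theorem Ok.one : One B.x B.y (B.D G1) where
  sw w a := by
    obtain ⟨a, j, p, q⟩ := h.mem_D.1 a
    rw [h.mem_D, show B.pu (w ∘ Equiv.swap B.x B.y) none none = B.pu w none none from
      funext fun i => by
        unfold pu; split_ifs with r r' <;> simp [Equiv.swap_apply_of_ne_of_ne, *]]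
    refine ⟨a, ?_⟩
    simp only [Function.comp, Equiv.swap_apply_left, Equiv.swap_apply_right, p, q]
    rcases j with _ | a | b | e
    exacts [⟨.inl (), rfl, rfl⟩, ⟨.inr (.inr (.inl a)), rfl, rfl⟩, ⟨.inr (.inl b), rfl, rfl⟩,
      ⟨.inr (.inr (.inr ⟨(e.1.2, e.1.1), mem_univ _⟩)), rfl, rfl⟩]
  hx w a e := by rw [(h.val1 a).1, if_pos (Option.ne_none_iff_isSome.1 e)]
  hy w a e := by rw [(h.val1 a).2, if_pos (Option.ne_none_iff_isSome.1 e)]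

theorem Ok.mw_eC (p : Σ j : Jc G1, B.Cl (ja j) (jb j)) :
    cmap (mw h.one) (mw_lv h.one) (h.eC 1 1 p) = h.eC 1 1 (ms p) := by
  refine cw_ext ?_ ((mw_lv _ _).trans ?_) ((mw_tr _ _).trans ?_)
  · obtain ⟨_ | a | b | e, p⟩ := p <;> rfl
  · obtain ⟨_ | a | b | e, p⟩ := p <;> rfl
  · refine funext (h.xy.all.2 ⟨?_, ?_, fun i a b => ?_⟩)
    · rw [mv_x, h.eC_tr1, h.eC_tr1, pu_x, pu_x, h.pu_y]
      obtain ⟨_ | a | b | e, p⟩ := p <;> simp [ms, jx, jy]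
    · rw [mv_y, h.eC_tr1, h.eC_tr1, pu_x, h.pu_y, h.pu_y]
      obtain ⟨_ | a | b | e, p⟩ := p <;> simp [ms, jx, jy]
    · rw [mv_ne a b, h.eC_tr1, h.eC_tr1, pu_ne _ _ _ a b, pu_ne _ _ _ a b]
      obtain ⟨_ | a | b | e, p⟩ := p <;> rfl

theorem Ok.mm_eC (R : Type) [CommRing R] (v : B.T.Cw (B.S G1 1 1) → R)
    (p : Σ j : Jc G1, B.Cl (ja j) (jb j)) :
    (B.T.hmM (B.S G1 1 1) (B.S G1 1 1) ((mm B.s h.one).map (Int.cast : ℤ → R)) *ᵥ v)
      (h.eC 1 1 p) = ∑ q, if p = ms q then v (h.eC 1 1 q) else 0 := by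
  rw [hmM_mm, ← (h.eC 1 1).sum_comp]
  simp only [h.mw_eC, EmbeddingLike.apply_eq_iff_eq]

/-- the edge -/
abbrev e0 : Jc G1 := .inr (.inr (.inr ⟨(0, 0), mem_univ _⟩))

theorem sum_ms {R : Type} [CommRing R] (g : (Σ j : Jc G1, B.Cl (ja j) (jb j)) → R) :
    (∀ p, ∑ q, (if ⟨.inl (), p⟩ = ms q then g q else 0) = g ⟨.inl (), p⟩) ∧
    (∀ p, ∑ q, (if ⟨.inr (.inl 0), p⟩ = ms q then g q else 0) =
      g ⟨.inr (.inl 0), p⟩ + g ⟨.inr (.inr (.inl 0)), p⟩) ∧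
    (∀ p, ∑ q, (if ⟨.inr (.inr (.inl 0)), p⟩ = ms q then g q else 0) = 0) ∧
    ∀ p, ∑ q, (if ⟨e0, p⟩ = ms q then g q else 0) = g ⟨e0, p⟩ := by
  refine ⟨fun p => ?_, fun p => ?_, fun p => ?_, fun p => ?_⟩
  · refine (Fintype.sum_eq_single ⟨.inl (), p⟩ ?_).trans (if_pos rfl)
    rintro ⟨_ | a | b | e, q⟩ ne
    exacts [if_neg ne.symm, if_neg ne.symm, if_neg fun c => (by cases congrArg Sigma.fst c),
      if_neg ne.symm]
  · refine (Fintype.sum_eq_add ⟨.inr (.inl 0), p⟩ ⟨.inr (.inr (.inl 0)), p⟩ 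
      (fun c => by cases congrArg Sigma.fst c) ?_).trans
      (congrArg₂ _ (if_pos rfl) (if_pos rfl))
    rintro ⟨_ | a | b | e, q⟩ ne
    · exact if_neg ne.1.symm
    · exact if_neg ne.1.symm
    · obtain rfl := Subsingleton.elim b 0
      exact if_neg fun c => ne.2 (by cases c; rfl)
    · exact if_neg ne.1.symm
  · refine sum_eq_zero ?_
    rintro ⟨_ | a | b | e, q⟩ - <;> exact if_neg fun c => by cases congrArg Sigma.fst c
  · refine (Fintype.sum_eq_single ⟨e0, p⟩ ?_).trans (if_pos rfl)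
    rintro ⟨_ | a | b | e, q⟩ ne
    exacts [if_neg ne.symm, if_neg ne.symm, if_neg fun c => (by cases congrArg Sigma.fst c),
      if_neg ne.symm]

include h in
theorem Ok.eC_one {i j : Bool} (p : B.Cl i j) {a b : Option ℕ}
    (ha : a = if i then some 0 else none) (hb : b = if j then some 0 else none) :
    B.pu (Wd.tr p.1.1.2) a b = Wd.tr p.1.1.2 := by
  conv_rhs => rw [← B.pu_self (Wd.tr p.1.1.2)]
  rw [(h.val1 p.1.1.2.mem).1, (h.val1 p.1.1.2.mem).2, p.2.1, p.2.2, ha, hb]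

theorem Ok.eC_z (p : B.Cl false false) : h.eC (Γ := G1) 1 1 ⟨.inl (), p⟩ = p.1 :=
  cw_ext rfl rfl (h.eC_one p rfl rfl)
theorem Ok.eC_x (p : B.I) : h.eC (Γ := G1) 1 1 ⟨.inr (.inl 0), p⟩ = p.1 :=
  cw_ext rfl rfl (h.eC_one p rfl rfl)
theorem Ok.eC_h (p : B.Cl true true) : h.eC (Γ := G1) 1 1 ⟨e0, p⟩ = p.1 :=
  cw_ext rfl rfl (h.eC_one p rfl rfl)

theorem Ok.mrg (z : B.Zc) (a b : B.I → ℤ) (η : B.Hc) (p : Σ j : Jc G1, B.Cl (ja j) (jb j)) :
    (B.T.sh (B.S G1 1 1)).u (zc (h.jn z (a + b) η)) (h.eC 1 1 p) = ∑ q, if p = ms q then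
      (B.T.sh (B.S G1 1 1)).u (zc (h.cE 1 1 (z, (fun _ => a, fun _ => b), fun _ => η)))
        (h.eC 1 1 q) else 0 := by
  have o := h.ok_S (Γ := G1) one_pos one_pos
  refine Eq.trans ?_ ((congrFun (TS.sh_u_hm (T := B.T) (mm_hm h.one h.xy) o o _) _).trans
    (h.mm_eC ℝ _ p))
  rw [TS.hm_eq]
  congr 2
  funext r
  obtain ⟨r, rfl⟩ := (h.eC 1 1).surjective r
  refine Eq.trans ?_ (h.mm_eC ℤ _ r).symm
  simp only [Ok.jn, h.cE_eC]
  obtain ⟨e1, e2, e3, e4⟩ := sum_ms (Cf.at (Γ := G1) (z, (fun _ => a, fun _ => b), fun _ => η))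
  obtain ⟨_ | i | i | ⟨⟨i, j⟩, _⟩, r⟩ := r
  · exact (e1 r).symm
  · obtain rfl := Subsingleton.elim i 0; exact (e2 r).symm
  · obtain rfl := Subsingleton.elim i 0; exact (e3 r).symm
  · obtain rfl := Subsingleton.elim i 0
    obtain rfl := Subsingleton.elim j 0
    exact (e4 r).symm

theorem Ok.err_x {c c' : ℝ} (hc : 0 < c) (hc' : 0 < c') (q : B.Cf Γ) (a : Fin k) (p : B.I) :
    (B.T.sh (B.S Γ c c')).u (zc (h.cE c c' q)) (h.eC c c' ⟨.inr (.inl a), p⟩) =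
      h.U q.1 (q.2.1.1 a) 0 p := by
  refine (h.red hc hc' q (q.1, (fun _ => q.2.1.1 a, 0), fun _ => 0) _ ?_).trans
    (congrArg _ (h.eC_x p))
  rintro ⟨_ | a' | b | e, r⟩ e1 e2
  · rfl
  · obtain rfl : a' = a := Fin.ext (Option.some.inj (e1 (by simp [jx]))); rfl
  all_goals exact absurd (e2 (by simp [jy])) (by simp [jy])

theorem Ok.err_y {c c' : ℝ} (hc : 0 < c) (hc' : 0 < c') (q : B.Cf Γ) (b : Fin l) (p : B.I) :
    (B.T.sh (B.S Γ c c')).u (zc (h.cE c c' q)) (h.eC c c' ⟨.inr (.inr (.inl b)), p⟩) =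
      h.U q.1 (q.2.1.2 b) 0 p - h.U q.1 0 0 p := by
  refine (h.red hc hc' q (q.1, (fun _ => 0, fun _ => q.2.1.2 b), fun _ => 0) _ ?_).trans ?_
  · rintro ⟨_ | a' | b' | e, r⟩ e1 e2
    · rfl
    · exact absurd (e1 (by simp [jx])) (by simp [jx])
    · obtain rfl : b' = b := Fin.ext (Option.some.inj (e2 (by simp [jy]))); rfl
    · exact absurd (e1 (by simp [jx])) (by simp [jx])
  · have e1 := (h.mrg q.1 0 (q.2.1.2 b) 0 ⟨.inr (.inl 0), p⟩).trans ((sum_ms _).2.1 p)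
    have e2 := h.err_x (Γ := G1) one_pos one_pos
      (q.1, (fun _ => 0, fun _ => q.2.1.2 b), fun _ => 0) 0 p
    rw [zero_add] at e1
    have e3 : _ = h.U q.1 (q.2.1.2 b) 0 p := congrArg
      ((B.T.sh (B.S G1 1 1)).u (zc (h.jn q.1 (q.2.1.2 b) 0))) (h.eC_x p)
    rw [e2, e3] at e1
    exact eq_sub_of_add_eq' e1.symm

theorem Ok.err_h {c c' : ℝ} (hc : 0 < c) (hc' : 0 < c') (q : B.Cf Γ) (e : Γ)
    (p : B.Cl true true) :
    (B.T.sh (B.S Γ c c')).u (zc (h.cE c c' q)) (h.eC c c' ⟨.inr (.inr (.inr e)), p⟩) =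
      h.U q.1 (q.2.1.1 e.1.1 + q.2.1.2 e.1.2) (q.2.2 e) p := by
  refine (h.red hc hc' q (q.1, (fun _ => q.2.1.1 e.1.1, fun _ => q.2.1.2 e.1.2),
    fun _ => q.2.2 e) _ ?_).trans ?_
  · rintro ⟨_ | a' | b' | e', r⟩ e1 e2
    · rfl
    · obtain rfl : a' = e.1.1 := Fin.ext (Option.some.inj (e1 (by simp [jx]))); rfl
    · obtain rfl : b' = e.1.2 := Fin.ext (Option.some.inj (e2 (by simp [jy]))); rfl
    · obtain rfl : e' = e := Subtype.ext (Prod.ext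
        (Fin.ext (Option.some.inj (e1 (by simp [jx]))))
        (Fin.ext (Option.some.inj (e2 (by simp [jy]))))); rfl
  · exact ((h.mrg q.1 (q.2.1.1 e.1.1) (q.2.1.2 e.1.2) (q.2.2 e) ⟨e0, p⟩).trans
      ((sum_ms _).2.2.2 p)).symm.trans (congrArg _ (h.eC_h p))

/-- **the errors** -/
theorem Ok.err : h.ERR := by
  refine ⟨?_, fun z a b p => ?_⟩
  · rintro k l Γ c c' hc hc' q ⟨_ | a | b | e, p⟩
    · refine (h.red hc hc' q (q.1, (fun _ => 0, 0), fun _ => 0) _ ?_).trans (congrArg _ (h.eC_z p))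
      rintro ⟨_ | a' | b | e, r⟩ e1 e2
      · rfl
      · exact absurd (e1 (by simp [jx])) (by simp [jx])
      all_goals exact absurd (e2 (by simp [jy])) (by simp [jy])
    exacts [h.err_x hc hc' q a p, h.err_y hc hc' q b p, h.err_h hc hc' q e p]
  · have e1 := (h.mrg z a b 0 ⟨.inr (.inl 0), p⟩).trans ((sum_ms _).2.1 p)
    have e2 := h.err_x (Γ := G1) one_pos one_pos (z, (fun _ => a, fun _ => b), fun _ => 0) 0 p
    have e4 := h.err_y (Γ := G1) one_pos one_pos (z, (fun _ => a, fun _ => b), fun _ => 0) 0 p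
    have e3 : _ = h.U z (a + b) 0 p := congrArg
      ((B.T.sh (B.S G1 1 1)).u (zc (h.jn z (a + b) 0))) (h.eC_x p)
    rw [e2, e3, e4] at e1
    rw [e1]; ring

end Bd

end Crest.Agent.N49.Br

end
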