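import Crest.Agent.N49.Br.Hom
import Crest.Agent.N49.Tw.Ap2

/-!
# Row 49 (helper74): bipartite shapes and their fibres (definitions)
-/

set_option autoImplicit false
set_option linter.unusedSectionVars false

open Matrix Finset

noncomputable section

namespace Crest.Agent.N49.Br

open Po Tw

/-- the data: two first blocks, background words `Z`, a point tower, variances -/
structure Bd (ι : Type) where
  x : ι
  y : ι
  Z : Finset (Pt ι)
  s : ℕ
  T : TS Unit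
  vz : ℕ → Pt ι → ℝ
  v : ℕ → Pt ι → ℝ
  vh : ℕ → Pt ι → ℝ

/-- the classes of words: background, clones of `x`, clones of `y`, edges -/
abbrev Jc {k l : ℕ} (Γ : Finset (Fin k × Fin l)) : Type := Unit ⊕ Fin k ⊕ Fin l ⊕ Γ

section
variable {k l : ℕ} {Γ : Finset (Fin k × Fin l)}
/-- the letter in `x` -/
def jx : Jc Γ → Option ℕ
  | .inr (.inl a) => some a
  | .inr (.inr (.inr e)) => some e.1.1
  | _ => none
/-- the letter in `y` -/
def jy : Jc Γ → Option ℕ
  | .inr (.inr (.inl b)) => some b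
  | .inr (.inr (.inr e)) => some e.1.2
  | _ => none
/-- at least one letter -/
def ja : Jc Γ → Bool
  | .inl _ => false
  | _ => true
/-- two letters -/
def jb : Jc Γ → Bool
  | .inr (.inr (.inr _)) => true
  | _ => false

theorem j_inj {j j' : Jc Γ} (h : jx j = jx j') (h' : jy j = jy j') : j = j' := by
  rcases j with _ | a | b | e <;> rcases j' with _ | a' | b' | e' <;>
    simp only [jx, jy, reduceCtorEq, Option.some.injEq] at h h'
  · rfl
  · rw [Fin.ext h]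
  · rw [Fin.ext h']
  · rw [Subtype.ext (Prod.ext (Fin.ext h) (Fin.ext h'))]
end

/-- one clone of `x`, one clone of `y`, one edge -/
abbrev G1 : Finset (Fin 1 × Fin 1) := univ

variable {ι : Type} [Fintype ι] [LinearOrder ι]

namespace Bd

variable (B : Bd ι) {k l : ℕ} (Γ : Finset (Fin k × Fin l))

/-- well-formed data -/
structure Ok : Prop where
  xy : XY B.x B.y
  dc : Dc B.Z
  nx : ∀ t ∈ B.Z, t B.x = none
  ny : ∀ t ∈ B.Z, t B.y = none
  cl : B.T.Cl
  pz : ∀ j t, 0 < B.vz j t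
  pv : ∀ j t, 0 < B.v j t
  ph : ∀ j t, 0 < B.vh j t

/-- put the letters `a`, `b` in the blocks `x`, `y` -/
def pu (t : Pt ι) (a b : Option ℕ) : Pt ι :=
  fun i => if i = B.x then a else if i = B.y then b else t i
/-- the words of the bipartite graph `Γ` -/
def D : Finset (Pt ι) := (univ ×ˢ B.Z).image fun q : Jc Γ × Pt ι => B.pu q.2 (jx q.1) (jy q.1)
/-- the variances; the precisions of the clones are multiplied by `c`, `c'` -/
def V (c c' : ℝ) (j : ℕ) (t : Pt ι) : ℝ :=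
  if t B.x = none then
    if t B.y = none then B.vz j (B.pu t none none) else B.v j (B.pu t none none) / c'
  else if t B.y = none then B.v j (B.pu t none none) / c else B.vh j (B.pu t none none)
/-- the shape -/
abbrev S (c c' : ℝ) : Sh Unit Unit := tw B.s (B.D Γ) (B.V c c')
/-- the coordinates of one class -/
abbrev Cl (a b : Bool) : Type :=
  {p : B.T.Cw (B.S G1 1 1) // (p.1.2.tr B.x).isSome = a ∧ (p.1.2.tr B.y).isSome = b}
instance (a b : Bool) : DecidableEq (B.Cl a b) :=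
  haveI : DecidableEq (B.T.Cw (B.S G1 1 1)) := (B.T.sh (B.S G1 1 1)).dec
  inferInstance
/-- background configurations -/
abbrev Zc : Type := B.Cl false false → ℤ
/-- the lattice of the Kelley–Meka step -/
abbrev I : Type := B.Cl true false
/-- hidden configurations -/
abbrev Hc : Type := B.Cl true true → ℤ

variable {B Γ}

theorem pu_x (t : Pt ι) (a b : Option ℕ) : B.pu t a b B.x = a := if_pos rfl
theorem Ok.pu_y (h : B.Ok) (t : Pt ι) (a b : Option ℕ) : B.pu t a b B.y = b := by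
  simp [pu, h.xy.ne.symm]
theorem pu_ne (t : Pt ι) (a b : Option ℕ) {i : ι} (p : i ≠ B.x) (q : i ≠ B.y) :
    B.pu t a b i = t i := by simp [pu, p, q]
theorem pu_pu (t : Pt ι) (a b a' b' : Option ℕ) : B.pu (B.pu t a b) a' b' = B.pu t a' b' :=
  funext fun i => by unfold pu; split_ifs <;> rfl
theorem pu_self (t : Pt ι) : B.pu t (t B.x) (t B.y) = t :=
  funext fun i => by unfold pu; split_ifs with p q <;> simp [*]

theorem Ok.mem_D (h : B.Ok) {w : Pt ι} : w ∈ B.D Γ ↔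
    B.pu w none none ∈ B.Z ∧ ∃ j : Jc Γ, w B.x = jx j ∧ w B.y = jy j := by
  simp only [D, mem_image, mem_product, mem_univ, true_and, Prod.exists]
  refine ⟨?_, fun ⟨a, j, p, q⟩ => ⟨j, _, a, by rw [pu_pu, ← p, ← q, pu_self]⟩⟩
  rintro ⟨j, t, a, rfl⟩
  refine ⟨?_, j, pu_x .., h.pu_y ..⟩
  rw [pu_pu, ← h.nx t a]; nth_rewrite 2 [h.nx t a]; rwa [← h.ny t a, pu_self]

theorem Ok.dc_D (h : B.Ok) : Dc (B.D Γ) := fun ω a w e => by
  rw [h.mem_D] at a ⊢
  obtain ⟨a, j, p, q⟩ := a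
  refine ⟨h.dc _ a _ fun i => ?_, ?_⟩
  · unfold pu; split_ifs <;> simp only [ne_eq, not_true, false_imp_iff]; exact e i
  · have e1 := e B.x
    have e2 := e B.y
    rw [p] at e1; rw [q] at e2
    by_cases r : w B.x = none <;> by_cases r' : w B.y = none
    · exact ⟨.inl (), r, r'⟩
    · rcases j with _ | a | b | e
      exacts [(r' (e2 r')).elim, (r' (e2 r')).elim, ⟨.inr (.inr (.inl b)), r, e2 r'⟩,
        ⟨.inr (.inr (.inl e.1.2)), r, e2 r'⟩]
    · rcases j with _ | a | b | e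
      exacts [(r (e1 r)).elim, ⟨.inr (.inl a), e1 r, r'⟩, (r (e1 r)).elim, ⟨.inr (.inl e.1.1), e1 r, r'⟩]
    · exact ⟨j, e1 r, e2 r'⟩

theorem Ok.card_pu (h : B.Ok) (t : Pt ι) (a b : Option ℕ) : #(bl (B.pu t a b)) =
    #(bl (B.pu t none none)) + a.isSome.toNat + b.isSome.toNat := by
  have e : ∀ a b, #(bl (B.pu t a b)) = a.isSome.toNat + (b.isSome.toNat +
      ∑ i ∈ (univ.erase B.x).erase B.y, if t i ≠ none then 1 else 0) := fun a b => by
    rw [bl, card_filter, ← add_sum_erase _ _ (mem_univ B.x),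
      ← add_sum_erase _ _ (mem_erase.2 ⟨h.xy.ne.symm, mem_univ B.y⟩), pu_x, h.pu_y,
      sum_congr rfl fun i hi => by
        rw [pu_ne _ _ _ (mem_erase.1 (mem_erase.1 hi).2).1 (mem_erase.1 hi).1]]
    cases a <;> cases b <;> simp
  rw [e, e]; simp; omega

theorem Ok.pos_V (h : B.Ok) {c c' : ℝ} (p : 0 < c) (q : 0 < c') (j : ℕ) (t : Pt ι) :
    0 < B.V c c' j t := by
  unfold V; split_ifs
  exacts [h.pz _ _, div_pos (h.pv _ _) q, div_pos (h.pv _ _) p, h.ph _ _]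

theorem Ok.ok_S (h : B.Ok) {c c' : ℝ} (p : 0 < c) (q : 0 < c') : (B.S Γ c c').Ok :=
  tw_ok h.dc_D (h.pos_V p q)

theorem Ok.card_j (h : B.Ok) (j : Jc Γ) {t : Pt ι} (p : (t B.x).isSome = ja j)
    (q : (t B.y).isSome = jb j) : #(bl (B.pu t (jx j) (jy j))) = #(bl t) := by
  conv_rhs => rw [← B.pu_self t]
  rw [h.card_pu, h.card_pu t (t _), p, q]
  rcases j with _ | a | b | e <;> simp [ja, jb, jx, jy]

/-- the coordinate of class `j` -/
def Ok.em (h : B.Ok) (c c' : ℝ) (q : Σ j : Jc Γ, B.Cl (ja j) (jb j)) : B.T.Cw (B.S Γ c c') :=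
  ⟨(q.2.1.1.1, q.2.1.1.2.mk' (B.pu q.2.1.1.2.tr (jx q.1) (jy q.1))
    (h.mem_D.2 ⟨by rw [pu_pu]; exact (h.mem_D.1 q.2.1.1.2.mem).1, q.1, pu_x .., h.pu_y ..⟩)
    (h.card_j q.1 q.2.2.1 q.2.2.2)), q.2.1.2⟩

theorem Ok.val1 (h : B.Ok) {t : Pt ι} (a : t ∈ B.D G1) :
    t B.x = (if (t B.x).isSome then some 0 else none) ∧
      t B.y = if (t B.y).isSome then some 0 else none := by
  obtain ⟨-, j, p, q⟩ := h.mem_D.1 a
  rw [p, q]
  rcases j with _ | a | b | e <;> simp [jx, jy]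

theorem Ok.em_bij (h : B.Ok) (c c' : ℝ) : Function.Bijective (h.em (Γ := Γ) c c') := by
  constructor
  · rintro ⟨j, p⟩ ⟨j', p'⟩ e
    have e1 : B.pu p.1.1.2.tr (jx j) (jy j) = B.pu p'.1.1.2.tr (jx j') (jy j') :=
      congrArg (fun z : B.T.Cw (B.S Γ c c') => Wd.tr z.1.2) e
    obtain rfl : j = j' := j_inj (by simpa [pu_x] using congrFun e1 B.x)
      (by simpa [h.pu_y] using congrFun e1 B.y)
    refine congrArg _ (Subtype.ext (Subtype.ext (Prod.ext
      (congrArg (fun z : B.T.Cw (B.S Γ c c') => z.1.1) e) (Wd.ext'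
        (congrArg (fun z : B.T.Cw (B.S Γ c c') => Wd.lv z.1.2) e) (funext (h.xy.all.2 ⟨?_, ?_, fun i a b => ?_⟩))))))
    · rw [(h.val1 p.1.1.2.mem).1, (h.val1 p'.1.1.2.mem).1, p.2.1, p'.2.1]
    · rw [(h.val1 p.1.1.2.mem).2, (h.val1 p'.1.1.2.mem).2, p.2.2, p'.2.2]
    · simpa [pu_ne _ _ _ a b] using congrFun e1 i
  · rintro ⟨⟨F, w⟩, e⟩
    obtain ⟨a, j, p, q⟩ := h.mem_D.1 (Wd.mem w)
    set t := B.pu (Wd.tr w) (if ja j then some 0 else none) (if jb j then some 0 else none) with ht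
    have p1 : (t B.x).isSome = ja j := by rw [ht, pu_x]; cases ja j <;> rfl
    have p2 : (t B.y).isSome = jb j := by rw [ht, h.pu_y]; cases jb j <;> rfl
    have p3 : B.pu t (jx j) (jy j) = Wd.tr w := by rw [ht, pu_pu, ← p, ← q, pu_self]
    refine ⟨⟨j, ⟨(F, Wd.mk' w t (h.mem_D.2 ⟨by rwa [ht, pu_pu], ?_⟩)
      (by rw [← h.card_j j p1 p2, p3])), e⟩, p1, p2⟩, Subtype.ext (Prod.ext rfl (Wd.ext' rfl p3))⟩
    rw [ht, pu_x, h.pu_y]
    rcases j with _ | a | b | e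
    exacts [⟨.inl (), rfl, rfl⟩, ⟨.inr (.inl 0), rfl, rfl⟩, ⟨.inr (.inl 0), rfl, rfl⟩,
      ⟨.inr (.inr (.inr ⟨(0, 0), mem_univ _⟩)), rfl, rfl⟩]

/-- **the coordinates of a bipartite shape** -/
def Ok.eC (h : B.Ok) (c c' : ℝ) : (Σ j : Jc Γ, B.Cl (ja j) (jb j)) ≃ B.T.Cw (B.S Γ c c') :=
  Equiv.ofBijective _ (h.em_bij c c')

variable (B Γ) in
/-- configurations by classes -/
abbrev Cf : Type := B.Zc × ((Fin k → B.I → ℤ) × (Fin l → B.I → ℤ)) × (Γ → B.Hc)

/-- the value of a configuration -/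
def Cf.at (q : B.Cf Γ) : (Σ j : Jc Γ, B.Cl (ja j) (jb j)) → ℤ
  | ⟨.inl _, p⟩ => q.1 p
  | ⟨.inr (.inl a), p⟩ => q.2.1.1 a p
  | ⟨.inr (.inr (.inl b)), p⟩ => q.2.1.2 b p
  | ⟨.inr (.inr (.inr e)), p⟩ => q.2.2 e p

/-- **the configurations of a bipartite shape** -/
def Ok.cE (h : B.Ok) (c c' : ℝ) : B.Cf Γ ≃ (B.T.Cw (B.S Γ c c') → ℤ) where
  toFun q p := q.at ((h.eC c c').symm p)
  invFun y := (fun p => y (h.eC c c' ⟨.inl (), p⟩), (fun a p => y (h.eC c c' ⟨.inr (.inl a), p⟩),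
    fun b p => y (h.eC c c' ⟨.inr (.inr (.inl b)), p⟩)),
      fun e p => y (h.eC c c' ⟨.inr (.inr (.inr e)), p⟩))
  left_inv q := by simp only [Equiv.symm_apply_apply]; rfl
  right_inv y := funext fun p => by
    obtain ⟨⟨j, p⟩, rfl⟩ := (h.eC c c').surjective p
    simp only [Equiv.symm_apply_apply]
    rcases j with _ | a | b | e <;> rfl

theorem Ok.cE_eC (h : B.Ok) (c c' : ℝ) (q : B.Cf Γ) (p : Σ j : Jc Γ, B.Cl (ja j) (jb j)) :
    h.cE c c' q (h.eC c c' p) = q.at p := congrArg q.at (Equiv.symm_apply_apply _ _)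

/-- the configuration on one edge -/
def Ok.jn (h : B.Ok) (z : B.Zc) (a : B.I → ℤ) (η : B.Hc) : B.T.Cw (B.S G1 1 1) → ℤ :=
  h.cE 1 1 (z, (fun _ => a, 0), fun _ => η)
/-- its errors -/
def Ok.U (h : B.Ok) (z : B.Zc) (a : B.I → ℤ) (η : B.Hc) {i j : Bool} (p : B.Cl i j) : ℝ :=
  (B.T.sh (B.S G1 1 1)).u (zc (h.jn z a η)) p.1

variable (B) in
/-- a matrix of the tower on one class -/
def KC (N : Matrix B.T.C B.T.C ℝ) (v : ℕ → Pt ι → ℝ) (i j : Bool) :
    Matrix (B.Cl i j) (B.Cl i j) ℝ := Matrix.of fun p p' => N p.1.1.1 p'.1.1.1 *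
  if p.1.1.2 = p'.1.1.2 then v p.1.1.2.lv (B.pu p.1.1.2.tr none none) else 0
variable (B) in
/-- the continuous partition function of one class -/
def ZC (v : ℕ → Pt ι → ℝ) (i j : Bool) : ℝ :=
  √(B.KC B.T.K v i j).det / |(B.KC B.T.A (fun _ _ => 1) i j).det|

/-- **the law of the background** (normalised by `Zc`) -/
def Ok.rho (h : B.Ok) (z : B.Zc) : ℝ :=
  gs (B.KC B.T.K B.vz false false)⁻¹ (h.U z 0 0) / B.ZC B.vz false false
/-- the hidden weights (normalised by `Zc`) -/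
def Ok.wH (h : B.Ok) (z : B.Zc) (a : B.I → ℤ) (η : B.Hc) : ℝ :=
  gs (B.KC B.T.K B.vh true true)⁻¹ (h.U z a η) / B.ZC B.vh true true
/-- the linear part of the errors of a clone -/
def Ok.L (h : B.Ok) (z : B.Zc) : Matrix B.I B.I ℝ :=
  Matrix.of fun p p' => h.U z (Pi.single p' 1) 0 p - h.U z 0 0 p
/-- **the precision of a clone** -/
def Ok.M (h : B.Ok) (z : B.Zc) : Matrix B.I B.I ℝ :=
  (h.L z)ᵀ * (B.KC B.T.K B.v true false)⁻¹ * h.L z
/-- the centre of the clones of `x` (the clones of `y` are centred) -/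
def Ok.ce (h : B.Ok) (z : B.Zc) : B.I → ℝ := -((h.L z)⁻¹ *ᵥ h.U z 0 0)
/-- the hidden average of `G` -/
def Ok.av (h : B.Ok) (G : B.Zc → (B.I → ℤ) → B.Hc → ℝ) (z : B.Zc) (a : B.I → ℤ) : ℝ :=
  ∑' η, h.wH z a η * G z a η

variable (B) in
/-- the part of the point over the background point `ω` carried by one class -/
def pc (ω : Pt ι) {i j : Bool} (y : B.Cl i j → ℤ) (F : B.T.C) : ℤ :=
  ∑ p : B.Cl i j with p.1.1.1 = F ∧ Le (B.pu p.1.1.2.tr none none) ω, y p
variable (B) in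
/-- **the point** over the background point `ω` -/
def pt (ω : Pt ι) (z : B.Zc) (a : B.I → ℤ) (η : B.Hc) : B.T.C → ℤ :=
  B.pc ω z + B.pc ω a + B.pc ω η

end Bd

end Crest.Agent.N49.Br

end
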