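import Crest.Agent.N49.Br.Defs

/-!
# Row 49 (helper74): leaves of the bridge (statements)
-/

set_option autoImplicit false

open Finset Matrix

noncomputable section

namespace Crest.Agent.N49.Br

open Po Tw

section
variable {I : Type} [Fintype I] [DecidableEq I]

/-- Gaussian weights normalised by the determinant -/
def gd (M : Matrix I I ℝ) (θ : I → ℝ) (a : I → ℤ) : ℝ := gs M (zc a - θ) / dt M
/-- counts of the bipartite graph `Γ` in one fibre -/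
def XC (μ β f : (I → ℤ) → ℝ) {k l : ℕ} (Γ : Finset (Fin k × Fin l)) : ℝ :=
  ∑' p : (Fin k → I → ℤ) × (Fin l → I → ℤ),
    (∏ i, μ (p.1 i)) * (∏ j, β (p.2 j)) * ∏ e ∈ Γ, f (p.1 e.1 + p.2 e.2)
/-- all bipartite counts are `1 ± η` on average over the background -/
def MS {Z : Type} (ρ : Z → ℝ) (Mx My : Z → Matrix I I ℝ) (θ θ' : Z → I → ℝ)
    (ν : Z → (I → ℤ) → ℝ) (n : ℕ) (η : ℝ) : Prop :=
  ∀ k ≤ n, ∀ l ≤ n, ∀ Γ : Finset (Fin k × Fin l), ∃ t, |t - 1| ≤ η ∧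
    HasSum (fun z => ρ z * XC (gd (Mx z) (θ z)) (gd (My z) (θ' z)) (ν z) Γ) t
/-- the precision of the location -/
def mp (Mx My : Matrix I I ℝ) : Matrix I I ℝ := (Mx⁻¹ + (cw I • My)⁻¹)⁻¹
/-- the hypotheses of the Kelley–Meka step in one fibre -/
structure HK (Mx My Ms : Matrix I I ℝ) (θ θ' : I → ℝ) (g ν : (I → ℤ) → ℝ) (P Q : ℕ) (γ : ℝ) :
    Prop where
  sm : th ((2 : ℝ) • Ms)⁻¹ 0 ≤ 11 / 10
  sy : th ((2 : ℝ) • My)⁻¹ 0 ≤ 11 / 10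
  gc : γ ^ (Q * Q) < GCz (gz Mx θ) (gz My θ') g Q Q
  l1 : LFz (gz Mx θ) (gz My θ') ν (P ^ 7) (1 / 2 ^ (P ^ 68 + 1))
  l2 : LFz (gz Mx θ) (gz (cw I • My) θ') ν (P ^ 7) (1 / 2 ^ (P ^ 68 + 1))
  l3 : ∀ l ≤ P ^ 7, GCz (gz (mp Mx My) (θ + θ')) (gz Ms 0) ν 1 l ≤ 2

variable (I) in
/-- a popular set of backgrounds satisfies the hypotheses -/
def LFA : Prop := ∀ (Z : Type) (ρ : Z → ℝ) (Mx My Ms : Z → Matrix I I ℝ) (θ θ' : Z → I → ℝ)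
  (g ν : Z → (I → ℤ) → ℝ) (P Q : ℕ) (γ η t : ℝ), 2 ≤ Q → Q ≤ P → (∀ z, 0 ≤ ρ z) →
  (∀ z, (Mx z).PosDef ∧ (My z).PosDef ∧ (Ms z).PosDef) →
  (∀ z x, qf (Mx z) x ≤ qf (My z) x ∧ qf (My z) x ≤ qf (Ms z) x) →
  (∀ z x, 0 ≤ g z x ∧ g z x ≤ 2 ^ P * ν z x ∧ 0 ≤ ν z x) → (∀ z, ∃ B, ∀ x, ν z x ≤ B) →
  1 / 2 ^ P ≤ γ → γ ≤ 2 ^ P → η ≤ 1 / 2 ^ P ^ 70 →
  MS ρ Mx My θ θ' ν (2 * P ^ 7) η → MS ρ Mx (fun z => cw I • My z) θ θ' ν (2 * P ^ 7) η →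
  MS ρ (fun z => mp (Mx z) (My z)) Ms (θ + θ') 0 ν (2 * P ^ 7) η →
  MS ρ Mx (fun z => (2 : ℝ) • Ms z) θ 0 ν 1 η → 4 * γ ^ (Q * Q) ≤ t →
  HasSum (fun z => ρ z * XC (gd (Mx z) (θ z)) (gd (My z) (θ' z)) (g z)
    (univ : Finset (Fin Q × Fin Q))) t →
    ∃ W : Set Z, 1 / 2 ^ (4 * P ^ 3 + 10) ≤ ∑' z, W.indicator ρ z ∧
      ∀ z ∈ W, HK (Mx z) (My z) (Ms z) (θ z) (θ' z) (g z) (ν z) P Q γ
end

/-- structures with affine errors are lattice Gaussians -/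
def AFF : Prop := ∀ (σ : Type) (T : TS σ), T.Tri →
  (∀ a b : T.C → ℤ, T.u (zc (a + b)) + T.u 0 = T.u (zc a) + T.u (zc b)) →
    ∃ L : Matrix T.C T.C ℝ, |L.det| = |T.A.det| ∧ ∀ a : T.C → ℤ, T.u (zc a) = L *ᵥ zc a + T.u 0

/-- the top-word rings are shapes; full transversals are points -/
def RING : Prop := ∀ (ι : Type) [Fintype ι] [LinearOrder ι] [Nonempty ι] (s : ℕ)
  (D : Finset (Pt ι)) (V : ℕ → Pt ι → ℝ), Dc D →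
    ((∀ j w, 0 < V j w) → (tw s D V).Ok) ∧
    (∀ (n : ℕ) (a : ℝ), 0 < a → (∀ j w, a ≤ V j w) → 1 ≤ n → s * #D ≤ n → (tw s D V).Sz n a) ∧
    ∀ ω ∈ D, bl ω = univ → 1 ≤ s → (tw s D V).Pt s (chi V ω)

end Crest.Agent.N49.Br

end
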