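import Crest.Agent.N49.Br.Fd
import Crest.Agent.N49.Top.Sd

/-!
# Row 49 (helper74): leaves of the fibre factorisation (statements)
-/

set_option autoImplicit false

open Matrix Finset

noncomputable section

namespace Crest.Agent.N49.Br

open Po Tw

/-- block matrices -/
def BLK : Prop := ∀ (J C : Type) [Fintype J] [DecidableEq J] [Fintype C] [DecidableEq C]
  (Cj : J → Type) [∀ j, Fintype (Cj j)] [∀ j, DecidableEq (Cj j)] (e : (Σ j, Cj j) ≃ C)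
  (M : Matrix C C ℝ) (N : ∀ j, Matrix (Cj j) (Cj j) ℝ),
  (∀ j c c', M (e ⟨j, c⟩) (e ⟨j, c'⟩) = N j c c') → (∀ p p', p.1 ≠ p'.1 → M (e p) (e p') = 0) →
    M.det = ∏ j, (N j).det ∧
      (M.det ≠ 0 → ∀ x, qf M⁻¹ x = ∑ j, qf (N j)⁻¹ fun c => x (e ⟨j, c⟩))

/-- Fubini for bipartite graphs -/
def FUB : Prop := ∀ (Z X H : Type) [Add X] (k l : ℕ) (Γ : Finset (Fin k × Fin l)) (wz : Z → ℝ)
  (wx wy : Z → X → ℝ) (wh : Z → X → H → ℝ) (t : ℝ), (∀ z, 0 ≤ wz z) → (∀ z a, 0 ≤ wx z a) →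
  (∀ z a, 0 ≤ wy z a) → (∀ z a η, 0 ≤ wh z a η) → (∀ z a, Summable (wh z a)) →
  HasSum (fun q : Z × ((Fin k → X) × (Fin l → X)) × (Γ → H) => wz q.1 *
    ((∏ a, wx q.1 (q.2.1.1 a)) * (∏ b, wy q.1 (q.2.1.2 b)) *
      ∏ e : Γ, wh q.1 (q.2.1.1 e.1.1 + q.2.1.2 e.1.2) (q.2.2 e))) t →
  HasSum (fun z => wz z * ∑' p : (Fin k → X) × (Fin l → X), (∏ a, wx z (p.1 a)) *
    (∏ b, wy z (p.2 b)) * ∏ e ∈ Γ, ∑' η, wh z (p.1 e.1 + p.2 e.2) η) t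

variable {ι : Type} [Fintype ι] [LinearOrder ι] (B : Bd ι)

namespace Bd

/-- the variances of the class `j` -/
def vj {k l : ℕ} {Γ : Finset (Fin k × Fin l)} (c c' : ℝ) : Jc Γ → ℕ → Pt ι → ℝ
  | .inl _ => B.vz
  | .inr (.inl _) => fun j t => B.v j t / c
  | .inr (.inr (.inl _)) => fun j t => B.v j t / c'
  | .inr (.inr (.inr _)) => B.vh

variable {B} (h : B.Ok)

/-- the matrices of a shape are block diagonal -/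
def Ok.KWB : Prop := ∀ (k l : ℕ) (Γ : Finset (Fin k × Fin l)) (c c' : ℝ)
  (N : Matrix B.T.C B.T.C ℝ),
  (∀ j p p', B.T.kw (B.S Γ c c') N (B.S Γ c c').K (h.eC c c' ⟨j, p⟩) (h.eC c c' ⟨j, p'⟩) =
    B.KC N (B.vj c c' j) (ja j) (jb j) p p') ∧
  (∀ j p p', B.T.kw (B.S Γ c c') N 1 (h.eC c c' ⟨j, p⟩) (h.eC c c' ⟨j, p'⟩) =
    B.KC N (fun _ _ => 1) (ja j) (jb j) p p') ∧
  ∀ p p', p.1 ≠ p'.1 → B.T.kw (B.S Γ c c') N (B.S Γ c c').K (h.eC c c' p) (h.eC c c' p') = 0 ∧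
    B.T.kw (B.S Γ c c') N 1 (h.eC c c' p) (h.eC c c' p') = 0

/-- the points -/
def Ok.PTS : Prop := ∀ (k l : ℕ) (Γ : Finset (Fin k × Fin l)) (c c' : ℝ) (q : B.Cf Γ) (e : Γ)
  (ω : Pt ι), B.T.pw (B.S Γ c c') (chi (B.V c c') (B.pu ω (some e.1.1) (some e.1.2)))
    (h.cE c c' q) = B.pt ω q.1 (q.2.1.1 e.1.1 + q.2.1.2 e.1.2) (q.2.2 e)

/-- the errors of the class `j` -/
def Ok.uj {k l : ℕ} {Γ : Finset (Fin k × Fin l)} (q : B.Cf Γ) :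
    (Σ j : Jc Γ, B.Cl (ja j) (jb j)) → ℝ
  | ⟨.inl _, p⟩ => h.U q.1 0 0 p
  | ⟨.inr (.inl a), p⟩ => h.U q.1 (q.2.1.1 a) 0 p
  | ⟨.inr (.inr (.inl b)), p⟩ => h.U q.1 (q.2.1.2 b) 0 p - h.U q.1 0 0 p
  | ⟨.inr (.inr (.inr e)), p⟩ => h.U q.1 (q.2.1.1 e.1.1 + q.2.1.2 e.1.2) (q.2.2 e) p

/-- the errors -/
def Ok.ERR : Prop := (∀ (k l : ℕ) (Γ : Finset (Fin k × Fin l)) (c c' : ℝ), 0 < c → 0 < c' →
  ∀ (q : B.Cf Γ) p, (B.T.sh (B.S Γ c c')).u (zc (h.cE c c' q)) (h.eC c c' p) = h.uj q p) ∧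
  ∀ z a b (p : B.I), h.U z (a + b) 0 p + h.U z 0 0 p = h.U z a 0 p + h.U z b 0 p

/-- the clones are lattice Gaussians -/
def Ok.LIN : Prop := ∀ z, (h.M z).PosDef ∧
  (∀ a : B.I → ℤ, h.U z a 0 = h.L z *ᵥ zc a + h.U z 0 0) ∧ ∀ c : ℝ, 0 < c →
  dt (c • h.M z) = B.ZC (fun j t => B.v j t / c) true false ∧ ∀ a,
    gs (B.KC B.T.K (fun j t => B.v j t / c) true false)⁻¹ (h.U z a 0) =
      gs (c • h.M z) (zc a - h.ce z) ∧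
    gs (B.KC B.T.K (fun j t => B.v j t / c) true false)⁻¹ (h.U z a 0 - h.U z 0 0) =
      gs (c • h.M z) (zc a - 0)

/-- the hidden weights -/
def Ok.HID : Prop := (∀ z a η, 0 ≤ h.wH z a η) ∧ (∀ z, 0 ≤ h.rho z) ∧
  (∀ z a, Summable (h.wH z a)) ∧ ∃ b, ∀ z a, ∑' η, h.wH z a η ≤ b

/-- a function of the edges -/
def Ok.PG {k l : ℕ} (Γ : Finset (Fin k × Fin l)) (c c' : ℝ) (G : B.Zc → (B.I → ℤ) → B.Hc → ℝ)
    (y : B.T.Cw (B.S Γ c c') → ℤ) : ℝ := ∏ e : Γ, G ((h.cE c c').symm y).1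
  (((h.cE c c').symm y).2.1.1 e.1.1 + ((h.cE c c').symm y).2.1.2 e.1.2) (((h.cE c c').symm y).2.2 e)

/-- **the fibre factorisation** -/
def Ok.FAC : Prop := ∀ (k l : ℕ) (Γ : Finset (Fin k × Fin l)) (c c' : ℝ), 0 < c → 0 < c' →
  ∀ (G : B.Zc → (B.I → ℤ) → B.Hc → ℝ) (b : ℝ), (∀ z a η, 0 ≤ G z a η ∧ G z a η ≤ b) →
    HasSum (fun z => h.rho z * XC (gd (c • h.M z) (h.ce z)) (gd (c' • h.M z) 0) (h.av G z) Γ)
      ((B.T.sh (B.S Γ c c')).S (h.PG Γ c c' G) / (B.T.sh (B.S Γ c c')).Zc)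

/-- **the Kelley–Meka hypotheses on a popular set of backgrounds** -/
def Ok.KMT : Prop := ∀ (G : B.Zc → (B.I → ℤ) → B.Hc → ℝ) (P Q : ℕ) (γ η lam : ℝ), 2 ≤ Q → Q ≤ P →
  1 ≤ lam → (∀ z a η, 0 ≤ G z a η ∧ G z a η ≤ 2 ^ P) → 1 / 2 ^ P ≤ γ → γ ≤ 2 ^ P →
  η ≤ 1 / 2 ^ P ^ 70 →
  (∀ k ≤ 2 * P ^ 7, ∀ l ≤ 2 * P ^ 7, ∀ (Γ : Finset (Fin k × Fin l)) (c c' : ℝ), 1 / 3 ≤ c → c ≤ 1 →
    1 / 3 ≤ c' → c' ≤ 2 * lam → (B.T.sh (B.S Γ c c')).Mas η) →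
  8 * γ ^ (Q * Q) ≤ (B.T.sh (B.S (univ : Finset (Fin Q × Fin Q)) 1 1)).E (h.PG univ 1 1 G) →
    ∃ W : Set B.Zc, 1 / 2 ^ (4 * P ^ 3 + 10) ≤ ∑' z, W.indicator h.rho z ∧ ∀ z ∈ W,
      HK (h.M z) (h.M z) (lam • h.M z) (h.ce z) 0 (h.av G z) (h.av (fun _ _ _ => 1) z) P Q γ

end Bd

/-- the background words of a grid -/
def zq (x y : ι) (q : ι → ℕ) : Finset (Pt ι) := grid fun i => if i = x ∨ i = y then 0 else q i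
/-- the background points of a grid -/
def zp (x y : ι) (q : ι → ℕ) : Finset (Pt ι) :=
  {ω ∈ zq x y q | ∀ i, i ≠ x → i ≠ y → ω i ≠ none}
/-- the data of a grid -/
def gB (x y : ι) (q : ι → ℕ) (s : ℕ) (T : TS Unit) (v : ℕ → Finset ι → ℝ) : Bd ι :=
  ⟨x, y, zq x y q, s, T, fun j t => v j (bl t), fun j t => v j (insert x (bl t)),
    fun j t => v j (insert x (insert y (bl t)))⟩

/-- **grid counts are edge counts** -/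
def GRD : Prop := ∀ (ι : Type) [Fintype ι] [LinearOrder ι] (x y : ι) (q : ι → ℕ) (s Q : ℕ)
  (T : TS Unit) (v : ℕ → Finset ι → ℝ), XY x y → T.Cl → (∀ j A, 0 < v j A) →
  (∀ j A, x ∉ A → y ∉ A → v j (insert y A) = v j (insert x A)) → q x = Q → q y = Q →
  ∃ h : (gB x y q s T v).Ok, h.PTS → ∀ f : (T.C → ℤ) → ℝ, Top.GS T s q v f =
    (T.sh ((gB x y q s T v).S (univ : Finset (Fin Q × Fin Q)) 1 1)).E (h.PG univ 1 1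
      fun z a η => ∏ ω ∈ zp x y q, f ((gB x y q s T v).pt ω z a η))

/-- the sizes of the bipartite shapes -/
def SZB : Prop := ∀ (ι : Type) [Fintype ι] [LinearOrder ι] (B : Bd ι), B.Ok →
  ∀ (k l : ℕ) (Γ : Finset (Fin k × Fin l)) (c c' a : ℝ) (n : ℕ), 0 < a → 0 < c → 0 < c' → 1 ≤ n →
  B.s * (#B.Z * ((k + 1) * (l + 1))) ≤ n →
  (∀ j t, a ≤ B.vz j t ∧ a ≤ B.vh j t ∧ a * c ≤ B.v j t ∧ a * c' ≤ B.v j t) → (B.S Γ c c').Sz n a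

end Crest.Agent.N49.Br

end
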