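import Crest.Agent.N49.Br.Ring
import Crest.Agent.N49.Tw.Sa

/-!
# Row 49 (helper74): morphisms of top-word rings
-/

set_option autoImplicit false
set_option linter.unusedSectionVars false

open Matrix MvPolynomial Finset

noncomputable section

namespace Crest.Agent.N49.Br

open Po Tw

variable {ι : Type} [Fintype ι] [LinearOrder ι] {s : ℕ} {D D' : Finset (Pt ι)}
  {V V' : ℕ → Pt ι → ℝ}

/-- a word with the level of `w` -/
def Wd.mk' {D' : Finset (Pt ι)} (w : Wd s D) (t : Pt ι) (h : t ∈ D') (hc : #(bl t) = #(bl w.tr)) :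
    Wd s D' := ⟨(w.1.1, ⟨t, h⟩), hc.trans w.2⟩

/-! ### pull-back along maps of the clones -/

/-- rename the clones -/
def cm (f : ι → ℕ → ℕ) (w : Pt ι) : Pt ι := fun i => (w i).map (f i)

theorem bl_cm (f : ι → ℕ → ℕ) (w : Pt ι) : bl (cm f w) = bl w := by
  ext i; simp [mem_bl, cm]

theorem Le.cm {w ω : Pt ι} (h : Le w ω) (f : ι → ℕ → ℕ) : Le (cm f w) (cm f ω) := fun i hi => by
  have : w i ≠ none := fun e => hi (by simp [Br.cm, e])
  simp [Br.cm, h i this]

theorem cm_rs (f : ι → ℕ → ℕ) (ω : Pt ι) (F : Finset ι) : cm f (rs ω F) = rs (cm f ω) F :=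
  funext fun i => by by_cases h : i ∈ F <;> simp [cm, rs, h]

/-- the word with renamed clones -/
def pw (f : ι → ℕ → ℕ) (h : ∀ w ∈ D', cm f w ∈ D) (w : Wd s D') : Wd s D :=
  w.mk' (cm f w.tr) (h _ w.mem) (by rw [bl_cm])

/-- the matrix of the pull-back -/
def pm (s : ℕ) (f : ι → ℕ → ℕ) (h : ∀ w ∈ D', cm f w ∈ D) : Matrix (Wd s D') (Wd s D) ℤ :=
  Matrix.of fun w' w => if w = pw f h w' then 1 else 0

theorem cf_kill {R : Type} [CommRing R] (w : Wd s D) (P : MvPolynomial (Wd s D) R) :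
    (tw s D V).cf R w (aeval (fun v : Wd s D =>
      if Le v.tr w.tr then (X v : MvPolynomial (Wd s D) R) else 0) P) = (tw s D V).cf R w P := by
  induction P using MvPolynomial.induction_on' with
  | add p q hp hq => rw [map_add, map_add, map_add, hp, hq]
  | monomial m a =>
    by_cases h : ∀ v ∈ m.support, Le v.tr w.tr
    · congr 1
      rw [aeval_monomial, monomial_eq, algebraMap_eq]
      congr 1
      exact Finsupp.prod_congr fun v hv => by rw [if_pos (h v hv)]
    · have e : (tw s D V).r w m = 0 := if_neg fun k => h k.2.1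
      rw [Sh.cf_monomial, e]
      push Not at h
      obtain ⟨v, hv, hn⟩ := h
      rw [aeval_monomial, Finsupp.prod, prod_eq_zero hv (by
        rw [if_neg hn, zero_pow (Finsupp.mem_support_iff.1 hv)])]
      simp

theorem aeval_map {A B R : Type} [CommRing R] (m : A →₀ ℕ) (g : A → B)
    {F : A → MvPolynomial B R} (h : ∀ a ∈ m.support, F a = X (g a)) :
    aeval F (monomial m (1 : R)) = monomial (m.mapDomain g) 1 := by
  rw [← rename_monomial, rename_eq_aeval, aeval_monomial, aeval_monomial]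
  congr 1
  exact Finsupp.prod_congr fun a ha => by rw [h a ha]; rfl

theorem Rr_map {w' : Wd s D'} {m : Wd s D →₀ ℕ} {g : Wd s D → Wd s D'}
    (hl : ∀ v ∈ m.support, (g v).lv = v.lv) : Rr w' (m.mapDomain g) ↔ Finsupp.weight Wd.lv m = w'.lv ∧
      (∀ v ∈ m.support, Le (g v).tr w'.tr) ∧
        Fill (m.support.biUnion fun v => bl (g v).tr) (bl w'.tr) := by
  classical
  have hs : (m.mapDomain g).support = m.support.image g :=
    Finsupp.mapDomain_support_of_subsingletonAddUnits g m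
  unfold Rr
  rw [TS.weight_map, hs, image_biUnion, forall_mem_image, Finsupp.weight_apply,
    Finsupp.weight_apply, Finsupp.sum, Finsupp.sum, sum_congr rfl fun v hv => by rw [hl v hv]]

theorem pm_hm (hD : Dc D') (f : ι → ℕ → ℕ) (h : ∀ w ∈ D', cm f w ∈ D) :
    (tw s D V).Hm (tw s D' V') (pm s f h) where
  cd w' w k := by
    have : w = pw f h w' := by by_contra e; exact k (if_neg e)
    rw [tw_cd, tw_cd, this]; rfl
  mass := funext fun w' => by
    simp only [pm, mulVec, dotProduct, of_apply, ite_mul, one_mul, zero_mul, sum_ite_eq',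
      mem_univ, if_true, show (pw f h w').tr = cm f w'.tr from rfl, bl_cm]
    rfl
  mul w' m _ := by
    simp only [pm, of_apply, ite_mul, one_mul, zero_mul, sum_ite_eq', mem_univ, if_true]
    rw [← cf_kill, ← AlgHom.comp_apply, comp_aeval]
    set g : Wd s D → Wd s D' := fun v => if k : Le v.tr (cm f w'.tr) then
      v.mk' (rs w'.tr (bl v.tr)) (hD _ w'.mem _ (rs_le _ _))
        (by rw [bl_rs (bl_cm f w'.tr ▸ k.bl)]) else w' with hg
    have key : ∀ v : Wd s D, (aeval (R := ℤ) (fun u : Wd s D' => if Le u.tr w'.tr then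
        (X u : MvPolynomial (Wd s D') ℤ) else 0))
          ((tw s D' V').el fun u => if v = pw f h u then 1 else 0) =
        if Le v.tr (cm f w'.tr) then X (g v) else 0 := fun v => by
      rw [Sh.el, map_sum]
      split_ifs with k
      · have e1 : (g v).tr = rs w'.tr (bl v.tr) := by simp only [hg, dif_pos k]; rfl
        have e2 : (g v).lv = v.lv := by simp only [hg, dif_pos k]; rfl
        rw [sum_eq_single (g v)]
        · rw [if_pos (Wd.ext' e2.symm (by
            show v.tr = cm f (g v).tr; rw [e1, cm_rs]; exact k.eq_rs)), one_smul, aeval_X,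
            if_pos (e1 ▸ rs_le _ _)]
        · intro u _ ne
          split_ifs with e
          · rw [one_smul, aeval_X, if_neg fun l => ne (Wd.ext' (by rw [e2, e]; rfl) (by
              rw [l.eq_rs, e1, e]; show _ = rs _ (bl (cm f u.tr)); rw [bl_cm]))]
          · simp
        · simp
      · refine sum_eq_zero fun u _ => ?_
        split_ifs with e
        · rw [one_smul, aeval_X, if_neg fun l => k (by rw [e]; exact l.cm f)]
        · simp
    simp only [key]
    by_cases k : ∀ v ∈ m.support, Le v.tr (cm f w'.tr)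
    · rw [aeval_map m g fun v hv => if_pos (k v hv), Sh.cf_monomial, one_mul]
      have e1 : ∀ v ∈ m.support, (g v).tr = rs w'.tr (bl v.tr) := fun v hv => by
        simp only [hg, dif_pos (k v hv)]; rfl
      have e2 : ∀ v ∈ m.support, (g v).lv = v.lv := fun v hv => by
        simp only [hg, dif_pos (k v hv)]; rfl
      show (if Rr (pw f h w') m then (1 : ℤ) else 0) = if Rr w' (m.mapDomain g) then 1 else 0
      refine if_congr (Iff.symm ?_) rfl rfl
      rw [Rr_map e2, biUnion_congr rfl fun v hv => show bl (g v).tr = bl v.tr by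
        rw [e1 v hv, bl_rs (bl_cm f w'.tr ▸ (k v hv).bl)]]
      exact and_congr Iff.rfl (and_congr ⟨fun _ => k, fun _ v hv => e1 v hv ▸ rs_le _ _⟩
        (by rw [show (pw f h w').tr = cm f w'.tr from rfl, bl_cm]))
    · rw [if_neg fun l => k l.2.1]
      push Not at k
      obtain ⟨v, hv, hn⟩ := k
      rw [aeval_monomial, Finsupp.prod, prod_eq_zero hv (by
        rw [if_neg hn, zero_pow (Finsupp.mem_support_iff.1 hv)])]
      simp

/-! ### merging the second block into the first -/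

/-- the two first blocks -/
structure XY (x y : ι) : Prop where
  ne : x ≠ y
  hx : ∀ i, x ≤ i
  hy : ∀ i, i ≠ x → y ≤ i

/-- move the letter of `y` to `x` -/
def mv (x y : ι) (w : Pt ι) : Pt ι := if w x = none then w ∘ Equiv.swap x y else w

/-- families with one clone in `x` and `y`, symmetric in `x, y` -/
structure One (x y : ι) (D : Finset (Pt ι)) : Prop where
  sw : ∀ w ∈ D, w ∘ Equiv.swap x y ∈ D
  hx : ∀ w ∈ D, w x ≠ none → w x = some 0
  hy : ∀ w ∈ D, w y ≠ none → w y = some 0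

variable {x y : ι}

theorem card_sw (w : Pt ι) : #(bl (w ∘ Equiv.swap x y)) = #(bl w) :=
  card_equiv (Equiv.swap x y) fun i => by simp [mem_bl]

/-- swap of a word -/
def sw (h : One x y D) (w : Wd s D) : Wd s D := w.mk' _ (h.sw _ w.mem) (card_sw _)
/-- merge of a word -/
def mw (h : One x y D) (w : Wd s D) : Wd s D := if w.tr x = none then sw h w else w
/-- the matrix of the merge -/
def mm (s : ℕ) (h : One x y D) : Matrix (Wd s D) (Wd s D) ℤ :=
  Matrix.of fun w' w => if w' = mw h w then 1 else 0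

theorem mw_tr (h : One x y D) (w : Wd s D) : (mw h w).tr = mv x y w.tr := by
  unfold mw mv; split_ifs <;> rfl
theorem mw_lv (h : One x y D) (w : Wd s D) : (mw h w).lv = w.lv := by
  unfold mw; split_ifs <;> rfl

theorem mv_ne {w : Pt ι} {i : ι} (a : i ≠ x) (b : i ≠ y) : mv x y w i = w i := by
  unfold mv; split_ifs <;> simp [Equiv.swap_apply_of_ne_of_ne a b]
theorem mv_x (w : Pt ι) : mv x y w x = if w x = none then w y else w x := by
  unfold mv; split_ifs <;> simp
theorem mv_y (w : Pt ι) : mv x y w y = if w x = none then none else w y := by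
  unfold mv; split_ifs with h <;> simp [h]

theorem XY.all (h : XY x y) {p : ι → Prop} : (∀ i, p i) ↔ p x ∧ p y ∧ ∀ i, i ≠ x → i ≠ y → p i :=
  ⟨fun k => ⟨k x, k y, fun i _ _ => k i⟩, fun k i => by
    by_cases a : i = x
    · exact a ▸ k.1
    · by_cases b : i = y
      · exact b ▸ k.2.1
      · exact k.2.2 i a b⟩

theorem XY.fill (h : XY x y) {B Ω : Finset ι} : Fill B Ω ↔ (x ∈ B → x ∈ Ω) ∧ (y ∈ B → y ∈ Ω) ∧
    (y ∈ Ω → y ∉ B → x ∈ Ω) ∧ ∀ i, i ≠ x → i ≠ y → (i ∈ B → i ∈ Ω) ∧
      (i ∈ Ω → i ∉ B → x ∈ Ω ∧ y ∈ Ω ∧ ∀ b, b ≠ x → b ≠ y → b < i → b ∈ Ω) := by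
  constructor
  · rintro ⟨a, b⟩
    exact ⟨@a x, @a y, fun p q => b y p q x (lt_of_le_of_ne (h.hx y) h.ne), fun i p q =>
      ⟨@a i, fun r t => ⟨b i r t x (lt_of_le_of_ne (h.hx i) p.symm),
        b i r t y (lt_of_le_of_ne (h.hy i p) q.symm), fun c _ _ e => b i r t c e⟩⟩⟩
  · rintro ⟨a, b, c, d⟩
    refine ⟨h.all.2 ⟨a, b, fun i p q => (d i p q).1⟩, h.all.2 ⟨fun _ _ i e => ?_,
      fun p q i e => ?_, fun i p q r t => h.all.2 ⟨fun _ => ((d i p q).2 r t).1,
        fun _ => ((d i p q).2 r t).2.1, ((d i p q).2 r t).2.2⟩⟩⟩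
    · exact absurd (h.hx i) e.not_ge
    · by_cases k : i = x
      · exact k ▸ c p q
      · exact absurd (h.hy i k) e.not_ge

theorem card_bU {α β : Type} [DecidableEq α] [DecidableEq β] {S : Finset α} {f : α → Finset β}
    {a b : α} {x : β} (ha : a ∈ S) (hb : b ∈ S) (ne : b ≠ a) (p : x ∈ f a) (q : x ∈ f b) :
    #(S.biUnion f) + 1 ≤ ∑ v ∈ S, #(f v) := by
  rw [← insert_erase ha, biUnion_insert, sum_insert (notMem_erase _ _)]
  have h1 := card_union_add_card_inter (f a) ((S.erase a).biUnion f)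
  have h2 : 0 < #(f a ∩ (S.erase a).biUnion f) :=
    card_pos.2 ⟨x, mem_inter.2 ⟨p, mem_biUnion.2 ⟨b, mem_erase.2 ⟨ne, hb⟩, q⟩⟩⟩
  have h3 := card_biUnion_le (s := S.erase a) (t := f)
  omega

theorem Wd.card_eq (w : Wd s D) {i : ι} (h : w.tr i = none) : #(bl w.tr) = w.lv := by
  have h1 := w.card
  have h2 : #(bl w.tr) < Fintype.card ι :=
    card_lt_univ_of_notMem (x := i) (by simp [mem_bl, h])
  omega

theorem One.le (o : One x y D) (h : XY x y) {v w : Wd s D} : Le v.tr w.tr ↔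
    (v.tr x ≠ none → w.tr x ≠ none) ∧ (v.tr y ≠ none → w.tr y ≠ none) ∧
      ∀ i, i ≠ x → i ≠ y → v.tr i ≠ none → v.tr i = w.tr i :=
  h.all.trans (and_congr ⟨fun k a => k a ▸ a, fun k a => by
    rw [o.hx _ v.mem a, o.hx _ w.mem (k a)]⟩ (and_congr ⟨fun k a => k a ▸ a, fun k a => by
      rw [o.hy _ v.mem a, o.hy _ w.mem (k a)]⟩ Iff.rfl))

theorem mix (o : One x y D) (h : XY x y) {w : Wd s D} {m : Wd s D →₀ ℕ} (hy : w.tr y = none)
    (k : Rr w (m.mapDomain (mw o))) {a b : Wd s D} (ha : a ∈ m.support) (hb : b ∈ m.support)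
    (p : a.tr x ≠ none) (q : b.tr y ≠ none) : False := by
  rw [Rr_map fun v _ => mw_lv o v] at k
  obtain ⟨k1, k2, k3⟩ := k
  have n : ∀ v ∈ m.support, (mw o v).tr y = none := fun v hv => by
    by_contra e; exact ((o.le h).1 (k2 v hv)).2.1 e hy
  have xa : x ∈ bl (mw o a).tr := by rw [mem_bl, mw_tr, mv_x, if_neg p]; exact p
  have bx : b.tr x = none := by
    by_contra e; have := n b hb; rw [mw_tr, mv_y, if_neg e] at this; exact q this
  have xb : x ∈ bl (mw o b).tr := by rw [mem_bl, mw_tr, mv_x, if_pos bx]; exact q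
  have c1 := card_bU (f := fun v => bl (mw o v).tr) ha hb (fun e => p (e ▸ bx)) xa xb
  have c2 : bl w.tr ⊆ m.support.biUnion fun v => bl (mw o v).tr := h.all.2
    ⟨fun _ => mem_biUnion.2 ⟨a, ha, xa⟩, fun e => absurd hy (mem_bl.1 e), fun i r t e => by
      by_contra c; exact mem_bl.1 (((h.fill.1 k3).2.2.2 i r t).2 e c).2.1 hy⟩
  have c3 : ∑ v ∈ m.support, #(bl (mw o v).tr) ≤ Finsupp.weight Wd.lv m := by
    rw [Finsupp.weight_apply, Finsupp.sum]
    refine sum_le_sum fun v hv => ?_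
    rw [(mw o v).card_eq (n v hv), mw_lv]
    exact Nat.le_mul_of_pos_left _ (Nat.pos_of_ne_zero (Finsupp.mem_support_iff.1 hv))
  have c4 := w.card_eq hy
  have c5 := card_le_card c2
  omega

theorem sw_x (o : One x y D) (w : Wd s D) : (sw o w).tr x = w.tr y := by
  show w.tr (Equiv.swap x y x) = _; simp
theorem sw_y (o : One x y D) (w : Wd s D) : (sw o w).tr y = w.tr x := by
  show w.tr (Equiv.swap x y y) = _; simp
theorem sw_ne (o : One x y D) (w : Wd s D) {i : ι} (a : i ≠ x) (b : i ≠ y) :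
    (sw o w).tr i = w.tr i := by
  show w.tr (Equiv.swap x y i) = _; rw [Equiv.swap_apply_of_ne_of_ne a b]
theorem sw_sw (o : One x y D) (w : Wd s D) : sw o (sw o w) = w :=
  Wd.ext' rfl (funext fun i => by show w.tr (Equiv.swap x y (Equiv.swap x y i)) = _; simp)

theorem Rr_mw (o : One x y D) (h : XY x y) (w : Wd s D) (m : Wd s D →₀ ℕ) :
    Rr w (m.mapDomain (mw o)) ↔ (mw o w = w ∧ Rr w m) ∨
      (w.tr x ≠ none ∧ w.tr y = none ∧ Rr (sw o w) m) := by
  have e0 : mw o w = w ↔ (w.tr x = none → w.tr y = none) := by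
    refine ⟨fun e a => by rw [← e, mw_tr, mv_y, if_pos a], fun e => ?_⟩
    unfold mw; split_ifs with a
    · exact Wd.ext' rfl (funext (h.all.2 ⟨by rw [sw_x, e a, a], by rw [sw_y, e a, a],
        fun i p q => sw_ne o w p q⟩))
    · rfl
  have e1 : ∀ i, ¬ i = x → ¬ i = y → ∀ v : Wd s D, (mw o v).tr i = v.tr i := fun i p q v => by
    rw [mw_tr, mv_ne p q]
  have e4 : ∀ i, ¬ i = x → ¬ i = y → (sw o w).tr i = w.tr i := fun i p q => sw_ne o w p q
  have e2 : ∀ v : Wd s D, ¬ (mw o v).tr x = none ↔ ¬ v.tr x = none ∨ ¬ v.tr y = none :=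
    fun v => by rw [mw_tr, mv_x]; split_ifs <;> tauto
  have e3 : ∀ v : Wd s D, ¬ (mw o v).tr y = none ↔ ¬ v.tr x = none ∧ ¬ v.tr y = none :=
    fun v => by rw [mw_tr, mv_y]; split_ifs <;> tauto
  have hm : w.tr y = none → Rr w (m.mapDomain (mw o)) → (∃ a ∈ m.support, ¬ a.tr y = none) →
      ∀ b ∈ m.support, b.tr x = none := fun p q ⟨a, ha, r⟩ b hb => by
    by_contra c; exact mix o h p q hb ha c r
  rw [Rr_map fun v _ => mw_lv o v] at hm ⊢
  unfold Rr
  simp only [e0, o.le h, h.fill, mem_biUnion, mem_bl, ne_eq, e2, e3, sw_x, sw_y,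
    show (sw o w).lv = w.lv from rfl] at hm ⊢
  simp +contextual only [e1, e4, not_false_eq_true] at hm ⊢
  by_cases a : w.tr x = none <;> by_cases b : w.tr y = none <;>
    simp only [a, b, not_true, not_false_eq_true, true_and, false_and, imp_false,
      implies_true, forall_true_left, or_false, false_imp_iff] at hm ⊢
  · exact ⟨fun ⟨p, q, r, _, t⟩ => ⟨p, fun v hv => ⟨fun c => (q v hv).1 (.inl c),
      fun c => (q v hv).1 (.inr c), (q v hv).2.2⟩, fun ⟨v, hv, c⟩ => r ⟨v, hv, .inl c⟩,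
      fun ⟨v, hv, c⟩ => r ⟨v, hv, .inr c⟩, t⟩, fun ⟨p, q, r, r', t⟩ => ⟨p, fun v hv =>
        ⟨fun c => c.elim (q v hv).1 (q v hv).2.1, fun c => (q v hv).1 c.1, (q v hv).2.2⟩,
        fun ⟨v, hv, c⟩ => c.elim (q v hv).1 (q v hv).2.1, fun ⟨v, hv, c⟩ => (q v hv).1 c.1, t⟩⟩
  · exact ⟨fun ⟨_, _, r, t, _⟩ => t fun ⟨v, hv, c⟩ => r ⟨v, hv, .inl c.1⟩, False.elim⟩
  · refine ⟨fun k => ?_, ?_⟩
    · have hm := hm k
      obtain ⟨p, q, r, t⟩ := k
      by_cases c : ∃ a ∈ m.support, ¬ a.tr y = none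
      · exact .inr ⟨p, fun v hv => ⟨fun e => e (hm c v hv), (q v hv).2⟩,
          fun ⟨v, hv, e⟩ => e (hm c v hv), fun e => e c, t⟩
      · exact .inl ⟨p, fun v hv => ⟨fun e => c ⟨v, hv, e⟩, (q v hv).2⟩, c, t⟩
    · rintro (⟨p, q, r, t⟩ | ⟨p, q, r, -, t⟩)
      · exact ⟨p, fun v hv => ⟨fun e => (q v hv).1 e.2, (q v hv).2⟩,
          fun ⟨v, hv, e⟩ => (q v hv).1 e.2, t⟩
      · exact ⟨p, fun v hv => ⟨fun e => (q v hv).1 e.1, (q v hv).2⟩,
          fun ⟨v, hv, e⟩ => (q v hv).1 e.1, t⟩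

theorem mm_hm (o : One x y D) (h : XY x y) : (tw s D V).Hm (tw s D V') (mm s o) where
  cd w' w k := by
    have : w' = mw o w := by by_contra e; exact k (if_neg e)
    rw [tw_cd, tw_cd, this, mw_lv]
  mass := funext fun w' => by
    have k : ∀ w : Wd s D, w.lv = 1 ∧ Fill ∅ (bl w.tr) → mw o w = w := fun w e => by
      refine if_neg fun a => ?_
      obtain ⟨i, hi⟩ : (bl w.tr).Nonempty := card_pos.1 (by rw [w.card_eq a, e.1]; simp)
      exact mem_bl.1 (e.2.2 i hi (by simp) x (lt_of_le_of_ne (h.hx i) fun c => mem_bl.1 hi (c ▸ a))) a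
    simp only [mm, mulVec, dotProduct, of_apply]
    rw [sum_eq_single w' (fun w _ ne => by
      split_ifs with a b
      · exact absurd (a.trans (k w b)).symm ne
      all_goals simp) (by simp)]
    split_ifs with a b b
    · simp
    · simp
    · exact absurd (k w' b).symm a
    · simp
  mul w' m _ := by
    rw [aeval_map m (mw o) fun v _ => by
      simp [mm, Sh.el, ite_smul], Sh.cf_monomial, one_mul]
    simp only [mm, of_apply, Int.cast_id, Rr_mw o h]
    by_cases a : w'.tr x ≠ none ∧ w'.tr y = none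
    · have ne : sw o w' ≠ w' := fun e => a.1 (by rw [← e, sw_x]; exact a.2)
      have f1 : mw o w' = w' := if_neg a.1
      have f2 : mw o (sw o w') = w' := by rw [mw, if_pos (by rw [sw_x]; exact a.2), sw_sw]
      rw [sum_eq_add (sw o w') w' ne (fun w _ e => by
        rw [if_neg, zero_mul]
        rintro rfl
        unfold mw at e
        split_ifs at e with c
        · exact e.1 (sw_sw o w).symm
        · exact e.2 rfl) (by simp) (by simp), if_pos f2.symm, if_pos f1.symm]
      have ex : Rr (sw o w') m → ¬ Rr w' m := fun p q => by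
        by_cases c : y ∈ m.support.biUnion fun v => bl v.tr
        · exact mem_bl.1 (q.2.2.1 c) a.2
        · exact mem_bl.1 ((h.fill.1 p.2.2).2.2.1 (by rw [mem_bl, sw_y]; exact a.1) c)
            (by rw [sw_x]; exact a.2)
      by_cases p : Rr (sw o w') m
      · simp [p, ex p, a.1, a.2]
      · simp [p, f1]
    · rw [sum_eq_single w' (fun w _ ne => by
        rw [if_neg, zero_mul]
        rintro rfl
        unfold mw at ne a
        split_ifs at ne a with c
        · rw [sw_x, sw_y] at a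
          exact ne (Wd.ext' rfl (funext (h.all.2 ⟨by rw [sw_x, c]; tauto, by
            rw [sw_y, c]; tauto, fun i p q => (sw_ne o w p q).symm⟩)))
        · exact ne rfl) (by simp)]
      have : ¬ (w'.tr x ≠ none ∧ w'.tr y = none ∧ Rr (sw o w') m) := fun c => a ⟨c.1, c.2.1⟩
      by_cases p : mw o w' = w'
      · simp [p, this]
      · simp [p, this, Ne.symm p]

end Crest.Agent.N49.Br

end
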