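import Crest.Agent.N49.Br.K0

/-!
# Row 49 (helper4): the relative Kelley–Meka step for discrete Gaussians
-/

set_option autoImplicit false
set_option linter.unusedSectionVars false

open Finset Matrix

noncomputable section

namespace Crest.Agent.N49.Br

open Po

namespace Kg

section gen
variable {I : Type} {μ : (I → ℤ) → ℝ}

theorem sm_shift (h : Summable μ) (t : I → ℤ) : Summable fun a => μ (a + t) :=
  (Equiv.addRight t).summable_iff.2 h

theorem ts_shift (μ : (I → ℤ) → ℝ) (t : I → ℤ) : ∑' a, μ (a + t) = ∑' a, μ a :=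
  (Equiv.addRight t).tsum_eq μ

theorem sm_tv (h : Summable μ) (t : I → ℤ) : Summable fun a => |μ (a + t) - μ a| :=
  ((sm_shift h t).sub h).abs

theorem tvz_nonneg (μ : (I → ℤ) → ℝ) (t : I → ℤ) : 0 ≤ tvz μ t :=
  tsum_nonneg fun _ => abs_nonneg _

theorem tvz_le (h0 : ∀ a, 0 ≤ μ a) (h : Summable μ) (t : I → ℤ) : tvz μ t ≤ 2 * ∑' a, μ a := by
  calc tvz μ t ≤ ∑' a, (μ (a + t) + μ a) :=
        (sm_tv h t).tsum_le_tsum (fun a => by
          have := h0 a; have := h0 (a + t); rw [abs_le]; constructor <;> linarith)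
          ((sm_shift h t).add h)
    _ = _ := by rw [(sm_shift h t).tsum_add h, ts_shift]; ring

theorem tvz_two (h : Pz μ) (t : I → ℤ) : tvz μ t ≤ 2 := by
  simpa [h.2.tsum_eq] using tvz_le h.1 h.2.summable t

theorem sm_mul (h : Pz μ) {f : (I → ℤ) → ℝ} {B : ℝ} (f0 : ∀ a, 0 ≤ f a) (f1 : ∀ a, f a ≤ B) :
    Summable fun a => μ a * f a :=
  Summable.of_nonneg_of_le (fun a => mul_nonneg (h.1 a) (f0 a))
    (fun a => mul_le_mul_of_nonneg_left (f1 a) (h.1 a)) (h.2.summable.mul_right B)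

theorem avg_le (h : Pz μ) {f g : (I → ℤ) → ℝ} {a b : ℝ} (f0 : ∀ t, 0 ≤ f t) (f1 : ∀ t, f t ≤ 2)
    (g0 : ∀ t, 0 ≤ g t) (g1 : ∀ t, g t ≤ 1) (hf : ∀ t, μ t ≠ 0 → f t ≤ a + 2 * g t)
    (hb : ∑' t, μ t * g t ≤ b) : ∑' t, μ t * f t ≤ a + 2 * b := by
  have s1 := h.2.summable.mul_right a
  have s2 := (sm_mul h g0 g1).mul_left 2
  calc _ ≤ ∑' t, (μ t * a + 2 * (μ t * g t)) :=
        (sm_mul h f0 f1).tsum_le_tsum (fun t => by
          by_cases e : μ t = 0
          · simp [e]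
          · have := mul_le_mul_of_nonneg_left (hf t e) (h.1 t); linarith) (s1.add s2)
    _ = a + 2 * ∑' t, μ t * g t := by
        rw [s1.tsum_add s2, tsum_mul_right, tsum_mul_left, h.2.tsum_eq, one_mul]
    _ ≤ _ := by linarith

theorem trunc (h : Pz μ) (A : (I → ℤ) → Prop) [DecidablePred A] {τ : ℝ} (hτ : τ ≤ 1 / 2)
    (hA : ∑' a, μ a * (if A a then 0 else 1) ≤ τ) (s1 : ∀ a, μ (-a) = μ a)
    (s2 : ∀ a, A (-a) ↔ A a) : ∃ ν : (I → ℤ) → ℝ, Pz ν ∧ (∀ a, ν a ≠ 0 → A a) ∧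
      (∀ a, ν (-a) = ν a) ∧ ∀ t, tvz ν t ≤ 2 * tvz μ t + 4 * τ := by
  set u : (I → ℤ) → ℝ := fun a => μ a * (if A a then 1 else 0) with hu
  set v : (I → ℤ) → ℝ := fun a => μ a * (if A a then 0 else 1) with hv
  have su : Summable u := sm_mul h (B := 1) (fun a => by split_ifs <;> norm_num)
    fun a => by split_ifs <;> norm_num
  have sv : Summable v := sm_mul h (B := 1) (fun a => by split_ifs <;> norm_num)
    fun a => by split_ifs <;> norm_num
  have u0 : ∀ a, 0 ≤ u a := fun a => mul_nonneg (h.1 a) (by split_ifs <;> norm_num)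
  have v0 : ∀ a, 0 ≤ v a := fun a => mul_nonneg (h.1 a) (by split_ifs <;> norm_num)
  have e : ∀ a, u a = μ a - v a := fun a => by simp only [hu, hv]; split_ifs <;> ring
  have m : ∑' a, u a = 1 - ∑' a, v a := by
    rw [tsum_congr e, h.2.summable.tsum_sub sv, h.2.tsum_eq]
  have m1 : 1 / 2 ≤ ∑' a, u a := by rw [m]; linarith
  have m0 : 0 < ∑' a, u a := by linarith
  refine ⟨fun a => u a / ∑' a, u a, ⟨fun a => div_nonneg (u0 a) m0.le, ?_⟩, fun a ha => ?_,
    fun a => by simp only [hu, s1, s2], fun t => ?_⟩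
  · have := su.hasSum.div_const (∑' a, u a)
    rwa [div_self m0.ne'] at this
  · by_contra k
    simp [hu, k] at ha
  · have e1 : tvz (fun a => u a / ∑' a, u a) t = tvz u t / ∑' a, u a := by
      unfold tvz
      rw [← tsum_div_const]
      exact tsum_congr fun a => by rw [← sub_div, abs_div, abs_of_pos m0]
    have e2 : tvz u t ≤ tvz μ t + tvz v t := by
      unfold tvz
      rw [← (sm_tv h.2.summable t).tsum_add (sm_tv sv t)]
      refine (sm_tv su t).tsum_le_tsum (fun a => ?_) ((sm_tv h.2.summable t).add (sm_tv sv t))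
      rw [e, e, show μ (a + t) - v (a + t) - (μ a - v a) = μ (a + t) - μ a - (v (a + t) - v a) by ring]
      exact abs_sub _ _
    have e3 := tvz_le v0 sv t
    have e4 := tvz_nonneg u t
    rw [e1, div_le_iff₀ m0]
    have e5 := tvz_nonneg μ t
    have e6 : 0 ≤ τ := (tsum_nonneg v0).trans hA
    nlinarith

end gen

variable {I : Type} [Fintype I] [DecidableEq I] {M M' : Matrix I I ℝ}

theorem gz_nonneg (M : Matrix I I ℝ) (θ : I → ℝ) (a : I → ℤ) : 0 ≤ gz M θ a :=
  div_nonneg (gs_pos _ _).le (th_nonneg _ _)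

theorem pz_gz (hM : M.PosDef) (θ : I → ℝ) : Pz (gz M θ) := ⟨gz_nonneg M θ, by
  have := (summable_gs hM θ).hasSum.div_const (th M θ)
  rwa [show (∑' n, gs M (zc n - θ)) / th M θ = 1 from div_self (th_pos hM θ).ne'] at this⟩

theorem tvz_gz (hM : M.PosDef) (θ : I → ℝ) (t : I → ℤ) :
    tvz (gz M θ) t ≤ 2 * √(Real.pi * qf M (zc t)) := by
  have p := th_pos hM θ
  have e : tvz (gz M θ) t = (∑' n, |gs M (zc n - θ) - gs M (zc (n + t) - θ)|) / th M θ := by
    unfold tvz gz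
    rw [← tsum_div_const]
    exact tsum_congr fun a => by rw [← sub_div, abs_div, abs_of_pos p, abs_sub_comm]
  rw [e, div_le_iff₀ p]
  exact tv_shift hM θ t

theorem tvz_gz' (hM : M.PosDef) (θ : I → ℝ) {t : I → ℤ} {x : ℝ} (hx : 0 ≤ x)
    (h : 16 * qf M (zc t) ≤ x ^ 2) : tvz (gz M θ) t ≤ x := by
  refine (tvz_gz hM θ t).trans ?_
  have : √(Real.pi * qf M (zc t)) ≤ x / 2 := by
    rw [Real.sqrt_le_left (by positivity)]
    nlinarith [Real.pi_le_four, qf_nonneg hM (zc t)]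
  linarith

theorem gz_tail (hM : M.PosDef) (L : ℕ) {g : (I → ℤ) → ℝ} (h0 : ∀ n, 0 ≤ g n) (h1 : ∀ n, g n ≤ 1)
    (h : ∀ n, qf M (zc n) < Fintype.card I + L → g n = 0) :
    ∑' n, gz M 0 n * g n ≤ 1 / 2 ^ L := by
  have p := th_pos hM 0
  have e : ∑' n, gz M 0 n * g n = (∑' n, gs M (zc n - 0) * g n) / th M 0 := by
    rw [← tsum_div_const]
    exact tsum_congr fun a => by unfold gz; ring
  rw [e, div_le_iff₀ p]
  refine (tail hM 0 (Fintype.card I + L) h0 h1 fun n hn => h n (by simpa using hn)).trans ?_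
  refine mul_le_mul_of_nonneg_right ((bz_le le_rfl (by positivity)).trans ?_) p.le
  rw [Real.exp_neg, one_div]
  refine inv_anti₀ (by positivity) ?_
  rw [← mul_one (L : ℝ), Real.exp_nat_mul]
  exact pow_le_pow_left₀ (by norm_num) (by linarith [Real.add_one_le_exp 1]) L

theorem qf_inv_anti (hM : M.PosDef) (hM' : M'.PosDef) (h : ∀ x, qf M x ≤ qf M' x) (k : I → ℝ) :
    qf M'⁻¹ k ≤ qf M⁻¹ k := by
  have a := dual_sq_le hM (M'⁻¹ *ᵥ k) k
  have e : qf M' (M'⁻¹ *ᵥ k) = qf M'⁻¹ k := by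
    unfold qf
    rw [mulVec_mulVec, mul_nonsing_inv _ hM'.det_pos.ne'.isUnit, one_mulVec, dotProduct_comm]
  have b := h (M'⁻¹ *ᵥ k)
  rw [e] at b
  change qf M'⁻¹ k ^ 2 ≤ _ at a
  have c := qf_nonneg hM.inv k
  have d := qf_nonneg hM'.inv k
  by_contra f
  push Not at f
  nlinarith [mul_le_mul_of_nonneg_left b c]

theorem dt_conv (hM : M.PosDef) (hM' : M'.PosDef) :
    dt (M + M') * dt (M⁻¹ + M'⁻¹)⁻¹ = dt M * dt M' := by
  have a := hM.det_pos
  have b := hM'.det_pos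
  have c := (hM.add hM').det_pos
  unfold dt
  rw [inv_add_inv hM hM', det_mul, det_mul, det_nonsing_inv, Ring.inverse_eq_inv', ← mul_inv,
    ← mul_inv, ← Real.sqrt_mul c.le, ← Real.sqrt_mul a.le]
  congr 2
  field_simp

theorem sm_anti {c : ℝ} (hM : M.PosDef) (hM' : M'.PosDef) (h : ∀ x, qf M x ≤ qf M' x)
    (hs : th M'⁻¹ 0 ≤ c) : th M⁻¹ 0 ≤ c :=
  (th_mono hM'.inv hM.inv (qf_inv_anti hM hM' h) 0).trans hs

theorem th_up {c : ℝ} (hM : M.PosDef) (hs : th M⁻¹ 0 ≤ c) (θ : I → ℝ) : th M θ ≤ c * dt M := by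
  refine (th_le hM θ).trans ?_
  rw [th_dual hM, mul_comm]
  exact mul_le_mul_of_nonneg_right hs (dt_pos hM).le

theorem th_lo (hM : M.PosDef) (hs : th M⁻¹ 0 ≤ 11 / 10) (θ : I → ℝ) : 9 / 10 * dt M ≤ th M θ := by
  have := (abs_le.1 (smooth hM θ)).1
  nlinarith [dt_pos hM]

/-- the convolution of two smooth discrete Gaussians -/
theorem conv_le {N : Matrix I I ℝ} (hM : M.PosDef) (hM' : M'.PosDef) (hN : N.PosDef)
    (h : ∀ x, qf (M + M') x ≤ qf N x) (hs : th N⁻¹ 0 ≤ 11 / 10) (θ θ' : I → ℝ) (p : I → ℤ) :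
    ∑' t, gz M' θ' t * gz M θ (p - t) ≤ 8 * gz (M⁻¹ + M'⁻¹)⁻¹ (θ + θ') p := by
  have hS := hM.add hM'
  have hD := hM.inv.add hM'.inv
  have k1 : ∀ x, qf M x ≤ qf N x := fun x => by
    have := h x; rw [qf_add_left] at this; linarith [qf_nonneg hM' x]
  have k2 : ∀ x, qf M' x ≤ qf N x := fun x => by
    have := h x; rw [qf_add_left] at this; linarith [qf_nonneg hM x]
  have t1 := sm_anti hS hN h hs
  have t2 := sm_anti hM hN k1 hs
  have t3 : th (M⁻¹ + M'⁻¹) 0 ≤ 11 / 10 := (th_mono hM.inv hD (fun x => by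
    rw [qf_add_left]; linarith [qf_nonneg hM'.inv x]) 0).trans t2
  have e : ∑' t, gz M' θ' t * gz M θ (p - t) =
      (∑' t, gs M (zc t - (zc p - θ)) * gs M' (zc t - θ')) / (th M θ * th M' θ') := by
    rw [← tsum_div_const]
    refine tsum_congr fun t => ?_
    unfold gz
    rw [gs_sub_comm M (zc t), zc_sub, show zc p - zc t - θ = zc p - θ - zc t by abel]
    ring
  rw [e, tsum_conv hM hM', sub_sub]
  unfold gz
  set c := (M + M')⁻¹ *ᵥ (M *ᵥ (zc p - θ) + M' *ᵥ θ')
  have a1 := th_up hS t1 c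
  have a2 := th_up (c := 11 / 10) hD.inv (by rwa [inv_inv' hD]) (θ + θ')
  have a3 := th_lo hM t2 θ
  have a4 := th_lo hM' (sm_anti hM' hN k2 hs) θ'
  have p1 := th_pos hM θ
  have p2 := th_pos hM' θ'
  have p3 := th_pos hD.inv (θ + θ')
  have p4 := gs_pos (M⁻¹ + M'⁻¹)⁻¹ (zc p - (θ + θ'))
  have b1 : th (M + M') c * th (M⁻¹ + M'⁻¹)⁻¹ (θ + θ') ≤ 121 / 100 * (dt M * dt M') := by
    rw [← dt_conv hM hM']
    calc _ ≤ 11 / 10 * dt (M + M') * (11 / 10 * dt (M⁻¹ + M'⁻¹)⁻¹) :=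
          mul_le_mul a1 a2 p3.le (by have := dt_pos hS; positivity)
      _ = _ := by ring
  have b2 : 9 / 10 * dt M * (9 / 10 * dt M') ≤ th M θ * th M' θ' :=
    mul_le_mul a3 a4 (by have := dt_pos hM'; positivity) p1.le
  have b3 := mul_pos (dt_pos hM) (dt_pos hM')
  rw [← mul_div_assoc, div_le_div_iff₀ (mul_pos p1 p2) p3]
  calc _ = gs (M⁻¹ + M'⁻¹)⁻¹ (zc p - (θ + θ')) *
        (th (M + M') c * th (M⁻¹ + M'⁻¹)⁻¹ (θ + θ')) := by ring
    _ ≤ gs (M⁻¹ + M'⁻¹)⁻¹ (zc p - (θ + θ')) * (8 * (th M θ * th M' θ')) :=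
        mul_le_mul_of_nonneg_left (by linarith) p4.le
    _ = _ := by ring

theorem dom1 (hM : M.PosDef) (θ : I → ℝ) {ν : (I → ℤ) → ℝ} (hν : Pz ν) (s : ∀ a, ν (-a) = ν a)
    (h : ∀ a, ν a ≠ 0 → 8 * qf M (zc a) ≤ 1) (y : I → ℤ) :
    gz M θ y ≤ 2 * ∑' v, ν v * gz M θ (y + v) := by
  have p := th_pos hM θ
  have b : ∀ a, gz M θ a ≤ 1 := fun a => (div_le_one p).2 (gs_le_th hM θ a)
  have s1 := sm_mul hν (fun v => gz_nonneg M θ (y + v)) fun v => b _
  have s2 := sm_mul hν (fun v => gz_nonneg M θ (y - v)) fun v => b _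
  have e : ∑' v, ν v * gz M θ (y - v) = ∑' v, ν v * gz M θ (y + v) := by
    rw [← (Equiv.neg (I → ℤ)).tsum_eq]
    exact tsum_congr fun v => by simp [s]
  calc gz M θ y = ∑' v, ν v * gz M θ y := by rw [tsum_mul_right, hν.2.tsum_eq, one_mul]
    _ ≤ ∑' v, (ν v * gz M θ (y + v) + ν v * gz M θ (y - v)) := by
        refine (hν.2.summable.mul_right _).tsum_le_tsum (fun v => ?_) (s1.add s2)
        by_cases k : ν v = 0
        · simp [k]
        rw [← mul_add]
        refine mul_le_mul_of_nonneg_left ?_ (hν.1 v)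
        unfold gz
        rw [← add_div, div_le_div_iff_of_pos_right p, zc_add, zc_sub,
          show zc y + zc v - θ = zc y - θ + zc v by abel, show zc y - zc v - θ = zc y - θ - zc v by abel]
        have m := gs_mid M (zc y - θ) (zc v)
        have g1 : 1 / 2 ≤ gs M (zc v) := by
          have := one_sub_le_gs M (zc v)
          nlinarith [Real.pi_le_four, qf_nonneg hM (zc v), h v k]
        have p1 := gs_pos M (zc y - θ + zc v)
        have p2 := gs_pos M (zc y - θ - zc v)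
        have p3 := gs_pos M (zc y - θ)
        have g2 : gs M (zc y - θ) / 2 ≤ gs M (zc y - θ) * gs M (zc v) := by nlinarith
        have g3 := pow_le_pow_left₀ (by positivity) g2 2
        exact abs_le_of_sq_le_sq' (by nlinarith [sq_nonneg (gs M (zc y - θ + zc v) -
          gs M (zc y - θ - zc v))]) (by positivity) |>.2
    _ = _ := by rw [s1.tsum_add s2, e]; ring

theorem cw_pos : 0 < cw I := by unfold cw; positivity

theorem cw_le : cw I ≤ 1 := by
  unfold cw; rw [div_le_one (by positivity)]; linarith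

theorem cw_pow : (√(cw I))⁻¹ ^ Fintype.card I ≤ 2 := by
  have p := cw_pos (I := I)
  refine (abs_le_of_sq_le_sq' ?_ (by norm_num)).2
  rw [← pow_mul, mul_comm, pow_mul, inv_pow, Real.sq_sqrt p.le]
  set n := Fintype.card I
  have e : (cw I)⁻¹ = 1 / (n + 1 : ℝ) + 1 := by unfold cw; field_simp; ring
  calc _ ≤ Real.exp (1 / (n + 1 : ℝ)) ^ n := by
        rw [e]; exact pow_le_pow_left₀ (by positivity) (Real.add_one_le_exp _) n
    _ ≤ Real.exp 1 := by
        rw [← Real.exp_nat_mul, Real.exp_le_exp, mul_one_div, div_le_one (by positivity)]; linarith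
    _ ≤ _ := by linarith [Real.exp_one_lt_d9]

theorem dom2 (hM : M.PosDef) (hs : th M⁻¹ 0 ≤ 11 / 10) (θ : I → ℝ) (v t : I → ℤ)
    (h : 16 * (Fintype.card I + 1) * qf M (zc v) ≤ 1) :
    gz M θ (t + v) ≤ 4 * gz (cw I • M) θ t := by
  have p := th_pos hM θ
  have hc := hM.smul (cw_pos (I := I))
  have p' := th_pos hc θ
  have a : th (cw I • M) θ ≤ 3 * th M θ := by
    have a1 := (th_scale hM cw_pos cw_le θ).trans
      (mul_le_mul_of_nonneg_right cw_pow (th_pos hM 0).le)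
    linarith [th_up hM hs 0, th_lo hM hs θ, dt_pos hM]
  set n : ℝ := (Fintype.card I : ℝ) with hn
  have n0 : 0 ≤ n := by positivity
  set y := zc t - θ with hy
  have q : cw I * qf M y ≤ qf M (y + zc v) + (n + 1) * qf M (zc v) := by
    have z := qf_nonneg hM (y + (n + 2) • zc v)
    rw [qf_add hM, qf_smul_right, mulVec_smul, dotProduct_smul, smul_eq_mul] at z
    rw [qf_add hM, cw, ← hn, div_mul_eq_mul_div, div_le_iff₀ (by positivity)]
    nlinarith
  have b : gs M (y + zc v) ≤ 4 / 3 * gs (cw I • M) y := by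
    have x : 1 - Real.pi * ((n + 1) * qf M (zc v)) ≤
        Real.exp (-(Real.pi * ((n + 1) * qf M (zc v)))) := by
      linarith [Real.add_one_le_exp (-(Real.pi * ((n + 1) * qf M (zc v))))]
    have x0 : 0 ≤ (n + 1) * qf M (zc v) := mul_nonneg (by positivity) (qf_nonneg hM _)
    have x1 : 3 / 4 ≤ Real.exp (-(Real.pi * ((n + 1) * qf M (zc v)))) := by
      nlinarith [Real.pi_le_four]
    have x2 : gs M (y + zc v) * Real.exp (-(Real.pi * ((n + 1) * qf M (zc v)))) ≤
        gs (cw I • M) y := by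
      unfold gs
      rw [← Real.exp_add, Real.exp_le_exp, qf_smul]
      nlinarith [Real.pi_pos]
    nlinarith [gs_pos M (y + zc v)]
  unfold gz
  rw [zc_add, show zc t + zc v - θ = y + zc v by rw [hy]; abel, ← hy, ← mul_div_assoc,
    div_le_div_iff₀ p p']
  have := gs_pos (cw I • M) y
  calc _ ≤ 4 / 3 * gs (cw I • M) y * (3 * th M θ) := mul_le_mul b a p'.le (by positivity)
    _ = _ := by ring

end Kg

open Kg

/-- **the step for discrete Gaussians** -/
theorem kmg {I : Type} [Fintype I] [DecidableEq I] (h : KMZ I) : KMG I := by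
  intro Mx My θ θ' g ν P j Q γ B hj hQ hP hx hy hxy hs g0 g1 ν0 ν1 γ1 γ2 hγ l1 l2
  classical
  have p8 : 8 ≤ P := ((Nat.pow_le_pow_right (by norm_num) hj : 2 ^ 3 ≤ 2 ^ j).trans hQ).trans hP
  have E8 : 8 ≤ P ^ 68 := p8.trans (Nat.le_self_pow (by norm_num) P)
  have hc := hy.smul (cw_pos (I := I))
  generalize hE : P ^ 68 = E at *
  set n : ℝ := (Fintype.card I : ℝ) with hn
  have n0 : 0 ≤ n := by positivity
  set x : ℝ := 2 ^ E with hxE
  have x1 : (E : ℝ) + 2 ≤ x := by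
    have : E + 2 ≤ 2 ^ E := by
      obtain ⟨e, rfl⟩ := Nat.exists_eq_add_of_le' (show 1 ≤ E by omega)
      have := Nat.lt_two_pow_self (n := e)
      rw [pow_succ]; omega
    rw [hxE]; exact_mod_cast this
  have x2 : 256 ≤ x := by
    calc (256 : ℝ) = 2 ^ 8 := by norm_num
      _ ≤ _ := pow_le_pow_right₀ (by norm_num) E8
  have x0 : 0 < x := by linarith
  set R : ℝ := n + ((E + 4 : ℕ) : ℝ) with hR
  have R1 : 1 ≤ R := by rw [hR]; push_cast; have : (0 : ℝ) ≤ E := by positivity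
                        linarith
  have R2 : R ≤ (n + 2) * x := by
    rw [hR]; push_cast
    have : (0 : ℝ) ≤ E := by positivity
    nlinarith
  set u : ℝ := 16 * x ^ 2 * (n + 2) with hu
  have u1 : 16 * x ^ 2 ≤ u := by rw [hu]; nlinarith [sq_nonneg x]
  have u2 : 16 * (n + 1) ≤ u := by rw [hu]; nlinarith [sq_nonneg x]
  have u3 : 1 ≤ u := by linarith
  have S1 : 1 ≤ R * u := one_le_mul_of_one_le_of_one_le R1 u3
  have hS := hy.smul (show 0 < R * u by linarith)
  have w1 : 1 ≤ 256 * x ^ 2 * R := by nlinarith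
  have S2 : 1 ≤ 256 * x ^ 2 * R * (R * u) := one_le_mul_of_one_le_of_one_le w1 S1
  have hT := hy.smul (show 0 < 256 * x ^ 2 * R * (R * u) by linarith)
  have e4 : (1 : ℝ) / 2 ^ (E + 4) = 1 / x / 16 := by rw [pow_add, ← hxE]; field_simp; norm_num
  have ix : 1 / x ≤ 1 := by rw [div_le_one x0]; linarith
  have ix0 : 0 < 1 / x := by positivity
  obtain ⟨mv, pv, sv, yv, tv⟩ := trunc (pz_gz hS 0) (fun a => u * qf My (zc a) ≤ 1)
    (τ := 1 / x / 16) (by linarith)
    (e4 ▸ gz_tail hS (E + 4) (fun a => by split_ifs <;> norm_num) (fun a => by split_ifs <;> norm_num)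
      fun a ha => if_pos (by
        rw [qf_smul, mul_assoc] at ha
        exact le_of_mul_le_mul_left (by linarith) (show 0 < R by linarith)))
    (fun a => by unfold gz; rw [sub_zero, sub_zero, zc_neg, gs_neg])
    (fun a => by rw [zc_neg, qf_neg])
  -- the bad set of the smoothing law
  set bd : (I → ℤ) → ℝ := fun t => if 256 * x ^ 2 * (R * u) * qf My (zc t) ≤ 1 then 0 else 1 with hbd
  have b0 : ∀ t, 0 ≤ bd t := fun t => by simp only [hbd]; split_ifs <;> norm_num
  have b1 : ∀ t, bd t ≤ 1 := fun t => by simp only [hbd]; split_ifs <;> norm_num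
  have bs : ∑' t, gz ((256 * x ^ 2 * R * (R * u)) • My) 0 t * bd t ≤ 1 / x / 16 :=
    e4 ▸ gz_tail hT (E + 4) b0 b1 fun a ha => if_pos (by
      rw [qf_smul] at ha
      exact le_of_mul_le_mul_left (by linarith) (show 0 < R by linarith))
  have sq4 : (1 / x / 4) ^ 2 * (256 * x ^ 2) = 16 := by field_simp; norm_num
  have good : ∀ (M : Matrix I I ℝ) (θ'' : I → ℝ) (t : I → ℤ), M.PosDef →
      qf M (zc t) ≤ R * u * qf My (zc t) → tvz (gz M θ'') t ≤ 1 / x / 4 + bd t * 2 := by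
    intro M θ'' t hM k
    simp only [hbd]
    split_ifs with c
    · rw [zero_mul, add_zero]
      refine tvz_gz' hM θ'' (by positivity) ?_
      refine le_of_mul_le_mul_right ?_ (show 0 < 256 * x ^ 2 by positivity)
      rw [sq4]
      nlinarith [mul_le_mul_of_nonneg_left k (show 0 ≤ 256 * x ^ 2 by positivity)]
    · linarith [tvz_two (pz_gz hM θ'') t]
  obtain ⟨ξ, ρ, pρ, hρ, hw⟩ := hE ▸ h (gz Mx θ) (gz My θ') (gz Mx θ) mv (gz (cw I • My) θ')
    (gz ((256 * x ^ 2 * R * (R * u)) • My) 0) g ν P j Q γ B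
    (finite_ell hy 0 (1 / (2 ^ (12 * E) * (n + 2) ^ 6))).toFinset hj hQ hP (pz_gz hx θ) (pz_gz hy θ')
    (pz_gz hx θ) pv (pz_gz hc θ') (pz_gz hT 0)
    (dom1 hx θ pv yv fun a ha => by
      have := sv a ha
      nlinarith [hxy (zc a), qf_nonneg hy (zc a)])
    (fun v t hv => dom2 hy (sm_anti hy (hy.smul two_pos) (fun z => by
      rw [qf_smul]; linarith [qf_nonneg hy z]) hs) θ' v t (by
      have := sv v hv
      nlinarith [qf_nonneg hy (zc v)])) g0 g1 ν0 ν1 γ1 γ2 hγ (hE ▸ l1) (hE ▸ l2)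
    (by
      rw [hE, ← hxE]
      have := avg_le (pz_gz hT 0) (a := 1 / x / 2 + 1 / x / 4) (tvz_nonneg mv) (tvz_two pv) b0 b1
        (fun t _ => by
          by_cases c : bd t = 0
          · have k := good _ 0 t hS (qf_smul _ _ _).le
            have := tv t
            rw [c] at k ⊢
            linarith
          · have : bd t = 1 := by
              simp only [hbd] at c ⊢
              split_ifs at c ⊢ with d
              · exact absurd rfl c
              · rfl
            linarith [tvz_two pv t]) bs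
      linarith)
    (by
      rw [hE, ← hxE]
      have := avg_le (pz_gz hT 0) (a := 1 / x / 4) (tvz_nonneg (gz Mx θ)) (tvz_two (pz_gz hx θ)) b0 b1
        (fun t _ => by
          have := good Mx θ t hx ((hxy _).trans (le_mul_of_one_le_left (qf_nonneg hy _) S1))
          linarith) bs
      linarith)
    (by
      rw [hE, ← hxE]
      have := avg_le pv (a := 1 / x) (g := fun _ => 0) (b := 0) (tvz_nonneg (gz Mx θ))
        (tvz_two (pz_gz hx θ)) (fun _ => le_rfl) (fun _ => zero_le_one) (fun t ht => by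
          rw [mul_zero, add_zero]
          refine tvz_gz' hx θ ix0.le ?_
          have := sv t ht
          rw [div_pow, one_pow, le_div_iff₀ (by positivity)]
          nlinarith [hxy (zc t), qf_nonneg hy (zc t), qf_nonneg hx (zc t),
            mul_le_mul_of_nonneg_left (hxy (zc t)) (show 0 ≤ 16 * x ^ 2 by positivity)]) (by simp)
      linarith)
  refine ⟨ξ, ρ, pρ, fun p => (hρ p).trans ?_, fun w hf hq => ?_⟩
  · have := conv_le hx hc (hy.smul two_pos) (fun z => by
      rw [qf_add_left, qf_smul, qf_smul]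
      nlinarith [hxy z, qf_nonneg hy z, cw_le (I := I)]) hs θ θ' p
    calc _ ≤ 2 ^ (E + 2) * (8 * gz (Mx⁻¹ + (cw I • My)⁻¹)⁻¹ (θ + θ') p) :=
          mul_le_mul_of_nonneg_left this (by positivity)
      _ = _ := by rw [show E + 5 = E + 2 + 3 by ring, pow_add _ (E + 2) 3]; ring
  · have k : 16 * (256 * x ^ 2 * R * (R * u) * qf My (zc w)) ≤ (1 / x) ^ 2 := by
      rw [show (2 : ℝ) ^ (12 * E) = x ^ 12 by rw [hxE, ← pow_mul, mul_comm],
        le_div_iff₀ (by positivity)] at hq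
      rw [div_pow, one_pow, le_div_iff₀ (by positivity)]
      refine le_trans ?_ hq
      have a : R * R ≤ ((n + 2) * x) * ((n + 2) * x) := mul_le_mul R2 R2 (by linarith) (by positivity)
      have b : 65536 ≤ x ^ 4 := by nlinarith [mul_le_mul x2 x2 (by norm_num) x0.le]
      have c : 1 ≤ (n + 2) ^ 3 := one_le_pow₀ (by linarith)
      calc _ = qf My (zc w) * (65536 * x ^ 6 * (n + 2) * (R * R) * 1) := by rw [hu]; ring
        _ ≤ qf My (zc w) * (x ^ 4 * x ^ 6 * (n + 2) * (((n + 2) * x) * ((n + 2) * x)) * (n + 2) ^ 3) := by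
            refine mul_le_mul_of_nonneg_left ?_ (qf_nonneg hy _)
            gcongr
        _ = _ := by ring
    refine hw w ((Set.Finite.mem_toFinset _).2 (by simpa using hq)) hf
      (tvz_gz' hT 0 ix0.le (by rw [qf_smul]; exact k)) (tvz_gz' hx θ ix0.le (le_trans ?_ k))
    have := (hxy (zc w)).trans (le_mul_of_one_le_left (qf_nonneg hy _) S2)
    linarith

end Crest.Agent.N49.Br

end
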