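import Crest.Agent.N49.Br.Kz
import Crest.Agent.N49.Br.Kg
import Crest.Agent.N49.Km.Two
import Crest.Agent.N49.Km.Sift

/-!
# Row 49 (helper88): the relative Kelley–Meka step on `ℤ^I`, unconditional forms
-/

set_option autoImplicit false

namespace Crest.Agent.N49.Br

theorem kmZ (I : Type) [Fintype I] [DecidableEq I] : KMZ I :=
  kmz (fun _ _ _ => Km.st12) fun G _ _ => Km.st3 G

theorem kmG (I : Type) [Fintype I] [DecidableEq I] : KMG I := kmg (kmZ I)

end Crest.Agent.N49.Br
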