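import Crest.Agent.N49.Sd.Cellp

/-!
# Row 49 (helper74): robust witnesses and cells in one fibre
-/

set_option autoImplicit false
set_option linter.unusedSectionVars false

open Matrix Finset

noncomputable section

namespace Crest.Agent.N49.Br

open Po Tw Wt Kg Wt.Ce Wt.Pw

variable {I : Type} [Fintype I] [DecidableEq I]

section defs
variable (M : Matrix I I ℝ) (θ : I → ℝ) (g : (I → ℤ) → ℝ) (lam : ℝ) (E : ℕ)

/-- **the ball** of the frequencies `η` -/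
def Bal {k : ℕ} (η : Fin k → I → ℝ) : Set (I → ℤ) :=
  {x | (∀ a, fr (η a) x ≤ 1 / (2 ^ (8 * E ^ 2) * (Fintype.card I + 2))) ∧
    qf (lam • M) (zc x) ≤ 1 / (2 ^ (17 * E ^ 2) * (Fintype.card I + 2) ^ 3)}

/-- **the cell** -/
def KC {k : ℕ} (η : Fin k → I → ℝ) (γ : ℝ) : Prop := ∃ ρ : (I → ℤ) → ℝ, Pz ρ ∧
  (∀ p, ρ p ≤ 2 ^ (4 * E ^ 5) * gz (cw I • mp M M) θ p) ∧
    ∀ x ∈ Bal M lam E η, γ ≤ ∑' p, ρ p * g (p + x)

/-- the twisted average at the location `P` -/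
def tav (ξ : I → ℝ) {X : Type} (μ : X → ℝ) (v : X → I → ℤ) (P : I → ℤ) : ℂ :=
  ∑' i, (μ i : ℂ) * (g (P + v i) * ee (-(ξ ⬝ᵥ zc (v i))))

/-- **the robust witness**: any weights `μ` carried by short vectors -/
def RW (ξ : I → ℝ) : Prop := ∀ (X : Type) (μ : X → ℝ) (v : X → I → ℤ), (∀ i, 0 ≤ μ i) →
  Summable μ → (∀ i, μ i ≠ 0 →
    qf (lam • M) (zc (v i)) ≤ 1 / (2 ^ (5 * E ^ 5) * (Fintype.card I + 2))) →
  1 / 2 ^ (2 * E ^ 5) * ∑' i, μ i ≤ ∑' P, gd (Sd.cL I • M) θ P * ‖tav g ξ μ v P‖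

/-- the first moment for a wider law -/
def upm : ℝ := ∑' p, gd ((cw I * Sd.cL I) • M) θ p * g p
end defs

variable {M N : Matrix I I ℝ} {θ ξ : I → ℝ} {g : (I → ℤ) → ℝ} {lam b T : ℝ} {E : ℕ}

theorem gs_dif1 (hN : N.PosDef) (T0 : 0 < T) (y v : I → ℝ) :
    gs N (y - v) - gs N y ≤
      Real.exp (Real.pi * ((T + 1) ^ 2 * qf N v)) / T * gs N (y - (T + 1) • v) := by
  have q := qf_nonneg hN v
  set x := Real.pi * (2 * (y ⬝ᵥ N *ᵥ v) - qf N v) with hx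
  have e0 : gs N y = gs N (y - v) * Real.exp (-x) := by
    rw [gs, gs, ← Real.exp_add, qf_sub hN, hx]; congr 1; ring
  have e1 : gs N (y - v) * Real.exp (T * x) =
      Real.exp (Real.pi * ((T ^ 2 + T) * qf N v)) * gs N (y - (T + 1) • v) := by
    rw [gs, gs, ← Real.exp_add, ← Real.exp_add, qf_sub hN, qf_sub hN, qf_smul_right, mulVec_smul,
      dotProduct_smul, smul_eq_mul, hx]
    congr 1; ring
  have p := gs_pos N (y - v)
  have a := Real.add_one_le_exp (-x)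
  have c := Real.add_one_le_exp (T * x)
  have d : Real.exp (Real.pi * ((T ^ 2 + T) * qf N v)) ≤
      Real.exp (Real.pi * ((T + 1) ^ 2 * qf N v)) := by
    gcongr; nlinarith
  rw [div_mul_eq_mul_div, le_div_iff₀ T0, e0]
  refine le_trans ?_ (e1.trans_le (mul_le_mul_of_nonneg_right d (gs_pos _ _).le))
  nlinarith [mul_le_mul_of_nonneg_left a (mul_pos p T0).le, mul_le_mul_of_nonneg_left c p.le]

theorem exp_three {x : ℝ} (h : 4 * x ≤ 1) : Real.exp (Real.pi * x) ≤ 3 :=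
  (Real.exp_le_exp.2 (show _ ≤ (1 : ℝ) by nlinarith [Real.pi_le_four, Real.pi_pos])).trans
    (by linarith [Real.exp_one_lt_d9])

theorem gs_dif (hN : N.PosDef) (T0 : 0 < T) (y : I → ℝ) {v : I → ℝ}
    (h : 4 * ((Fintype.card I + 1) * ((T + 1) ^ 2 * qf N v)) ≤ 1) :
    |gs N y - gs N (y - v)| ≤ 9 / T * gs (cw I • N) y := by
  have q := qf_nonneg hN v
  have n0 : (0 : ℝ) ≤ Fintype.card I := Nat.cast_nonneg _
  have q1 : 0 ≤ (T + 1) ^ 2 * qf N v := by positivity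
  have a : Real.exp (Real.pi * ((T + 1) ^ 2 * qf N v)) ≤ 3 := exp_three (by nlinarith)
  have w : ∀ t : ℝ, t ^ 2 ≤ (T + 1) ^ 2 → gs N (y + t • v) ≤ 3 * gs (cw I • N) y := fun t ht => by
    have := wid hN (m := Fintype.card I + 1) (by positivity) (y + t • v) (t • v)
    rw [add_sub_cancel_right, qf_smul_right, add_assoc, one_add_one_eq_two] at this
    refine this.trans (mul_le_mul_of_nonneg_right (exp_three (le_trans ?_ h)) (gs_pos _ _).le)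
    gcongr
  have k : ∀ t : ℝ, t ^ 2 ≤ (T + 1) ^ 2 → Real.exp (Real.pi * ((T + 1) ^ 2 * qf N v)) / T *
      gs N (y + t • v) ≤ 9 / T * gs (cw I • N) y := fun t ht =>
    (mul_le_mul (div_le_div_of_nonneg_right a T0.le) (w t ht) (gs_pos _ _).le
      (by positivity)).trans_eq (by ring)
  refine abs_sub_le_iff.2 ⟨?_, ?_⟩
  · have := gs_dif1 hN T0 (y - v) (-v)
    rw [sub_neg_eq_add, sub_add_cancel, qf_neg,
      show y - v - (T + 1) • -v = y + T • v by rw [add_smul, one_smul, smul_neg]; abel] at this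
    exact this.trans (k T (by nlinarith))
  · have := gs_dif1 hN T0 y v
    rw [sub_eq_add_neg y (_ • v), ← neg_smul] at this
    exact this.trans (k _ (by rw [neg_sq]))

theorem gz_dif (hN : N.PosDef) (T0 : 0 < T) (w : I → ℤ) {v : I → ℤ}
    (h : 4 * ((Fintype.card I + 1) * ((T + 1) ^ 2 * qf N (zc v))) ≤ 1) :
    |gz N 0 w - gz N 0 (w - v)| ≤ 18 / T * gz (cw I • N) 0 w := by
  have p := th_pos hN 0
  have p' := th_pos (hN.smul (cw_pos (I := I))) 0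
  have a := (th_scale hN cw_pos cw_le 0).trans (mul_le_mul_of_nonneg_right cw_pow p.le)
  simp only [gz, sub_zero]
  rw [← sub_div, abs_div, abs_of_pos p, zc_sub, div_le_iff₀ p]
  refine (gs_dif hN T0 _ h).trans ?_
  have : 0 < gs (cw I • N) (zc w) / th (cw I • N) 0 / T := div_pos (div_pos (gs_pos _ _) p') T0
  calc _ = 9 * (gs (cw I • N) (zc w) / th (cw I • N) 0 / T) * th (cw I • N) 0 := by field_simp
    _ ≤ 9 * (gs (cw I • N) (zc w) / th (cw I • N) 0 / T) * (2 * th N 0) := by gcongr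
    _ = _ := by ring

theorem sm2 {A C : Type} {u : A → ℝ} {w : C → ℝ} (u0 : ∀ a, 0 ≤ u a) (u1 : Summable u)
    (w0 : ∀ a, 0 ≤ w a) (w1 : Summable w) : Summable fun q : A × C => u q.1 * w q.2 :=
  u1.mul_of_nonneg w1 u0 w0

theorem ts_swap {A C R : Type} [NormedAddCommGroup R] [CompleteSpace R] {F : A × C → R}
    (h : Summable F) : ∑' q, F q = ∑' c, ∑' a, F (a, c) := by
  rw [h.tsum_prod]; exact (h.tsum_comm (f := fun a c => F (a, c))).symm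

section tav
variable {X : Type} {μ : X → ℝ} {v : X → I → ℤ} (g0 : ∀ x, 0 ≤ g x) (g1 : ∀ x, g x ≤ b)
  (μ0 : ∀ i, 0 ≤ μ i) (μ1 : Summable μ)
include g0 g1

theorem nrm_ge (x : I → ℤ) (t : ℝ) : ‖(g x : ℂ) * ee t‖ = g x := by
  rw [norm_mul, norm_ee, mul_one, Complex.norm_real, Real.norm_of_nonneg (g0 x)]

theorem nrm_m {Y : Type} {m : Y → ℝ} (m0 : ∀ i, 0 ≤ m i) (i : Y) (x : I → ℤ) (t : ℝ) :
    ‖(m i : ℂ) * (g x * ee t)‖ = m i * g x := by
  rw [norm_mul, nrm_ge g0 g1, Complex.norm_real, Real.norm_of_nonneg (m0 i)]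

include μ0 μ1

theorem sm_tav (x : X → I → ℤ) (t : X → ℝ) : Summable fun i => (μ i : ℂ) * (g (x i) * ee (t i)) :=
  .of_norm_bounded (μ1.mul_right b) fun i => by
    rw [nrm_m g0 g1 μ0]; exact mul_le_mul_of_nonneg_left (g1 _) (μ0 i)

theorem tav_le (P : I → ℤ) : ‖tav g ξ μ v P‖ ≤ (∑' i, μ i) * b :=
  tsum_of_norm_bounded (μ1.hasSum.mul_right b) fun i => by
    rw [nrm_m g0 g1 μ0]; exact mul_le_mul_of_nonneg_left (g1 _) (μ0 i)

theorem tav_pt (hN : N.PosDef) (T0 : 0 < T) (h : ∀ i, μ i ≠ 0 →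
    4 * ((Fintype.card I + 1) * ((T + 1) ^ 2 * qf N (zc (v i)))) ≤ 1) (p : I → ℤ) :
    (∑' i, μ i) * ‖∑' w, (gz N 0 w : ℂ) * (g (p + w) * ee (-(ξ ⬝ᵥ zc w)))‖ ≤
      ∑' w, gz N 0 w * ‖tav g ξ μ v (p + w)‖ +
        (∑' i, μ i) * (18 / T * ∑' w, gz (cw I • N) 0 w * g (p + w)) := by
  have G := pz_gz hN 0
  have G' := pz_gz (hN.smul (cw_pos (I := I))) 0
  set A := ∑' w, (gz N 0 w : ℂ) * (g (p + w) * ee (-(ξ ⬝ᵥ zc w))) with hA
  set D := 18 / T * ∑' w, gz (cw I • N) 0 w * g (p + w) with hD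
  let F : X × (I → ℤ) → ℂ := fun q => ((μ q.1 * gz N 0 q.2 : ℝ) : ℂ) *
    (g (p + q.2 + v q.1) * ee (-(ξ ⬝ᵥ zc q.2) + -(ξ ⬝ᵥ zc (v q.1))))
  have sF : Summable F := sm_tav g0 g1 (μ := fun q : X × (I → ℤ) => μ q.1 * gz N 0 q.2)
    (fun q => mul_nonneg (μ0 q.1) (G.1 q.2)) (sm2 μ0 μ1 G.1 G.2.summable)
    (fun q => p + q.2 + v q.1) fun q => -(ξ ⬝ᵥ zc q.2) + -(ξ ⬝ᵥ zc (v q.1))
  have e1 : ‖∑' q, F q‖ ≤ ∑' w, gz N 0 w * ‖tav g ξ μ v (p + w)‖ := by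
    rw [ts_swap sF]
    refine tsum_of_norm_bounded (sm G.1 G.2.summable (fun _ => norm_nonneg _)
      fun w => tav_le g0 g1 μ0 μ1 (p + w)).hasSum fun w => le_of_eq ?_
    have : ∑' i, F (i, w) = (gz N 0 w : ℂ) * ee (-(ξ ⬝ᵥ zc w)) * tav g ξ μ v (p + w) := by
      rw [tav, ← tsum_mul_left]
      exact tsum_congr fun i => by simp only [F, ee_add]; push_cast; ring
    rw [this, norm_mul, norm_mul, norm_ee, mul_one, Complex.norm_real, Real.norm_of_nonneg (G.1 w)]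
  have e2 : ∀ i, ‖(μ i : ℂ) * A - ∑' w, F (i, w)‖ ≤ μ i * D := fun i => by
    have : ∑' w, F (i, w) =
        μ i * ∑' w, (gz N 0 (w - v i) : ℂ) * (g (p + w) * ee (-(ξ ⬝ᵥ zc w))) := by
      rw [← tsum_mul_left, ← (Equiv.subRight (v i)).tsum_eq]
      refine tsum_congr fun w => ?_
      simp only [F, Equiv.subRight_apply, zc_sub, dotProduct_sub]
      rw [add_assoc, sub_add_cancel, ← neg_add, sub_add_cancel]; push_cast; ring
    rw [this, ← mul_sub, norm_mul, Complex.norm_real, Real.norm_of_nonneg (μ0 i)]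
    by_cases z : μ i = 0
    · rw [z, zero_mul, zero_mul]
    refine mul_le_mul_of_nonneg_left ?_ (μ0 i)
    rw [hA, ← (sm_tav g0 g1 G.1 G.2.summable _ _).tsum_sub (sm_tav g0 g1
      (μ := fun w => gz N 0 (w - v i)) (fun _ => G.1 _)
      ((Equiv.subRight (v i)).summable_iff.2 G.2.summable) (fun w => p + w) fun w => -(ξ ⬝ᵥ zc w))]
    refine tsum_of_norm_bounded ((sm G'.1 G'.2.summable (fun _ => g0 _)
      fun w => g1 (p + w)).hasSum.mul_left (18 / T)) fun w => ?_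
    rw [← sub_mul, norm_mul, nrm_ge g0 g1, ← mul_assoc, ← Complex.ofReal_sub, Complex.norm_real]
    exact mul_le_mul_of_nonneg_right (gz_dif hN T0 w (h i z)) (g0 _)
  have s1 : HasSum (fun i => (μ i : ℂ) * A) (((∑' i, μ i : ℝ) : ℂ) * A) :=
    (Complex.hasSum_ofReal.2 μ1.hasSum).mul_right A
  have s2 : HasSum (fun i => ∑' w, F (i, w)) (∑' q, F q) :=
    sF.hasSum.prod_fiberwise fun i => (sF.prod_factor i).hasSum
  have e3 := (s1.sub s2).norm_le_of_bounded (μ1.hasSum.mul_right D) e2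
  have := norm_sub_norm_le (((∑' i, μ i : ℝ) : ℂ) * A) (∑' q, F q)
  rw [norm_mul, Complex.norm_real, Real.norm_of_nonneg (tsum_nonneg μ0)] at this
  linarith

theorem tav_core {m : (I → ℤ) → ℝ} (hm : Pz m) (hN : N.PosDef) (T0 : 0 < T) (h : ∀ i, μ i ≠ 0 →
    4 * ((Fintype.card I + 1) * ((T + 1) ^ 2 * qf N (zc (v i)))) ≤ 1) {S : Set (I → ℤ)}
    {δ δ' : ℝ} (δ0 : 0 < δ) (hS : δ' ≤ ∑' p, S.indicator m p)
    (hw : ∀ p ∈ S, δ ≤ ‖∑' w, (gz N 0 w : ℂ) * (g (p + w) * ee (-(ξ ⬝ᵥ zc w)))‖)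
    (hΛ : 36 * ∑' p, m p * ∑' w, gz (cw I • N) 0 w * g (p + w) ≤ T * (δ * δ'))
    {c : (I → ℤ) → ℝ} (c1 : Summable c) (hc : ∀ y, ∑' p, m p * gz N 0 (y - p) ≤ c y) :
    δ * δ' / 2 * ∑' i, μ i ≤ ∑' P, c P * ‖tav g ξ μ v P‖ := by
  have G := pz_gz hN 0
  have G' := pz_gz (hN.smul (cw_pos (I := I))) 0
  have k0 : ∀ y, 0 ≤ ∑' p, m p * gz N 0 (y - p) := fun y =>
    tsum_nonneg fun p => mul_nonneg (hm.1 p) (G.1 _)
  have B0 : ∀ y, 0 ≤ ‖tav g ξ μ v y‖ ∧ ‖tav g ξ μ v y‖ ≤ (∑' i, μ i) * b := fun y =>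
    ⟨norm_nonneg _, tav_le g0 g1 μ0 μ1 y⟩
  have t0 : 0 ≤ ∑' i, μ i := tsum_nonneg μ0
  set t := ∑' i, μ i
  have av : ∀ {σ F : (I → ℤ) → ℝ} {C : ℝ}, Pz σ → (∀ y, 0 ≤ F y) → (∀ y, F y ≤ C) →
      Summable fun p => m p * ∑' w, σ w * F (p + w) := fun {σ F C} s a a' =>
    sm hm.1 hm.2.summable (B := C) (fun p => (Ce.av s.1 s.2 (fun _ => a _) fun _ => a' _).1)
      fun p => (Ce.av s.1 s.2 (fun _ => a _) fun _ => a' _).2
  have a := hasSum_le (fun p => ?_) ((hm.2.summable.indicator S).hasSum.mul_left (t * δ))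
    ((av G (fun y => (B0 y).1) fun y => (B0 y).2).hasSum.add
      ((av G' g0 g1).hasSum.mul_left (t * (18 / T))))
  · have x := Pw.mix hm G (fun y => (B0 y).1) fun y => (B0 y).2
    refine le_trans ?_ (hasSum_le (fun y => mul_le_mul_of_nonneg_right (hc y) (B0 y).1) x
      (sm (fun y => (k0 y).trans (hc y)) c1 (fun y => (B0 y).1) fun y => (B0 y).2).hasSum)
    have : 18 / T * ∑' p, m p * ∑' w, gz (cw I • N) 0 w * g (p + w) ≤ δ * δ' / 2 := by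
      rw [div_mul_eq_mul_div, div_le_iff₀ T0]; linarith
    nlinarith [mul_le_mul_of_nonneg_left this t0,
      mul_le_mul_of_nonneg_left hS (mul_nonneg t0 δ0.le)]
  · have z := mul_le_mul_of_nonneg_left (tav_pt (ξ := ξ) g0 g1 μ0 μ1 hN T0 h p) (hm.1 p)
    refine le_trans ?_ (z.trans_eq (by ring))
    by_cases e : p ∈ S
    · rw [Set.indicator_of_mem e, mul_comm]
      exact mul_le_mul_of_nonneg_left (mul_le_mul_of_nonneg_left (hw p e) t0) (hm.1 p)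
    · rw [Set.indicator_of_notMem e, mul_zero]
      exact mul_nonneg (hm.1 p) (mul_nonneg t0 (norm_nonneg _))

omit g0 g1 μ0 μ1 in
theorem hs_nsq {f : X → ℂ} (s : Summable f) :
    HasSum (fun q : X × X => (f q.1 * (starRingEnd ℂ) (f q.2)).re) (‖∑' i, f i‖ ^ 2) := by
  have s' : HasSum (fun i => (starRingEnd ℂ) (f i)) ((starRingEnd ℂ) (∑' i, f i)) :=
    (RCLike.hasSum_conj' ℂ).2 s.hasSum
  have u := Complex.hasSum_re (HasSum.mul (f := f) (g := fun i => (starRingEnd ℂ) (f i)) s.hasSum s'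
    (summable_mul_of_summable_norm (f := f) (g := fun i => (starRingEnd ℂ) (f i)) s.norm
      s'.summable.norm))
  rwa [Complex.mul_conj, Complex.ofReal_re, Complex.normSq_eq_norm_sq] at u

omit g0 g1 μ0 μ1 in
theorem re_pair (a a' x x' t t' : ℝ) : ((a : ℂ) * (x * ee (-t)) *
    (starRingEnd ℂ) (a' * (x' * ee (-t')))).re = a * a' * ((ee (t' - t)).re * (x * x')) := by
  have k : ee (-t) * (starRingEnd ℂ) (ee (-t')) = ee (t' - t) := by
    rw [ee, ee, ee, ← Complex.exp_conj, ← Complex.exp_add]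
    congr 1
    simp only [map_mul, Complex.conj_ofReal, Complex.conj_I, map_ofNat]
    push_cast; ring
  simp only [map_mul, Complex.conj_ofReal]
  rw [← k, show ∀ a b c d e f : ℂ, a * (b * c) * (d * (e * f)) = a * d * (b * e) * (c * f) from
    fun _ _ _ _ _ _ => by ring, ← Complex.ofReal_mul, ← Complex.ofReal_mul, ← Complex.ofReal_mul,
    Complex.re_ofReal_mul]
  ring

theorem tav_sq (P : I → ℤ) : HasSum (fun q : X × X => μ q.1 * μ q.2 *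
    ((ee (ξ ⬝ᵥ zc (v q.2 - v q.1))).re * (g (P + v q.1) * g (P + v q.2))))
      (‖tav g ξ μ v P‖ ^ 2) :=
  Lf.hcg (hs_nsq (sm_tav g0 g1 μ0 μ1 (fun i => P + v i) fun i => -(ξ ⬝ᵥ zc (v i)))) fun q => by
    rw [re_pair, zc_sub, dotProduct_sub]

/-- the expanded form -/
theorem tav_exp {c : (I → ℤ) → ℝ} (c0 : ∀ y, 0 ≤ c y) (c1 : Summable c) :
    HasSum (fun q : X × X => μ q.1 * μ q.2 * ((ee (ξ ⬝ᵥ zc (v q.2 - v q.1))).re *
      ∑' P, c P * (g (P + v q.1) * g (P + v q.2)))) (∑' P, c P * ‖tav g ξ μ v P‖ ^ 2) := by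
  have b0 := (g0 0).trans (g1 0)
  have μ2 := sm2 μ0 μ1 μ0 μ1
  have μ3 : ∀ q : X × X, 0 ≤ μ q.1 * μ q.2 := fun q => mul_nonneg (μ0 q.1) (μ0 q.2)
  obtain ⟨F, hF⟩ : ∃ F : (X × X) × (I → ℤ) → ℝ, ∀ q P, F (q, P) = c P * (μ q.1 * μ q.2 *
      ((ee (ξ ⬝ᵥ zc (v q.2 - v q.1))).re * (g (P + v q.1) * g (P + v q.2)))) :=
    ⟨fun q => c q.2 * (μ q.1.1 * μ q.1.2 * ((ee (ξ ⬝ᵥ zc (v q.1.2 - v q.1.1))).re *
      (g (q.2 + v q.1.1) * g (q.2 + v q.1.2)))), fun _ _ => rfl⟩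
  have sF : Summable F := by
    refine .of_norm_bounded ((sm2 μ3 μ2 c0 c1).mul_right (1 * (b * b))) fun ⟨q, P⟩ => ?_
    rw [hF, ← mul_assoc, mul_comm (c P), norm_mul, Real.norm_of_nonneg (mul_nonneg (μ3 q) (c0 P)),
      norm_mul, Real.norm_of_nonneg (mul_nonneg (g0 _) (g0 _))]
    exact mul_le_mul_of_nonneg_left (mul_le_mul ((Complex.abs_re_le_norm _).trans_eq (norm_ee _))
      (mul_le_mul (g1 _) (g1 _) (g0 _) b0) (mul_nonneg (g0 _) (g0 _)) zero_le_one)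
      (mul_nonneg (μ3 q) (c0 P))
  have e : ∀ P, ∑' q, F (q, P) = c P * ‖tav g ξ μ v P‖ ^ 2 := fun P =>
    (Lf.hcg ((tav_sq g0 g1 μ0 μ1 P).mul_left (c P)) fun q => hF q P).tsum_eq
  have := sF.hasSum.prod_fiberwise fun q => (sF.prod_factor q).hasSum
  rw [ts_swap sF, tsum_congr e] at this
  refine Lf.hcg this fun q => ?_
  rw [← tsum_mul_left, ← tsum_mul_left]
  exact tsum_congr fun P => by rw [hF]; ring
end tav

/-- from the first to the second moment -/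
theorem l1_l2 {X : Type} {c F : X → ℝ} {s x : ℝ} (c0 : ∀ a, 0 ≤ c a) (c1 : HasSum c s) (hs : s ≤ 2)
    (F0 : ∀ a, 0 ≤ F a) (F1 : ∀ a, F a ≤ b) (x0 : 0 ≤ x) (h : x ≤ ∑' a, c a * F a) :
    x ^ 2 / 2 ≤ ∑' a, c a * F a ^ 2 := by
  have := hasSum_le (fun a => ?_) ((sm c0 c1.summable F0 F1).hasSum.mul_left x)
    ((c1.mul_right (x ^ 2 / 4)).add (sm c0 c1.summable (fun _ => sq_nonneg _)
      fun a => pow_le_pow_left₀ (F0 a) (F1 a) 2).hasSum)
  · nlinarith [mul_le_mul_of_nonneg_left h x0, mul_le_mul_of_nonneg_right hs (sq_nonneg x)]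
  · nlinarith [mul_nonneg (c0 a) (sq_nonneg (x / 2 - F a))]

end Crest.Agent.N49.Br

end
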