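import Crest.Agent.N49.Br.Ps
import Crest.Agent.N49.Lo.Push

/-!
# Row 49 (helper88): the relative Kelley–Meka step on `ℤ^I`
-/

set_option autoImplicit false
set_option linter.unusedSectionVars false

open Finset Filter Topology Matrix

noncomputable section

namespace Crest.Agent.N49.Br

open L Po

variable {I : Type} [Fintype I] [DecidableEq I] {μ β f : (I → ℤ) → ℝ}

theorem Pz.pi (h : Pz μ) (k : ℕ) : HasSum (fun a : Fin k → I → ℤ => ∏ i, μ (a i)) 1 := by
  simpa using hs_pi (k := k) (f := fun _ => μ) (fun _ => h.1) fun _ => h.2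

theorem Pz.grid (h : Pz μ) (h' : Pz β) (k l : ℕ) :
    Summable fun p : (Fin k → I → ℤ) × (Fin l → I → ℤ) => (∏ i, μ (p.1 i)) * ∏ j, β (p.2 j) :=
  summable_mul_of_summable_norm (f := fun a : Fin k → I → ℤ => ∏ i, μ (a i))
    (g := fun a : Fin l → I → ℤ => ∏ i, β (a i)) (h.pi k).summable.norm (h'.pi l).summable.norm

theorem abs_grid {k l : ℕ} {F : Fin k → Fin l → ℝ} {C : ℝ} (h : ∀ i j, |F i j| ≤ C) :
    |∏ i, ∏ j, F i j| ≤ ∏ _i : Fin k, ∏ _j : Fin l, C := by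
  simp only [abs_prod]
  exact prod_le_prod (fun _ _ => prod_nonneg fun _ _ => abs_nonneg _) fun i _ =>
    prod_le_prod (fun _ _ => abs_nonneg _) fun j _ => h i j

theorem GC_ps {G : Type*} [AddCommGroup G] [Fintype G] (π : (I → ℤ) →+ G) (h : Pz μ) (h' : Pz β)
    {F : G → ℝ} {C : ℝ} (hF : ∀ y, |F y| ≤ C) (k l : ℕ) :
    Km.GC (ps π μ) (ps π β) (fun a b => F (a + b)) k l = GCz μ β (fun a => F (π a)) k l := by
  unfold Km.GC GCz
  rw [ip_ps h.1 h.2.summable, ip_ps h'.1 h'.2.summable, Ex_ps (h.pi k).summable,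
    (sm_bd (h.grid h' k l) fun p => abs_grid fun i j => hF _).tsum_prod]
  congr 1; funext a
  rw [Ex_ps (h'.pi l).summable, ← tsum_mul_left]
  congr 1; funext b
  simp only [map_add, mul_assoc]

/-- the section of the reduction -/
def sec (N : ℕ) (y : I → ZMod (N + 1)) : I → ℤ := fun i => (y i).valMinAbs

theorem ev_sec (x : I → ℤ) : ∀ᶠ N in atTop, sec N (Lo.pz I (N + 1) x) = x := by
  have : ∀ i, ∀ᶠ N : ℕ in atTop, ((x i : ZMod (N + 1))).valMinAbs = x i := fun i => by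
    filter_upwards [eventually_ge_atTop (2 * (x i).natAbs)] with N hN
    rw [ZMod.valMinAbs_spec]
    refine ⟨rfl, ?_, ?_⟩ <;> push_cast <;> omega
  filter_upwards [eventually_all.2 this] with N hN using funext hN

theorem lim_sec {A : Type*} {w : A → ℝ} (hw : Summable w) {F : ℕ → A → ℝ} {F0 : A → ℝ} {C : ℝ}
    (hC : ∀ N a, |F N a| ≤ C) (h : ∀ a, ∀ᶠ N in atTop, F N a = F0 a) :
    Tendsto (fun N => ∑' a, w a * F N a) atTop (𝓝 (∑' a, w a * F0 a)) :=
  tendsto_tsum_of_dominated_convergence (bound := fun a => |w a| * C) (hw.abs.mul_right C)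
    (fun a => tendsto_const_nhds.congr' ((h a).mono fun N e => by simp only [e]))
    (.of_forall fun N a => by
      rw [Real.norm_eq_abs, abs_mul]; exact mul_le_mul_of_nonneg_left (hC N a) (abs_nonneg _))

theorem lim_GC (h : Pz μ) (h' : Pz β) {C : ℝ} (hf : ∀ x, |f x| ≤ C) (k l : ℕ) :
    Tendsto (fun N => Km.GC (ps (Lo.pz I (N + 1)) μ) (ps (Lo.pz I (N + 1)) β)
      (fun a b => f (sec N (a + b))) k l) atTop (𝓝 (GCz μ β f k l)) := by
  simp only [fun N => GC_ps (Lo.pz I (N + 1)) h h' (F := fun y => f (sec N y)) (fun _ => hf _) k l]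
  refine lim_sec (h.grid h' k l) (fun N p => abs_grid fun i j => hf _) fun p => ?_
  filter_upwards [eventually_all.2 fun i => eventually_all.2 fun j => ev_sec (p.1 i + p.2 j)]
    with N hN
  simp only [hN]

theorem ev_LF (h : Pz μ) (h' : Pz β) {B τ τ' : ℝ} {n : ℕ} (f0 : ∀ x, 0 ≤ f x) (fB : ∀ x, f x ≤ B)
    (hL : LFz μ β f n τ) (hτ : τ < τ') : ∀ᶠ N in atTop, Km.LF (ps (Lo.pz I (N + 1)) μ)
      (ps (Lo.pz I (N + 1)) β) (Km.ak fun y => f (sec N y)) n τ' := by
  have a : ∀ k ∈ Set.Iic n, ∀ l ∈ Set.Iic n, ∀ᶠ N in atTop, Km.GC (ps (Lo.pz I (N + 1)) μ)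
      (ps (Lo.pz I (N + 1)) β) (fun a b => f (sec N (a + b))) k l < 2 := fun k hk l hl =>
    (lim_GC h h' (fun x => abs_le.2 ⟨by linarith [f0 x, fB x], fB x⟩) k l).eventually_lt_const
      ((hL.1 k hk l hl).trans_lt (by norm_num))
  have b := (lim_GC h h' (f := fun x => f x - 1) (C := B + 1)
    (fun x => abs_le.2 ⟨by linarith [f0 x, fB x], by linarith [fB x]⟩) 2 2).eventually_lt_const
      (hL.2.trans_lt hτ)
  filter_upwards [(eventually_all_finite (Set.finite_Iic n)).2 fun k hk =>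
    (eventually_all_finite (Set.finite_Iic n)).2 (a k hk), b] with N h1 h2
  rw [Km.GC_two] at h2
  exact ⟨fun k hk l hl => (h1 k hk l hl).le, h2.le⟩

/-- **the relative Kelley–Meka step on a lattice** -/
theorem kmz (h12 : ∀ (G : Type) [AddCommGroup G] [Fintype G], Km.ST12 G)
    (h3 : ∀ (G : Type) [AddCommGroup G] [Fintype G], Km.ST3 G) : KMZ I := by
  intro my mb ma mv mt sg g ν P j Q γ B W hj hQ hP hy hb ha hv ht hs dy dt g0 hg ν0 νB γ1 γ2 hγ l1 l2
    t1 t2 t3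
  obtain ⟨E, hE⟩ : ∃ E, E = P ^ 68 := ⟨_, rfl⟩
  have γ0 : 0 < γ := lt_of_lt_of_le (by positivity) γ1
  have gB : ∀ x, |g x| ≤ 2 ^ P * B := fun x => by
    rw [abs_of_nonneg (g0 x)]
    exact (hg x).trans (mul_le_mul_of_nonneg_left (νB x) (by positivity))
  have τ : (1 : ℝ) / 2 ^ (P ^ 68 + 1) < 1 / 2 ^ P ^ 68 :=
    one_div_lt_one_div_of_lt (by positivity) (pow_lt_pow_right₀ one_lt_two (Nat.lt_succ_self _))
  set lam : (I → ℤ) → ℝ := fun p => ∑' t, mt t * ma (p - t) with hlam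
  have pl : Pz lam := ⟨fun p => tsum_nonneg fun t => mul_nonneg (ht.1 t) (ha.1 _), by
    simpa [hlam, sub_eq_add_neg] using hs_cv ht.2 ha.2 fun v => -v⟩
  have er : ∀ w ∈ W, ∀ᶠ N in atTop, ∑' p, lam p * |g (sec N (Lo.pz I (N + 1) (p + w))) - g (p + w)|
      < γ / 2 ^ j / 2 ^ (E + 2) := fun w _ => by
    refine (lim_sec pl.2.summable (F0 := fun _ => 0) (C := 2 ^ P * B + 2 ^ P * B)
      (fun N p => ?_) fun p => (ev_sec (p + w)).mono fun N e => ?_).eventually_lt_const ?_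
    · rw [abs_abs]; exact (abs_sub _ _).trans (add_le_add (gB _) (gB _))
    · rw [e, sub_self, abs_zero]
    · simp only [mul_zero, tsum_zero]; positivity
  obtain ⟨N, ⟨⟨n1, n2⟩, n3⟩, n4⟩ := ((((ev_LF hy hb ν0 νB l1 τ).and (ev_LF ha ht ν0 νB l2 τ)).and
    ((lim_GC hy hb gB Q Q).eventually_const_lt hγ)).and ((eventually_all_finset W).2 er)).exists
  set π := Lo.pz I (N + 1) with hπ
  have dt' : ∀ v t, ps π mv v ≠ 0 → ps π mb (t + v) ≤ 4 * ps π mt t := fun v t e => by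
    obtain ⟨u, rfl, hu⟩ := ps_ne e
    rw [ps_sh, ← ps_mul]
    exact ps_mono (sm_sh hb.2.summable u) (ht.2.summable.mul_left _) (fun a => dt u a hu) t
  obtain ⟨Λ, ρ, hΛ, pρ, ρd, hw⟩ := Km.km_of (h12 _) (h3 _) (g := fun y => g (sec N y))
    (pr_ps (π := π) hy.1 hy.2) (pr_ps (π := π) hb.1 hb.2) (pr_ps (π := π) ha.1 ha.2)
    (pr_ps (π := π) hv.1 hv.2) (pr_ps (π := π) ht.1 ht.2) (pr_ps (π := π) hs.1 hs.2)
    (fun y => by
      rw [Ex_cv π hv.2.summable ha.2.summable, ← ps_mul]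
      exact ps_mono hy.2.summable ((hs_cv hv.2 ha.2 fun v => v).summable.mul_left _) dy y)
    dt' (fun _ => ν0 _) (fun _ => g0 _) (fun _ => hg _) hj hQ hP γ1 γ2 n3.le n1 n2
    ((Ex_tv π hs.1 hs.2.summable hv.1 hv.2).trans t1)
    ((Ex_tv π hs.1 hs.2.summable ha.1 ha.2).trans t2)
    ((Ex_tv π hv.1 hv.2.summable ha.1 ha.2).trans t3)
  rw [← hE] at *
  have cv : ∀ y, Km.cv (ps π ma) (ps π mv) (ps π mb) y ≤ 4 * ps π lam y := fun y => by
    rw [← (pr_ps (π := π) hv.1 hv.2).const (4 * ps π lam y)]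
    refine sum_le_sum fun v _ => ?_
    by_cases e : ps π mv v = 0
    · rw [e, zero_mul, zero_mul]
    refine mul_le_mul_of_nonneg_left ?_ (ps_nonneg hv.1 v)
    rw [hlam, ← Ex_cv' π ht.2.summable ha.2.summable]
    unfold Ex
    beta_reduce
    rw [mul_sum, ← Lo.sum_shift v fun x => ps π mb x * ps π ma (y + v - x)]
    refine sum_le_sum fun t _ => ?_
    rw [show y + v - (t + v) = y - t by abel, ← mul_assoc]
    exact mul_le_mul_of_nonneg_right (dt' v t e) (ps_nonneg ha.1 _)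
  have ρl : ∀ y, ρ y ≤ 2 ^ (E + 2) * ps π lam y := fun y =>
    (ρd y).trans ((mul_le_mul_of_nonneg_left (cv y) (by positivity)).trans_eq (by ring))
  have ρ0 : ∀ y, ps π lam y = 0 → ρ y = 0 := fun y e =>
    le_antisymm (by simpa [e] using ρl y) (pρ.nn y)
  have hp := hs_pull (π := π) pl.2.summable ρ0
  have r0 : ∀ p, 0 ≤ ρ (π p) / ps π lam (π p) * lam p := fun p =>
    mul_nonneg (div_nonneg (pρ.nn _) (ps_nonneg pl.1 _)) (pl.1 p)
  have r1 : ∀ p, ρ (π p) / ps π lam (π p) * lam p ≤ 2 ^ (E + 2) * lam p := fun p =>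
    mul_le_mul_of_nonneg_right (div_le_of_le_mul₀ (ps_nonneg pl.1 _) (by positivity) (ρl _)) (pl.1 p)
  have r2 : HasSum (fun p => ρ (π p) / ps π lam (π p) * lam p) 1 := by
    simpa [pρ.const] using hp fun _ => 1
  choose xi hxi using Lo.exists_xi π
  obtain ⟨e⟩ : Nonempty (Λ ↪ Fin E) := Function.Embedding.nonempty_of_card_le (by simpa using hΛ)
  refine ⟨Function.extend e (fun ψ => xi ψ) 0, _, ⟨r0, r2⟩, r1, fun w w0 w1 w2 w3 => ?_⟩
  have k := hw (π w) (by
      have : ∀ ψ ∈ Λ, ‖ψ (π w) - 1‖ ≤ 8 * (1 / 2 ^ (2 * E + 3)) := fun ψ hψ => by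
        have := w1 (e ⟨ψ, hψ⟩)
        rw [e.injective.extend_apply] at this
        exact (hxi ψ w).trans (mul_le_mul_of_nonneg_left this (by norm_num))
      refine (sum_le_card_nsmul _ _ _ this).trans ?_
      have c : (#Λ : ℝ) ≤ 2 ^ E := by exact_mod_cast hΛ.trans (Nat.lt_two_pow_self).le
      rw [nsmul_eq_mul]
      refine (mul_le_mul_of_nonneg_right c (by positivity)).trans_eq ?_
      rw [pow_add, two_mul, pow_add]; field_simp; norm_num)
    ((tv_ps π hs.2.summable w).trans w2) ((tv_ps π ha.2.summable w).trans w3)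
  have s1 := hp fun y => g (sec N (y + π w))
  simp only [← map_add] at s1
  have s2 := sm_bd r2.summable (F := fun p => g (p + w)) fun p => gB _
  have s3 := sm_bd pl.2.summable (F := fun p => |g (sec N (π (p + w))) - g (p + w)|)
    (C := 2 ^ P * B + 2 ^ P * B) fun p => by
      rw [abs_abs]; exact (abs_sub _ _).trans (add_le_add (gB _) (gB _))
  have s4 := hasSum_le (fun p => show _ ≤ _ from by
      have a := mul_le_mul_of_nonneg_left (le_abs_self (g (sec N (π (p + w))) - g (p + w))) (r0 p)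
      have b := mul_le_mul_of_nonneg_right (r1 p) (abs_nonneg (g (sec N (π (p + w))) - g (p + w)))
      linarith [mul_assoc (2 ^ (E + 2)) (lam p) |g (sec N (π (p + w))) - g (p + w)|])
    s1 (s2.hasSum.add (s3.hasSum.mul_left (2 ^ (E + 2))))
  have s5 := (lt_div_iff₀' (by positivity)).1 (n4 w w0)
  have : (1 - 12 / 2 ^ j) * γ = (1 - 11 / 2 ^ j) * γ - γ / 2 ^ j := by ring
  linarith

end Crest.Agent.N49.Br

end
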