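import Crest.Agent.N49.Br.Koz

/-!
# Row 49 (helper74): the Kelley–Meka output without trivial witnesses
-/

set_option autoImplicit false
set_option linter.unusedSectionVars false

open Matrix Finset

noncomputable section

namespace Crest.Agent.N49.Br

open Po Tw Wt Kg Wt.Ce

variable {I : Type} [Fintype I] [DecidableEq I] {M N : Matrix I I ℝ} {θ ξ : I → ℝ}
  {g : (I → ℤ) → ℝ} {lam b : ℝ} {E : ℕ}

/-- trivially witnessed frequencies are small on short vectors -/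
theorem triv_fr (hN : N.PosDef) (hE : 2 ≤ E)
    (h : 1 / 2 ^ (6 * E ^ 2) ≤ ‖∑' w, (gz N 0 w : ℂ) * ee (-(ξ ⬝ᵥ zc w))‖) {x : I → ℤ}
    (hx : qf N (zc x) ≤ 1 / (2 ^ (17 * E ^ 2) * (Fintype.card I + 2) ^ 3)) :
    fr ξ x ≤ 1 / (2 ^ (8 * E ^ 2) * (Fintype.card I + 2)) := by
  have p := th_pos hN 0
  have e : ∑' w, (gz N 0 w : ℂ) * ee (-(ξ ⬝ᵥ zc w)) = thc N 0 (-ξ) / (th N 0 : ℝ) := by
    rw [thc, ← tsum_div_const]
    exact tsum_congr fun w => by rw [gz, neg_dotProduct]; push_cast; ring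
  rw [e, norm_div, Complex.norm_real, Real.norm_of_nonneg p.le, le_div_iff₀ p] at h
  obtain ⟨m, hm⟩ := exists_dual hN (R := Fintype.card I + (6 * E ^ 2 + 1 : ℕ))
    (lt_of_lt_of_le (mul_lt_mul_of_pos_right ((bz2 _ le_rfl).trans_lt
      (one_div_lt_one_div_of_lt (by positivity) (pow_lt_pow_right₀ one_lt_two (by omega)))) p) h)
  have a := dual_sq_le hN (zc x) (zc m - -ξ)
  have n0 : (0 : ℝ) ≤ Fintype.card I := Nat.cast_nonneg _
  have r : (Fintype.card I + (6 * E ^ 2 + 1 : ℕ) : ℝ) ≤ (Fintype.card I + 2) * 2 ^ E ^ 2 := by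
    have k : 6 * E ^ 2 + 1 ≤ 2 * 2 ^ E ^ 2 := by
      obtain ⟨t, ht⟩ := Nat.exists_eq_add_of_le (Nat.pow_le_pow_left hE 2)
      have := Nat.lt_two_pow_self (n := t)
      rw [ht, pow_add]; omega
    have k' : ((6 * E ^ 2 + 1 : ℕ) : ℝ) ≤ 2 * 2 ^ E ^ 2 := by exact_mod_cast k
    nlinarith [one_le_pow₀ (n := E ^ 2) (one_le_two (α := ℝ))]
  refine (round_le _ (-(m ⬝ᵥ x))).trans (abs_le_of_sq_le_sq ?_ (by positivity))
  have c : ξ ⬝ᵥ zc x - ((-(m ⬝ᵥ x) : ℤ) : ℝ) = (zc m - -ξ) ⬝ᵥ zc x := by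
    simp only [sub_neg_eq_add, Int.cast_neg, dotProduct, Int.cast_sum, Int.cast_mul,
      zc, Pi.add_apply, add_mul, sum_add_distrib]
    ring
  rw [c]
  refine a.trans ((mul_le_mul (hm.le.trans r) hx (qf_nonneg hN _) (by positivity)).trans_eq ?_)
  rw [show 17 * E ^ 2 = E ^ 2 + 8 * E ^ 2 * 2 by ring, pow_add, pow_mul]
  field_simp

theorem gd_nonneg (hM : M.PosDef) (θ : I → ℝ) (p : I → ℤ) : 0 ≤ gd M θ p := (Lf.ms_gd hM θ).1 p

theorem dt_wid (hM : M.PosDef) {c c' : ℝ} (c0 : 0 < c) (h : cw I * c ≤ c') :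
    dt (c' • M) ≤ 2 * dt (c • M) := by
  have w := cw_pos (I := I)
  have d := dt_pos hM
  rw [dt_smul c0.le, dt_smul (by nlinarith), ← mul_assoc]
  refine mul_le_mul_of_nonneg_right (le_trans ?_
    (mul_le_mul_of_nonneg_right (cw_pow (I := I)) (by positivity))) d.le
  rw [← mul_pow, ← mul_inv, ← Real.sqrt_mul w.le]
  gcongr

theorem gd_wid (hM : M.PosDef) (θ : I → ℝ) (p : I → ℤ) : gd M θ p ≤ 2 * gd (cw I • M) θ p := by
  have a := dt_wid hM one_pos (mul_one _).le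
  have k : gs M (zc p - θ) ≤ gs (cw I • M) (zc p - θ) := by
    rw [gs, gs, qf_smul]
    gcongr
    exact mul_le_of_le_one_left (qf_nonneg hM _) cw_le
  rw [one_smul] at a
  rw [gd, gd, ← mul_div_assoc, div_le_div_iff₀ (dt_pos hM) (dt_pos (hM.smul cw_pos))]
  exact (mul_le_mul k a (dt_pos (hM.smul cw_pos)).le (gs_pos _ _).le).trans_eq (by ring)

theorem cv27 (hM : M.PosDef) (sm : th ((2 : ℝ) • lam • M)⁻¹ 0 ≤ 11 / 10) {t : ℝ}
    (t1 : Fintype.card I + 1 ≤ t) (t2 : t ≤ lam) (θ : I → ℝ) (y : I → ℤ) :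
    ∑' p, gz (mp M M) θ p * gz (t • M) 0 (y - p) ≤ 27 * gd (Sd.cL I • M) θ y := by
  have n0 : (0 : ℝ) ≤ Fintype.card I := Nat.cast_nonneg _
  have w := cw_pos (I := I)
  have c0 : 0 < (1 + (cw I)⁻¹)⁻¹ := by positivity
  have c1 : (1 + (cw I)⁻¹)⁻¹ ≤ 1 := inv_le_one_of_one_le₀ (le_add_of_nonneg_right (by positivity))
  have hp : (mp M M).PosDef := mp_self hM ▸ hM.smul c0
  have ht := hM.smul (show 0 < t by linarith)
  have l0 : 0 < lam := by linarith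
  have hN := (hM.smul l0).smul (two_pos (α := ℝ))
  have q : ∀ x, qf (mp M M) x ≤ qf M x := fun x => by
    rw [mp_self hM, qf_smul]; exact mul_le_of_le_one_left (qf_nonneg hM x) c1
  have a := conv_le ht hp hN (fun x => by
    rw [qf_add_left, qf_smul, qf_smul, qf_smul]; nlinarith [q x, qf_nonneg hM x]) sm 0 θ y
  have c := Pw.cmp ht hp (fun x => by rw [qf_smul]; nlinarith [q x, qf_nonneg hM x])
    (sm_anti hp hN (fun x => by rw [qf_smul, qf_smul]; nlinarith [q x, qf_nonneg hM x]) sm) θ y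
  rw [zero_add] at a
  linarith [Sd.gz_le_gd hM (by linarith) sm θ y, gd_nonneg (hM.smul (Sd.cL_pos I)) θ y]

/-- **the robust witness** -/
theorem rw_of (hM : M.PosDef) (sm : th ((2 : ℝ) • lam • M)⁻¹ 0 ≤ 11 / 10) (hE : 3 ≤ E)
    (hl : Fintype.card I + 2 ≤ lam) (g0 : ∀ x, 0 ≤ g x) (g1 : ∀ x, g x ≤ b)
    (hu : upm M θ g ≤ 2 ^ E) {S : Set (I → ℤ)}
    (hS : 1 / 2 ^ E ^ 5 ≤ ∑' p, S.indicator (gz (mp M M) θ) p) (hw : ∀ p ∈ S, 1 / 2 ^ (6 * E ^ 2) ≤
      ‖∑' w, (gz (lam • M) 0 w : ℂ) * (g (p + w) * ee (-(ξ ⬝ᵥ zc w)))‖) : RW M θ g lam E ξ := by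
  intro X μ v μ0 μ1 h
  have n0 : (0 : ℝ) ≤ Fintype.card I := Nat.cast_nonneg _
  have w := cw_pos (I := I)
  have hp : (mp M M).PosDef := mp_self hM ▸ hM.smul (by positivity)
  have hL := hM.smul (Sd.cL_pos I)
  have hN := hM.smul (show 0 < lam by linarith)
  have e5 : 11 + E + 6 * E ^ 2 ≤ E ^ 5 := by
    have := Nat.pow_le_pow_left hE 3
    have := Nat.le_self_pow two_ne_zero E
    rw [show E ^ 5 = E ^ 3 * E ^ 2 by ring]; nlinarith
  have k := tav_core (ξ := ξ) (v := v) g0 g1 μ0 μ1 (pz_gz hp θ) hN (T := 2 ^ (2 * E ^ 5)) (by positivity)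
    (fun i z => ?_) (by positivity) hS hw ?_ ((Lf.ms_gd hL θ).2.summable.mul_left 27)
    (cv27 hM sm (by linarith) le_rfl θ)
  · simp only [mul_assoc (27 : ℝ), tsum_mul_left] at k
    have : (27 : ℝ) * (1 / 2 ^ (2 * E ^ 5)) ≤ 1 / 2 ^ (6 * E ^ 2) * (1 / 2 ^ E ^ 5) / 2 := by
      rw [one_div_mul_one_div, ← pow_add, div_div, ← pow_succ, mul_one_div,
        div_le_div_iff₀ (by positivity) (by positivity), one_mul]
      calc (27 : ℝ) * _ ≤ 2 ^ 5 * 2 ^ (6 * E ^ 2 + E ^ 5 + 1) := by gcongr; norm_num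
        _ ≤ _ := by rw [← pow_add]; exact p2 (by omega)
    nlinarith [mul_le_mul_of_nonneg_right this (tsum_nonneg μ0 : 0 ≤ ∑' i, μ i)]
  · have a := h i z
    rw [le_div_iff₀ (by positivity)] at a
    have q := qf_nonneg hN (zc (v i))
    have t : 4 * ((2 : ℝ) ^ (2 * E ^ 5) + 1) ^ 2 ≤ 2 ^ (5 * E ^ 5) :=
      calc _ ≤ 4 * ((2 : ℝ) ^ (2 * E ^ 5) * 2) ^ 2 := by
            gcongr; linarith [one_le_pow₀ (n := 2 * E ^ 5) (one_le_two (α := ℝ))]
        _ = 2 ^ (4 * E ^ 5 + 4) := by ring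
        _ ≤ _ := p2 (by omega)
    calc _ = qf (lam • M) (zc (v i)) * (4 * (2 ^ (2 * E ^ 5) + 1) ^ 2 * (Fintype.card I + 1)) := by
          ring
      _ ≤ qf (lam • M) (zc (v i)) * (2 ^ (5 * E ^ 5) * (Fintype.card I + 2)) := by
          gcongr; norm_num
      _ ≤ 1 := a
  · have t1 : Fintype.card I + 1 ≤ cw I * lam := by
      rw [cw, div_mul_eq_mul_div, le_div_iff₀ (by positivity)]; gcongr
    have x := Pw.mix (pz_gz hp θ) (pz_gz (hN.smul w) 0) g0 g1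
    have y := hasSum_le (fun y => mul_le_mul_of_nonneg_right ?_ (g0 y)) x
      (Lf.hcg ((Ce.sm (gd_nonneg (hM.smul (mul_pos w (Sd.cL_pos I))) θ)
        (Lf.ms_gd (hM.smul (mul_pos w (Sd.cL_pos I))) θ).2.summable g0 g1).hasSum.mul_left 54)
        fun y => mul_assoc _ _ _)
    · refine (mul_le_mul_of_nonneg_left (y.trans (mul_le_mul_of_nonneg_left hu (by norm_num)))
        (by norm_num)).trans ?_
      rw [one_div_mul_one_div, ← pow_add, mul_one_div, le_div_iff₀ (by positivity)]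
      calc _ ≤ (2 : ℝ) ^ 11 * 2 ^ E * 2 ^ (6 * E ^ 2 + E ^ 5) :=
            mul_le_mul_of_nonneg_right (by nlinarith [p2 E.zero_le]) (by positivity)
        _ ≤ _ := by rw [← pow_add, ← pow_add]; exact p2 (by omega)
    · rw [smul_smul]
      have := gd_wid hL θ y
      rw [smul_smul] at this
      linarith [cv27 hM sm t1 (mul_le_of_le_one_left (by linarith) cw_le) θ y]

/-- the second moment form -/
theorem RW.sq (h : RW M θ g lam E ξ) (hM : M.PosDef) (l1 : 1 ≤ lam)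
    (sm : th ((2 : ℝ) • lam • M)⁻¹ 0 ≤ 11 / 10) (g0 : ∀ x, 0 ≤ g x) (g1 : ∀ x, g x ≤ b) {X : Type}
    {μ : X → ℝ} {v : X → I → ℤ} (μ0 : ∀ i, 0 ≤ μ i) (μ1 : Summable μ) (hv : ∀ i, μ i ≠ 0 →
      qf (lam • M) (zc (v i)) ≤ 1 / (2 ^ (5 * E ^ 5) * (Fintype.card I + 2))) :
    (1 / 2 ^ (2 * E ^ 5) * ∑' i, μ i) ^ 2 / 2 ≤
      ∑' P, gd (Sd.cL I • M) θ P * ‖tav g ξ μ v P‖ ^ 2 := by
  have hL := hM.smul (Sd.cL_pos I)
  have u := th_up hL (sm_anti hL ((hM.smul (by linarith)).smul two_pos) (fun x => by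
    simp only [qf_smul]; nlinarith [qf_nonneg hM x, Sd.cL_le I]) sm) θ
  exact l1_l2 (gd_nonneg hL θ) (Lf.ms_gd hL θ).2 ((div_le_iff₀ (dt_pos hL)).2 (by
    linarith [dt_pos hL])) (fun _ => norm_nonneg _) (tav_le g0 g1 μ0 μ1)
    (mul_nonneg (by positivity) (tsum_nonneg μ0)) (h X μ v μ0 μ1 hv)

theorem gd_le_cv (hM : M.PosDef) {c c' : ℝ} (c0 : 0 < c) (h : (Fintype.card I + 1) * c ≤ c')
    (θ : I → ℝ) (y : I → ℤ) :
    gd (c • M) θ y ≤ 2 * ∑' v, gd (c • M) θ (y - v) * gd (c' • M) 0 v := by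
  have n0 : (0 : ℝ) ≤ Fintype.card I := Nat.cast_nonneg _
  have c1 : 0 < c' := lt_of_lt_of_le (by positivity) h
  have hA := hM.smul c0
  have hB := hM.smul c1
  have hC := hM.smul (add_pos c0 c1)
  have s : Summable fun v => gs (c' • M) (zc v - 0) * gs (c • M) (zc (y - v) - θ) :=
    Ce.sm (fun _ => (gs_pos _ _).le) (summable_gs hB 0) (fun _ => (gs_pos _ _).le)
      fun _ => gs_le_one hA _
  have a := hasSum_le (fun v => ?_) ((summable_gs hC 0).hasSum.mul_left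
    (2 * gs (c • M) (zc y - θ))) (s.hasSum.add ((Equiv.neg _).hasSum_iff.2 s.hasSum))
  · have d := dt_wid hM (add_pos c0 c1) (c' := c') (by
      rw [cw, div_mul_eq_mul_div, div_le_iff₀ (by positivity)]; linarith)
    have e : ∑' v, gd (c • M) θ (y - v) * gd (c' • M) 0 v = (∑' v, gs (c' • M) (zc v - 0) *
        gs (c • M) (zc (y - v) - θ)) / (dt (c • M) * dt (c' • M)) := by
      rw [← tsum_div_const]; exact tsum_congr fun v => by rw [gd, gd, div_mul_div_comm, mul_comm]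
    have pa := dt_pos hA
    have pb := dt_pos hB
    rw [e, gd, ← mul_div_assoc, div_le_div_iff₀ pa (by positivity)]
    have k := mul_le_mul_of_nonneg_left (d.trans (mul_le_mul_of_nonneg_left (dt_le_th hC)
      zero_le_two)) (gs_pos (c • M) (zc y - θ)).le
    rw [th] at k
    nlinarith [mul_le_mul_of_nonneg_left (k.trans (le_of_eq_of_le (by ring) a)) pa.le]
  · simp only [Function.comp, Equiv.neg_apply, sub_zero, zc_sub, zc_neg, gs_neg, sub_neg_eq_add,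
      zc_add]
    rw [add_smul, gs_add_left, show zc y - zc v - θ = zc y - θ - zc v by abel,
      show zc y + zc v - θ = zc y - θ + zc v by abel]
    have q := qf_par (c • M) (zc y - θ) (zc v)
    set x := Real.pi * (qf (c • M) (zc y - θ + zc v) - qf (c • M) (zc y - θ - zc v)) / 2 with hx
    have e1 : gs (c • M) (zc y - θ - zc v) =
        gs (c • M) (zc y - θ) * gs (c • M) (zc v) * Real.exp x := by
      simp only [gs, ← Real.exp_add]; congr 1; rw [hx]; linear_combination (-Real.pi / 2) * q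
    have e2 : gs (c • M) (zc y - θ + zc v) =
        gs (c • M) (zc y - θ) * gs (c • M) (zc v) * Real.exp (-x) := by
      simp only [gs, ← Real.exp_add]; congr 1; rw [hx]; linear_combination (-Real.pi / 2) * q
    rw [e1, e2]
    nlinarith [mul_le_mul_of_nonneg_left (add_le_add (Real.add_one_le_exp x)
      (Real.add_one_le_exp (-x))) (mul_pos (mul_pos (gs_pos (c • M) (zc y - θ))
        (gs_pos (c • M) (zc v))) (gs_pos (c' • M) (zc v))).le]

theorem up_le (hM : M.PosDef) {c c' : ℝ} (c0 : 0 < c) (h : (Fintype.card I + 1) * c ≤ c')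
    (g0 : ∀ x, 0 ≤ g x) (g1 : ∀ x, g x ≤ b) : ∑' p, gd (c • M) θ p * g p ≤
      2 * XC (gd (c • M) θ) (gd (c' • M) 0) g G1 := by
  have c1 : 0 < c' := lt_of_lt_of_le (by positivity) h
  have a := Lf.ms_gd (hM.smul c0) θ
  let e : (I → ℤ) × (I → ℤ) ≃ (Fin 1 → I → ℤ) × (Fin 1 → I → ℤ) :=
    ⟨fun q => (fun _ => q.1 - q.2, fun _ => q.2), fun q => (q.1 0 + q.2 0, q.2 0),
      fun q => by simp, fun q => by
        ext1 <;> funext i <;> simp [Subsingleton.elim i 0]⟩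
  have s := e.hasSum_iff.2 (Lf.hs a (Lf.ms_gd (hM.smul c1) 0) g0 g1 G1)
  refine hasSum_le (fun y => ?_) (Ce.sm a.1 a.2.summable g0 g1).hasSum
    ((s.prod_fiberwise fun y => (s.summable.prod_factor y).hasSum).mul_left 2)
  refine (mul_le_mul_of_nonneg_right (gd_le_cv hM c0 h θ y) (g0 y)).trans_eq ?_
  rw [mul_assoc, ← tsum_mul_right]
  exact congrArg _ (tsum_congr fun v => by simp [e, Lf.xw])

variable {ι : Type} [Fintype ι] [LinearOrder ι] {B : Bd ι}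

theorem Bd.Ok.rho_sm (h : B.Ok) : Summable h.rho := by
  refine (h.fac 0 0 ∅ 1 1 one_pos one_pos (fun _ _ _ => 1) 1
    fun _ _ _ => ⟨zero_le_one, le_rfl⟩).summable.congr fun z => ?_
  have p := (h.lin z).1.smul (one_pos (α := ℝ))
  rw [Lf.XC_empty (Lf.ms_gd p _) (Lf.ms_gd p _) _ rfl, pow_zero, pow_zero, mul_one, mul_one]

/-- Markov's inequality at the root -/
theorem Bd.Ok.mark (h : B.Ok) {G : B.Zc → (B.I → ℤ) → B.Hc → ℝ} {t c c' Λ : ℝ} (c0 : 0 < c)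
    (hG : ∀ z a η, 0 ≤ G z a η ∧ G z a η ≤ t) (hc : (Fintype.card B.I + 1) * c ≤ c') (Λ0 : 0 < Λ)
    (m : (B.T.sh (B.S G1 c c')).Mas 1) (W : Set B.Zc) : ∑' z, W.indicator h.rho z - 4 * t / Λ ≤
      ∑' z, (W ∩ {z | ∑' p, gd (c • h.M z) (h.ce z) p * h.av G z p ≤ Λ}).indicator h.rho z := by
  have c1 : 0 < c' := lt_of_lt_of_le (by positivity) hc
  obtain ⟨-, ρ0, -, b, hb⟩ := h.hid
  have F := h.fac 1 1 G1 c c' c0 c1 (fun _ _ _ => 1) 1 fun _ _ _ => ⟨zero_le_one, le_rfl⟩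
  have zc := (TS.sh_tri h.cl (h.ok_S (Γ := G1) c0 c1)).Zc_pos
  have e : (B.T.sh (B.S G1 c c')).S (h.PG G1 c c' fun _ _ _ => 1) = (B.T.sh (B.S G1 c c')).Z :=
    (congrArg _ (funext fun y => prod_const_one)).trans (TS.S_one _)
  have t0 : 0 ≤ t := (hG 0 0 0).1.trans (hG 0 0 0).2
  have o : ∀ z x, 0 ≤ h.av (fun _ _ _ => 1) z x ∧ h.av (fun _ _ _ => 1) z x ≤ b := fun z x =>
    ⟨(h.av_le h.hid (c := 1) (fun _ _ _ => ⟨zero_le_one, le_rfl⟩) z x).1,
      by simpa only [Bd.Ok.av, mul_one] using hb z x⟩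
  have a := hasSum_le (fun z => ?_) (h.rho_sm.indicator W).hasSum ((h.rho_sm.indicator
    (W ∩ {z | ∑' p, gd (c • h.M z) (h.ce z) p * h.av G z p ≤ Λ})).hasSum.add (F.mul_left (2 * t / Λ)))
  · have : (B.T.sh (B.S G1 c c')).Z / (B.T.sh (B.S G1 c c')).Zc ≤ 2 := by
      rw [div_le_iff₀ zc]; linarith [(abs_le.1 m).2]
    rw [e] at a
    have := mul_le_mul_of_nonneg_left this (show 0 ≤ 2 * t / Λ by positivity)
    rw [show 2 * t / Λ * 2 = 4 * t / Λ by ring] at this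
    linarith
  · have p := (h.lin z).1
    have q := Lf.ms_gd (p.smul c0) (h.ce z)
    have u := up_le (θ := h.ce z) p c0 hc (fun x => (o z x).1) fun x => (o z x).2
    have u0 : 0 ≤ ∑' x, gd (c • h.M z) (h.ce z) x * h.av (fun _ _ _ => 1) z x :=
      tsum_nonneg fun x => mul_nonneg (q.1 x) (o z x).1
    have w := hasSum_le (fun x => (mul_le_mul_of_nonneg_left (h.av_le h.hid hG z x).2
      (q.1 x)).trans_eq (mul_left_comm _ _ _)) (Ce.sm q.1 q.2.summable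
        (fun x => (h.av_le h.hid hG z x).1) fun x => (h.av_le h.hid hG z x).2.trans
          (mul_le_mul_of_nonneg_left (o z x).2 t0)).hasSum
      ((Ce.sm q.1 q.2.summable (fun x => (o z x).1) fun x => (o z x).2).hasSum.mul_left t)
    have r := ρ0 z
    have X0 : 0 ≤ 2 * t / Λ * (h.rho z * XC (gd (c • h.M z) (h.ce z)) (gd (c' • h.M z) 0)
      (h.av (fun _ _ _ => 1) z) G1) := mul_nonneg (by positivity) (mul_nonneg r (by linarith))
    by_cases k : z ∈ W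
    · by_cases k' : ∑' p, gd (c • h.M z) (h.ce z) p * h.av G z p ≤ Λ
      · rw [Set.indicator_of_mem k, Set.indicator_of_mem (Set.mem_inter k k')]; linarith
      · rw [Set.indicator_of_mem k, Set.indicator_of_notMem fun e => k' e.2, zero_add,
          mul_left_comm, div_mul_eq_mul_div]
        refine le_mul_of_one_le_right r ((one_le_div Λ0).2 ?_)
        nlinarith [mul_le_mul_of_nonneg_left u t0, not_le.1 k']
    · rw [Set.indicator_of_notMem k, Set.indicator_of_notMem fun e => k e.1]; linarith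

/-- **the Kelley–Meka output with one pattern of robust witnesses** -/
theorem Bd.Ok.kz (h : B.Ok) {G : B.Zc → (B.I → ℤ) → B.Hc → ℝ} {P j : ℕ} {γ : ℝ}
    (hG : ∀ z a η, 0 ≤ G z a η ∧ G z a η ≤ 2 ^ P) (P2 : 2 ≤ P) (e : E = P ^ 68)
    (hl : Fintype.card B.I + 2 ≤ lam) (m : (B.T.sh (B.S G1 (cw B.I * Sd.cL B.I) lam)).Mas 1)
    (W : Set B.Zc) (hW : 1 / 2 ^ (4 * P ^ 3 + 10) ≤ ∑' z, W.indicator h.rho z)
    (k : ∀ z ∈ W, th ((2 : ℝ) • lam • h.M z)⁻¹ 0 ≤ 11 / 10 ∧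
      KO (h.M z) (h.ce z) (h.av G z) lam E j γ) :
    ∃ (k : ℕ) (η : Fin k → B.Zc → B.I → ℝ) (W' : Set B.Zc), W' ⊆ W ∧ k ≤ wn E ∧
      1 / 2 ^ E ^ 3 ≤ ∑' z, W'.indicator h.rho z ∧ ∀ z ∈ W',
        upm (h.M z) (h.ce z) (h.av G z) ≤ 2 ^ E ∧
        Br.KC (h.M z) (h.ce z) (h.av G z) lam E (fun a => η a z) ((1 - 16 / 2 ^ j) * γ) ∧
        (∀ a, RW (h.M z) (h.ce z) (h.av G z) lam E (η a z)) ∧ ∃ S : Set (B.I → ℤ),
          1 / 2 ^ E ^ 5 ≤ ∑' p, S.indicator (gz (mp (h.M z) (h.M z)) (h.ce z)) p ∧ ∀ a, ∀ p ∈ S,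
            1 / 2 ^ (6 * E ^ 2) ≤ ‖∑' w, (gz (lam • h.M z) 0 w : ℂ) *
              (h.av G z (p + w) * ee (-(η a z ⬝ᵥ zc w)))‖ := by
  classical
  have n0 : (0 : ℝ) ≤ Fintype.card B.I := Nat.cast_nonneg _
  have eP : 4 * P ^ 3 + 13 + P ≤ E := by
    have := Nat.pow_le_pow_left P2 65
    have := Nat.le_self_pow (n := 3) (by norm_num) P
    rw [e, show P ^ 68 = P ^ 65 * P ^ 3 by ring]; nlinarith
  have E3 : wn E + E ≤ E ^ 3 := by
    have : 32 ≤ E := by have := Nat.pow_le_pow_left P2 3; omega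
    rw [wn]; nlinarith [Nat.mul_le_mul this (le_refl (E * E)), Nat.mul_le_mul this (le_refl E)]
  have w := mul_pos (cw_pos (I := B.I)) (Sd.cL_pos B.I)
  have a := h.mark w hG (Λ := 2 ^ E) (le_trans (mul_le_of_le_one_right (by positivity)
    (mul_le_one₀ cw_le (Sd.cL_pos _).le (Sd.cL_le _))) (by linarith)) (by positivity) m W
  choose! η S r k1 k2 k3 k4 k5 k6 using fun z hz => (k z hz).2
  obtain ⟨κ, hκ⟩ : ∃ κ : B.Zc → Finset (Fin (wn E)), ∀ z a, a ∈ κ z ↔ ¬ 1 / 2 ^ (6 * E ^ 2) ≤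
      ‖∑' w, (gz (lam • h.M z) 0 w : ℂ) * ee (-(η z a ⬝ᵥ zc w))‖ :=
    ⟨fun z => univ.filter _, fun z a => mem_filter_univ a⟩
  obtain ⟨K, -, hK⟩ := pig h.rho_sm univ_nonempty κ (fun _ => mem_univ _)
    (W ∩ {z | upm (h.M z) (h.ce z) (h.av G z) ≤ 2 ^ E})
  obtain ⟨-, -, -, b, hb⟩ := h.hid
  refine ⟨#K, fun a z => η z (K.equivFin.symm a),
    W ∩ {z | upm (h.M z) (h.ce z) (h.av G z) ≤ 2 ^ E} ∩ {z | κ z = K}, fun z hz => hz.1.1,
    (card_le_univ K).trans_eq (Fintype.card_fin _), ?_, fun z ⟨⟨hz, hu⟩, (hk : κ z = K)⟩ =>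
      ⟨hu, ⟨r z, k4 z hz, k5 z hz, fun x hx => k6 z hz x (fun a => ?_) (hx.2.trans ?_)⟩, fun a => ?_,
        S z, k1 z hz, fun a => (k3 z hz _).resolve_left
          ((hκ z _).1 (hk.symm.subset (K.equivFin.symm a).2))⟩⟩
  · rw [card_univ, Fintype.card_finset, Fintype.card_fin] at hK
    have b1 : 4 * 2 ^ P / 2 ^ E ≤ (1 : ℝ) / 2 ^ (4 * P ^ 3 + 11) := by
      rw [div_le_div_iff₀ (by positivity) (by positivity), one_mul, show (4 : ℝ) = 2 ^ 2 by norm_num,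
        ← pow_add, ← pow_add]
      exact p2 (by omega)
    have b2 : (1 : ℝ) / 2 ^ (4 * P ^ 3 + 10) = 2 * (1 / 2 ^ (4 * P ^ 3 + 11)) := by
      rw [pow_succ _ (4 * P ^ 3 + 10)]; field_simp
    have b3 := (ip (show 4 * P ^ 3 + 11 ≤ E by omega)).trans
      (le_trans (b := ∑' z, W.indicator h.rho z - 4 * 2 ^ P / 2 ^ E) (by linarith) (a.trans hK))
    refine (ip E3).trans ?_
    push_cast at b3
    rw [pow_add, div_mul_eq_div_div_swap, div_le_iff₀' (by positivity)]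
    exact b3
  · by_cases c : a ∈ K
    · simpa using hx.1 (K.equivFin ⟨a, c⟩)
    · rw [← hk, hκ, not_not] at c
      exact triv_fr ((h.lin z).1.smul (by linarith)) (by omega) c hx.2
  · refine one_div_le_one_div_of_le (by positivity) (mul_le_mul (p2 (by nlinarith))
      (le_self_pow₀ (by linarith) (by norm_num)) (by positivity) (by positivity))
  · have c := (K.equivFin.symm a).2
    have t0 : (0 : ℝ) ≤ 2 ^ P := by positivity
    exact rw_of (h.lin z).1 (k z hz).1 (by omega) hl (fun x => (h.av_le h.hid hG z x).1)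
      (fun x => (h.av_le h.hid hG z x).2.trans (mul_le_mul_of_nonneg_left
        (by simpa only [Bd.Ok.av, mul_one] using hb z x) t0)) hu (k1 z hz)
      ((k3 z hz _).resolve_left ((hκ z _).1 (hk.symm.subset c)))

end Crest.Agent.N49.Br

end
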