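import Crest.Agent.N49.Br.L0
import Crest.Agent.N49.Br.Kg
import Crest.Agent.N49.Gw.Hol

/-!
# Row 49 (helper70): bipartite counts in one fibre
-/

set_option autoImplicit false
set_option linter.unusedSectionVars false

open Finset Matrix

noncomputable section

namespace Crest.Agent.N49.Br

open Po

namespace Lf

variable {I : Type} [Fintype I] [DecidableEq I] {μ β f : (I → ℤ) → ℝ} {k l : ℕ} {a b B : ℝ}

/-- the summand of `XC` -/
def xw (μ β f : (I → ℤ) → ℝ) {k l : ℕ} (Γ : Finset (Fin k × Fin l))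
    (p : (Fin k → I → ℤ) × (Fin l → I → ℤ)) : ℝ :=
  (∏ i, μ (p.1 i)) * (∏ j, β (p.2 j)) * ∏ e ∈ Γ, f (p.1 e.1 + p.2 e.2)

/-- nonnegative summable weights -/
def Ms (μ : (I → ℤ) → ℝ) (a : ℝ) : Prop := (∀ x, 0 ≤ μ x) ∧ HasSum μ a

theorem hmul {A C : Type} {u : A → ℝ} {v : C → ℝ} (h : HasSum u a) (h' : HasSum v b)
    (u0 : ∀ x, 0 ≤ u x) (v0 : ∀ x, 0 ≤ v x) : HasSum (fun p : A × C => u p.1 * v p.2) (a * b) :=
  h.mul h' (h.summable.mul_of_nonneg h'.summable u0 v0)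

theorem hcg {A : Type} {u v : A → ℝ} (h : HasSum u a) (e : ∀ x, v x = u x) : HasSum v a :=
  (funext e : v = u) ▸ h

theorem hs_pi (h : Ms μ a) (k : ℕ) : HasSum (fun p : Fin k → I → ℤ => ∏ i, μ (p i)) (a ^ k) := by
  simpa [h.2.tsum_eq] using Gw.hasSum_pi_prod (ι := Fin k) (fun _ => μ) fun _ => h.2.summable

theorem hs_empty (hμ : Ms μ a) (hβ : Ms β b) (f : (I → ℤ) → ℝ) (k l : ℕ) :
    HasSum (xw μ β f (∅ : Finset (Fin k × Fin l))) (a ^ k * b ^ l) := by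
  have := hmul (hs_pi hμ k) (hs_pi hβ l) (fun _ => prod_nonneg fun _ _ => hμ.1 _)
    fun _ => prod_nonneg fun _ _ => hβ.1 _
  exact hcg this fun p => by simp [xw]

theorem w_nonneg (hμ : Ms μ a) (hβ : Ms β b) (p : (Fin k → I → ℤ) × (Fin l → I → ℤ)) :
    0 ≤ (∏ i, μ (p.1 i)) * ∏ j, β (p.2 j) :=
  mul_nonneg (prod_nonneg fun _ _ => hμ.1 _) (prod_nonneg fun _ _ => hβ.1 _)

theorem xw_nonneg (hμ : Ms μ a) (hβ : Ms β b) (f0 : ∀ x, 0 ≤ f x) (Γ : Finset (Fin k × Fin l))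
    (p : (Fin k → I → ℤ) × (Fin l → I → ℤ)) : 0 ≤ xw μ β f Γ p :=
  mul_nonneg (w_nonneg hμ hβ p) (prod_nonneg fun _ _ => f0 _)

theorem xw_le (hμ : Ms μ a) (hβ : Ms β b) {g : (I → ℤ) → ℝ} {c : ℝ} (g0 : ∀ x, 0 ≤ g x)
    (h : ∀ x, g x ≤ c * f x) (Γ : Finset (Fin k × Fin l))
    (p : (Fin k → I → ℤ) × (Fin l → I → ℤ)) : xw μ β g Γ p ≤ c ^ #Γ * xw μ β f Γ p := by
  unfold xw
  rw [mul_left_comm, ← prod_const, ← prod_mul_distrib]
  exact mul_le_mul_of_nonneg_left (prod_le_prod (fun _ _ => g0 _) fun _ _ => h _) (w_nonneg hμ hβ p)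

theorem hs (hμ : Ms μ a) (hβ : Ms β b) (f0 : ∀ x, 0 ≤ f x) (fB : ∀ x, f x ≤ B)
    (Γ : Finset (Fin k × Fin l)) : HasSum (xw μ β f Γ) (XC μ β f Γ) :=
  (Summable.of_nonneg_of_le (xw_nonneg hμ hβ f0 Γ) (fun p => (xw_le hμ hβ (f := fun _ => 1) f0
    (fun x => (fB x).trans_eq (mul_one B).symm) Γ p).trans_eq (by simp [xw]))
    ((hs_empty hμ hβ f k l).summable.mul_left (B ^ #Γ))).hasSum

theorem XC_empty (hμ : Ms μ a) (hβ : Ms β b) (f : (I → ℤ) → ℝ) {Γ : Finset (Fin k × Fin l)}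
    (h : Γ = ∅) : XC μ β f Γ = a ^ k * b ^ l := h ▸ (hs_empty hμ hβ f k l).tsum_eq

/-- two disjoint copies of a graph -/
def db (Γ : Finset (Fin k × Fin l)) : Finset (Fin (k + k) × Fin (l + l)) :=
  Γ.image (fun e => (Fin.castAdd k e.1, Fin.castAdd l e.2)) ∪
    Γ.image fun e => (Fin.natAdd k e.1, Fin.natAdd l e.2)

theorem XC_db (hμ : Ms μ a) (hβ : Ms β b) (f0 : ∀ x, 0 ≤ f x) (fB : ∀ x, f x ≤ B)
    (Γ : Finset (Fin k × Fin l)) : XC μ β f (db Γ) = XC μ β f Γ ^ 2 := by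
  have h := hmul (hs hμ hβ f0 fB Γ) (hs hμ hβ f0 fB Γ) (xw_nonneg hμ hβ f0 Γ)
    (xw_nonneg hμ hβ f0 Γ)
  rw [sq, ← h.tsum_eq]
  refine (((Equiv.prodProdProdComm _ _ _ _).trans ((Fin.appendEquiv k k).prodCongr
    (Fin.appendEquiv l l))).tsum_eq (xw μ β f (db Γ))).symm.trans (tsum_congr fun q => ?_)
  have d : Disjoint (Γ.image fun e => (Fin.castAdd k e.1, Fin.castAdd l e.2))
      (Γ.image fun e => (Fin.natAdd k e.1, Fin.natAdd l e.2)) := by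
    rw [disjoint_left]
    intro x h1 h2
    obtain ⟨e, -, rfl⟩ := mem_image.1 h1
    obtain ⟨e', -, c⟩ := mem_image.1 h2
    have := congrArg (fun x => x.1.val) c
    have := e.1.2
    simp at *; omega
  simp only [xw, db, prod_union d, Fin.prod_univ_add]
  rw [prod_image fun x _ y _ e => by simpa [Prod.ext_iff] using e,
    prod_image fun x _ y _ e => by simpa [Prod.ext_iff] using e]
  simp [Fin.appendEquiv, -Fin.natAdd_eq_addNat]
  ring

theorem box (hμ : Ms μ a) (hβ : Ms β b) (f0 : ∀ x, 0 ≤ f x) (fB : ∀ x, f x ≤ B) {δ : ℝ}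
    (h : ∀ Γ : Finset (Fin 2 × Fin 2), |XC μ β f Γ - 1| ≤ δ) :
    XC μ β (fun x => f x - 1) (univ : Finset (Fin 2 × Fin 2)) ≤ 16 * δ := by
  have e : xw μ β (fun x => f x - 1) (univ : Finset (Fin 2 × Fin 2)) = fun p =>
      ∑ Γ ∈ (univ : Finset (Fin 2 × Fin 2)).powerset, xw μ β f Γ p * ∏ _ ∈ univ \ Γ, (-1 : ℝ) := by
    funext p
    simp only [xw, sub_eq_add_neg, prod_add, mul_sum, mul_assoc]
  have z : ∑ Γ ∈ (univ : Finset (Fin 2 × Fin 2)).powerset, 1 * ∏ _ ∈ univ \ Γ, (-1 : ℝ) = 0 := by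
    have := prod_add (fun _ : Fin 2 × Fin 2 => (1 : ℝ)) (fun _ => -1) univ
    simp only [prod_const_one] at this
    rw [← this]; simp
  have := (hasSum_sum fun Γ (_ : Γ ∈ (univ : Finset (Fin 2 × Fin 2)).powerset) =>
    (hs hμ hβ f0 fB Γ).mul_right (∏ _ ∈ univ \ Γ, (-1 : ℝ))).tsum_eq
  rw [← e] at this
  refine (le_of_eq this).trans ?_
  rw [← sub_zero (∑ _ ∈ _, _), ← z, ← sum_sub_distrib]
  refine (sum_le_card_nsmul _ _ δ fun Γ _ => (le_abs_self _).trans ?_).trans_eq (by simp)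
  rw [← sub_mul, abs_mul, prod_const, abs_pow, abs_neg, abs_one, one_pow, mul_one]
  exact h Γ

variable {M M' : Matrix I I ℝ} {θ θ' : I → ℝ}

theorem ms_gd (hM : M.PosDef) (θ : I → ℝ) : Ms (gd M θ) (th M θ / dt M) :=
  ⟨fun _ => div_nonneg (gs_pos _ _).le (dt_pos hM).le, (summable_gs hM θ).hasSum.div_const _⟩

theorem GC_eq (hM : M.PosDef) (hM' : M'.PosDef) (f : (I → ℤ) → ℝ) (k l : ℕ) :
    GCz (gz M θ) (gz M' θ') f k l = XC (gd M θ) (gd M' θ') f (univ : Finset (Fin k × Fin l)) /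
      ((th M θ / dt M) ^ k * (th M' θ' / dt M') ^ l) := by
  rw [XC, ← tsum_div_const]
  refine tsum_congr fun p => ?_
  have := (th_pos hM θ).ne'
  have := (th_pos hM' θ').ne'
  have := (dt_pos hM).ne'
  have := (dt_pos hM').ne'
  simp only [gz, gd, prod_div_distrib, prod_const, card_univ, Fintype.card_fin, div_pow,
    Fintype.prod_prod_type]
  field_simp

/-- all counts in one fibre are close to one -/
def Cl (M M' : Matrix I I ℝ) (θ θ' : I → ℝ) (f : (I → ℤ) → ℝ) (n : ℕ) (δ : ℝ) : Prop :=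
  (∀ k ≤ n, ∀ l ≤ n, |XC (gd M θ) (gd M' θ') f (univ : Finset (Fin k × Fin l)) - 1| ≤ δ) ∧
    ∀ Γ : Finset (Fin 2 × Fin 2), |XC (gd M θ) (gd M' θ') f Γ - 1| ≤ δ

theorem Cl.mass {n : ℕ} {δ : ℝ} (h : Cl M M' θ θ' f n δ) (hM : M.PosDef) (hM' : M'.PosDef)
    (hn : 1 ≤ n) (hδ : 20 * n * δ ≤ 1) {k l : ℕ} (hk : k ≤ n) (hl : l ≤ n) :
    9 / 10 ≤ (th M θ / dt M) ^ k * (th M' θ' / dt M') ^ l ∧
      (th M θ / dt M) ^ k * (th M' θ' / dt M') ^ l < 2 := by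
  have a := h.1 1 hn 0 n.zero_le
  have b := h.1 0 n.zero_le 1 hn
  rw [XC_empty (ms_gd hM θ) (ms_gd hM' θ') f univ_eq_empty] at a b
  simp only [pow_one, pow_zero, mul_one, one_mul, abs_le] at a b
  have δ0 : 0 ≤ δ := by linarith [a.1, a.2]
  have n1 : (1 : ℝ) ≤ n := by exact_mod_cast hn
  have δ1 : δ ≤ 1 / 20 := by nlinarith
  have c : ((k + l : ℕ) : ℝ) * δ ≤ 1 / 10 := by
    have : ((k + l : ℕ) : ℝ) ≤ 2 * n := by exact_mod_cast (by omega : k + l ≤ 2 * n)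
    nlinarith
  have lo := one_add_mul_le_pow (show -2 ≤ -δ by linarith) (k + l)
  constructor
  · calc _ ≤ (1 + -δ) ^ (k + l) := by linarith
      _ ≤ _ := by
        rw [pow_add]
        exact mul_le_mul (pow_le_pow_left₀ (by linarith) (by linarith) k)
          (pow_le_pow_left₀ (by linarith) (by linarith) l) (pow_nonneg (by linarith) l)
          (pow_nonneg (by linarith) k)
  · have u : (th M θ / dt M) ^ k * (th M' θ' / dt M') ^ l ≤ (1 + δ) ^ (k + l) := by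
      rw [pow_add]
      exact mul_le_mul (pow_le_pow_left₀ (by linarith) (by linarith) k)
        (pow_le_pow_left₀ (by linarith) (by linarith) l) (pow_nonneg (by linarith) l)
        (pow_nonneg (by linarith) k)
    have v : (1 + δ) ^ (k + l) * (1 + -δ) ^ (k + l) ≤ 1 := by
      rw [← mul_pow]; exact pow_le_one₀ (by nlinarith) (by nlinarith)
    nlinarith [pow_nonneg (show 0 ≤ 1 + δ by linarith) (k + l)]

theorem Cl.lf {n : ℕ} {δ : ℝ} (h : Cl M M' θ θ' f n δ) (hM : M.PosDef) (hM' : M'.PosDef)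
    (f0 : ∀ x, 0 ≤ f x) (fB : ∀ x, f x ≤ B) (hn : 2 ≤ n) (hδ : 20 * n * δ ≤ 1) :
    LFz (gz M θ) (gz M' θ') f n (32 * δ) := by
  have δ0 : 0 ≤ δ := (abs_nonneg _).trans (h.2 ∅)
  have n1 : (2 : ℝ) ≤ n := by exact_mod_cast hn
  refine ⟨fun k hk l hl => ?_, ?_⟩
  · have m := (h.mass hM hM' (by omega) hδ hk hl).1
    rw [GC_eq hM hM', div_le_iff₀ (by linarith)]
    nlinarith [(abs_le.1 (h.1 k hk l hl)).2]
  · have m := (h.mass hM hM' (by omega) hδ hn hn).1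
    rw [GC_eq hM hM', div_le_iff₀ (by linarith)]
    nlinarith [box (ms_gd hM θ) (ms_gd hM' θ') f0 fB h.2]

end Lf

end Crest.Agent.N49.Br

end
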