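import Crest.Agent.N49.Br.K0
import Crest.Agent.N49.Km.Fin

/-!
# Row 49 (helper88): pushing summable weights to a finite type
-/

set_option autoImplicit false

open Finset

noncomputable section

namespace Crest.Agent.N49.Br

open L

section gen
variable {A G : Type*} {π : A → G} {μ ν : A → ℝ}

open Classical in
/-- the image of a weight -/
def ps (π : A → G) (μ : A → ℝ) (y : G) : ℝ := ∑' a, if π a = y then μ a else 0

theorem sm_bd (h : Summable μ) {F : A → ℝ} {C : ℝ} (hF : ∀ a, |F a| ≤ C) :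
    Summable fun a => μ a * F a :=
  .of_norm_bounded (h.abs.mul_right C) fun a => by
    rw [Real.norm_eq_abs, abs_mul]; exact mul_le_mul_of_nonneg_left (hF a) (abs_nonneg _)

open Classical in
theorem sm_ps (h : Summable μ) (y : G) : Summable fun a => if π a = y then μ a else 0 :=
  .of_norm_bounded h.abs fun a => by split_ifs <;> simp

theorem ps_nonneg (h : ∀ a, 0 ≤ μ a) (y : G) : 0 ≤ ps π μ y :=
  tsum_nonneg fun a => by split_ifs; exacts [h a, le_rfl]

theorem ps_mono (hμ : Summable μ) (hν : Summable ν) (h : ∀ a, μ a ≤ ν a) (y : G) :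
    ps π μ y ≤ ps π ν y :=
  (sm_ps hμ y).tsum_le_tsum (fun a => by split_ifs; exacts [h a, le_rfl]) (sm_ps hν y)

theorem ps_mul (c : ℝ) (y : G) : ps π (fun a => c * μ a) y = c * ps π μ y := by
  unfold ps; rw [← tsum_mul_left]; congr 1; funext a; split_ifs <;> simp

theorem ps_sub (hμ : Summable μ) (hν : Summable ν) (y : G) :
    ps π (fun a => μ a - ν a) y = ps π μ y - ps π ν y := by
  unfold ps; rw [← (sm_ps hμ y).tsum_sub (sm_ps hν y)]; congr 1; funext a; split_ifs <;> simp

theorem abs_ps (hμ : Summable μ) (y : G) : |ps π μ y| ≤ ps π (fun a => |μ a|) y := by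
  refine abs_le.2 ⟨?_, ps_mono hμ hμ.abs (fun a => le_abs_self _) y⟩
  rw [← neg_one_mul, ← ps_mul]
  exact ps_mono (hμ.abs.mul_left _) hμ (fun a => by linarith [neg_abs_le (μ a)]) y

theorem ps_ne {y : G} (h : ps π μ y ≠ 0) : ∃ a, π a = y ∧ μ a ≠ 0 := by
  by_contra c
  push Not at c
  refine h ?_
  unfold ps
  refine (tsum_congr fun a => ?_).trans tsum_zero
  split_ifs with e; exacts [c a e, rfl]

variable [Fintype G]

theorem hs_ps (h : Summable μ) (F : G → ℝ) :
    HasSum (fun a => μ a * F (π a)) (Ex (ps π μ) F) := by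
  classical
  have := hasSum_sum fun y (_ : y ∈ (univ : Finset G)) => (sm_ps (π := π) h y).hasSum.mul_right (F y)
  have e : (fun a => μ a * F (π a)) = fun a => ∑ y, (if π a = y then μ a else 0) * F y :=
    funext fun a => by
      rw [sum_eq_single (π a) (fun y _ e => by rw [if_neg e.symm, zero_mul]) (by simp), if_pos rfl]
  rw [e]; exact this

theorem Ex_ps (h : Summable μ) (F : G → ℝ) : Ex (ps π μ) F = ∑' a, μ a * F (π a) :=
  (hs_ps h F).tsum_eq.symm

theorem sum_ps (h : Summable μ) : ∑ y, ps π μ y = ∑' a, μ a := by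
  simpa [Ex] using Ex_ps (π := π) h fun _ => 1

theorem pr_ps (h0 : ∀ a, 0 ≤ μ a) (h : HasSum μ 1) : Pr (ps π μ) :=
  ⟨ps_nonneg h0, by rw [sum_ps h.summable, h.tsum_eq]⟩

/-- pulling back a dominated weight -/
theorem hs_pull (h : Summable μ) {ρ : G → ℝ} (hρ : ∀ y, ps π μ y = 0 → ρ y = 0) (F : G → ℝ) :
    HasSum (fun a => ρ (π a) / ps π μ (π a) * μ a * F (π a)) (Ex ρ F) := by
  convert hs_ps (π := π) h fun y => ρ y / ps π μ y * F y using 1
  · funext a; ring
  · refine sum_congr rfl fun y _ => ?_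
    by_cases e : ps π μ y = 0
    · rw [hρ y e, e]; simp
    · field_simp

end gen

theorem hs_pi {A : Type*} {k : ℕ} {f : Fin k → A → ℝ} {s : Fin k → ℝ} (h0 : ∀ i a, 0 ≤ f i a)
    (h : ∀ i, HasSum (f i) (s i)) : HasSum (fun a : Fin k → A => ∏ i, f i (a i)) (∏ i, s i) := by
  induction k with
  | zero => simp
  | succ k ih =>
    have a := ih (fun i => h0 i.succ) fun i => h i.succ
    have S := summable_mul_of_summable_norm (h 0).summable.norm a.summable.norm
    have b := HasSum.mul (h 0) a S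
    rw [← (Fin.consEquiv fun _ => A).hasSum_iff, Fin.prod_univ_succ]
    have e : ((fun a : Fin (k + 1) → A => ∏ i, f i (a i)) ∘ Fin.consEquiv fun _ => A) =
        fun x : A × (Fin k → A) => f 0 x.1 * ∏ i, f i.succ (x.2 i) := funext fun x => by
      simp [Fin.prod_univ_succ, Fin.consEquiv]
    rw [e]; exact b

theorem ip_ps {A G : Type*} [Fintype G] {π : A → G} {μ : A → ℝ} (h0 : ∀ a, 0 ≤ μ a)
    (h : Summable μ) (k : ℕ) :
    Km.ip (ps π μ) k = ps (fun (a : Fin k → A) i => π (a i)) fun a => ∏ i, μ (a i) := by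
  classical
  funext b
  have := hs_pi (f := fun i a => if π a = b i then μ a else 0)
    (fun i a => by split_ifs; exacts [h0 a, le_rfl]) fun i => (sm_ps h (b i)).hasSum
  refine this.tsum_eq.symm.trans ?_
  unfold ps
  congr 1; funext a
  by_cases e : (fun i => π (a i)) = b
  · rw [if_pos e]; exact prod_congr rfl fun i _ => if_pos (congrFun e i)
  · rw [if_neg e]
    obtain ⟨i, hi⟩ := Function.ne_iff.1 e
    exact prod_eq_zero (mem_univ i) (if_neg hi)

section add
variable {A G : Type*} [AddCommGroup A] [AddCommGroup G] (π : A →+ G) {μ m : A → ℝ}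

theorem sm_sh (h : Summable μ) (v : A) : Summable fun a => μ (a + v) :=
  (Equiv.addRight v).summable_iff.2 h

theorem ps_sh (v : A) (y : G) : ps π μ (y + π v) = ps π (fun a => μ (a + v)) y := by
  classical
  unfold ps
  rw [← (Equiv.addRight v).tsum_eq]
  congr 1; funext a
  have : π (a + v) = y + π v ↔ π a = y := by rw [map_add, add_left_inj]
  change (if π (a + v) = y + π v then μ (a + v) else 0) = _
  by_cases e : π a = y
  · rw [if_pos e, if_pos (this.2 e)]
  · rw [if_neg e, if_neg (mt this.1 e)]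

theorem sm_cv (hm : Summable m) (h : Summable μ) (σ : A → A) :
    Summable fun x : A × A => m x.2 * μ (x.1 + σ x.2) := by
  let e : A × A ≃ A × A := ⟨fun x => (x.2, x.1 + σ x.2), fun x => (x.2 - σ x.1, x.1),
    fun x => by simp, fun x => by simp⟩
  exact e.summable_iff.2 (summable_mul_of_summable_norm hm.norm h.norm)

theorem hs_cv {s t : ℝ} (hm : HasSum m s) (h : HasSum μ t) (σ : A → A) :
    HasSum (fun a => ∑' v, m v * μ (a + σ v)) (s * t) := by
  have S := sm_cv hm.summable h.summable σ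
  have e := S.prod.hasSum
  have c := Summable.tsum_comm (f := fun a v => m v * μ (a + σ v)) S
  have d : ∑' (v : A) (a : A), m v * μ (a + σ v) = s * t := by
    rw [← hm.tsum_eq, ← tsum_mul_right]
    congr 1; funext v
    rw [tsum_mul_left, ← h.tsum_eq, ← (Equiv.addRight (σ v)).tsum_eq μ]
    rfl
  rw [← d, c]; exact e

theorem ps_cv (hm : Summable m) (h : Summable μ) (σ : A → A) (y : G) :
    ps π (fun a => ∑' v, m v * μ (a + σ v)) y = ∑' v, m v * ps π μ (y + π (σ v)) := by
  classical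
  have S : Summable fun x : A × A => if π x.1 = y then m x.2 * μ (x.1 + σ x.2) else 0 :=
    sm_ps (π := fun x : A × A => π x.1) (sm_cv hm h σ) y
  have := Summable.tsum_comm (f := fun a v => if π a = y then m v * μ (a + σ v) else 0) S
  simp only [ps_sh, ← ps_mul]
  unfold ps
  refine Eq.trans ?_ (this.symm.trans ?_)
  · congr 1; funext a; split_ifs <;> simp
  · congr 1

variable [Fintype G]

theorem tv_ps (h : Summable μ) (t : A) : Lo.tv (ps π μ) (π t) ≤ ∑' a, |μ (a + t) - μ a| := by
  rw [← sum_ps (π := π) ((sm_sh h t).sub h).abs]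
  refine sum_le_sum fun y _ => ?_
  rw [ps_sh, ← ps_sub (sm_sh h t) h]
  exact abs_ps ((sm_sh h t).sub h) y

theorem tv_two (h0 : ∀ a, 0 ≤ μ a) (h : HasSum μ 1) (t : A) : |∑' a, (|μ (a + t) - μ a|)| ≤ 2 := by
  rw [abs_of_nonneg (tsum_nonneg fun _ => abs_nonneg _)]
  have a : HasSum (fun a => μ (a + t)) 1 := (Equiv.addRight t).hasSum_iff.2 h
  have := (a.summable.sub h.summable).abs.tsum_le_tsum (g := fun a => μ (a + t) + μ a)
    (fun a => abs_le.2 ⟨by linarith [h0 (a + t)], by linarith [h0 a]⟩) (a.add h).summable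
  rw [(a.add h).tsum_eq] at this
  linarith

theorem Ex_tv (m0 : ∀ a, 0 ≤ m a) (hm : Summable m) (h0 : ∀ a, 0 ≤ μ a) (h : HasSum μ 1) :
    Ex (ps π m) (Lo.tv (ps π μ)) ≤ ∑' t, m t * ∑' a, |μ (a + t) - μ a| := by
  rw [Ex_ps hm]
  exact (hs_ps hm _).summable.tsum_le_tsum
    (fun t => mul_le_mul_of_nonneg_left (tv_ps π h.summable t) (m0 t)) (sm_bd hm (tv_two h0 h))

theorem Ex_cv (hm : Summable m) (h : Summable μ) (y : G) :
    (Ex (ps π m) fun v => ps π μ (y + v)) = ps π (fun a => ∑' v, m v * μ (a + v)) y := by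
  rw [Ex_ps hm, ps_cv π hm h fun v => v]

theorem Ex_cv' (hm : Summable m) (h : Summable μ) (y : G) :
    (Ex (ps π m) fun v => ps π μ (y - v)) = ps π (fun a => ∑' v, m v * μ (a - v)) y := by
  simp only [sub_eq_add_neg]
  rw [Ex_ps hm, ps_cv π hm h fun v => -v]
  simp only [map_neg]

end add

end Crest.Agent.N49.Br

end
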