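import Crest.Agent.N49.Br.L0

/-!
# Row 49 (helper17): the top-word rings are shapes
-/

set_option autoImplicit false
set_option linter.unusedSectionVars false

open Finset Matrix

noncomputable section

namespace Crest.Agent.N49.Br

open Po Tw

variable {ι : Type} [Fintype ι] [LinearOrder ι] {B B' F F' Ω : Finset ι} {u v ω : Pt ι}

theorem mem_bl {i : ι} : i ∈ bl u ↔ u i ≠ none := by simp [bl]
theorem Le.refl (u : Pt ι) : Le u u := fun _ _ => rfl
theorem Le.trans (h : Le u v) (k : Le v ω) : Le u ω := fun i hi =>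
  (h i hi).trans (k i (h i hi ▸ hi))
theorem Le.bl (h : Le u v) : bl u ⊆ bl v := fun i hi =>
  mem_bl.2 (h i (mem_bl.1 hi) ▸ mem_bl.1 hi)
theorem Le.eq (h : Le u ω) (k : Le v ω) (e : Br.bl u = Br.bl v) : u = v := by
  funext i
  by_cases a : u i = none
  · by_contra n
    exact mem_bl.1 (e ▸ mem_bl.2 (fun b => n (a.trans b.symm)) : i ∈ Br.bl u) a
  · rw [h i a, k i (mem_bl.1 (e ▸ mem_bl.2 a))]
theorem rs_le (ω : Pt ι) (F : Finset ι) : Le (rs ω F) ω := fun i hi => by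
  unfold rs at *; split_ifs at * with h
  · rfl
  · exact (hi rfl).elim
theorem bl_rs (h : F ⊆ bl ω) : bl (rs ω F) = F := by
  ext i
  by_cases a : i ∈ F
  · simp [mem_bl, rs, a, mem_bl.1 (h a)]
  · simp [mem_bl, rs, a]
theorem Le.rs (h : Le u ω) (k : Br.bl u ⊆ F) : Le u (rs ω F) := fun i hi => by
  rw [Br.rs, if_pos (k (mem_bl.2 hi)), h i hi]
theorem Le.eq_rs (h : Le u ω) : u = Br.rs ω (Br.bl u) := h.eq (rs_le _ _) (bl_rs h.bl).symm

theorem Fill.refl (B : Finset ι) : Fill B B := ⟨Subset.rfl, fun _ a b => (b a).elim⟩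
theorem Fill.univ (B : Finset ι) : Fill B univ := ⟨subset_univ _, fun _ _ _ _ _ => mem_univ _⟩
theorem Fill.total (h : Fill B F) (k : Fill B F') : F ⊆ F' ∨ F' ⊆ F := by
  by_contra! c
  obtain ⟨a, a1, a2⟩ := not_subset.1 c.1
  obtain ⟨b, b1, b2⟩ := not_subset.1 c.2
  rcases lt_trichotomy a b with e | rfl | e
  · exact a2 (k.2 b b1 (fun n => b2 (h.1 n)) a e)
  · exact a2 b1
  · exact b2 (h.2 a a1 (fun n => a2 (k.1 n)) b e)
theorem Fill.unique (h : Fill B F) (k : Fill B F') (e : #F = #F') : F = F' :=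
  (h.total k).elim (fun s => eq_of_subset_of_card_le s e.ge)
    fun s => (eq_of_subset_of_card_le s e.le).symm
theorem Fill.sub_of_le (h : Fill B F) (k : Fill B F') (e : #F ≤ #F') : F ⊆ F' :=
  (h.total k).elim id fun s => (eq_of_subset_of_card_le s e).ge
theorem exists_fill (B : Finset ι) {k : ℕ} (h1 : #B ≤ k) (h2 : k ≤ Fintype.card ι) :
    ∃ F, Fill B F ∧ #F = k := by
  induction k, h1 using Nat.le_induction with
  | base => exact ⟨B, .refl B, rfl⟩
  | succ k _ ih =>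
    obtain ⟨F, hF, e⟩ := ih (by omega)
    have n : (Fᶜ).Nonempty := by rw [← card_pos, card_compl]; omega
    have m := mem_compl.1 (min'_mem _ n)
    refine ⟨insert (Fᶜ.min' n) F, ⟨hF.1.trans (subset_insert ..), fun a ha hB b hb => ?_⟩,
      by rw [card_insert_of_notMem m, e]⟩
    refine mem_insert_of_mem ?_
    rcases mem_insert.1 ha with rfl | ha
    · by_contra c
      exact hb.not_ge (min'_le _ _ (mem_compl.2 c))
    · exact hF.2 a ha hB b hb
theorem Fill.sub (h : Fill (B ∪ B') Ω) (k : Fill B F) (e : #F + #B' ≤ #Ω) : F ⊆ Ω := by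
  intro a ha
  by_contra n
  have aB : a ∉ B := fun c => n (h.1 (mem_union_left _ c))
  have : Ω ⊆ F.erase a ∪ B' := fun c hc => by
    have ca : c ≠ a := fun e => n (e ▸ hc)
    by_cases c1 : c ∈ B ∪ B'
    · rcases mem_union.1 c1 with c1 | c1
      · exact mem_union_left _ (mem_erase.2 ⟨ca, k.1 c1⟩)
      · exact mem_union_right _ c1
    · refine mem_union_left _ (mem_erase.2 ⟨ca, k.2 a ha aB c ?_⟩)
      exact lt_of_le_of_ne (not_lt.1 fun l => n (h.2 c hc c1 a l)) ca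
  have h1 := (card_le_card this).trans (card_union_le ..)
  have h2 := card_erase_add_one ha
  omega
theorem Fill.trans' (h : Fill B F) (k : Fill (F ∪ B') Ω) : Fill (B ∪ B') Ω :=
  ⟨(union_subset_union_left h.1).trans k.1, fun a ha n b hb => by
    by_cases c : a ∈ F
    · exact k.1 (mem_union_left _ (h.2 a c (fun x => n (mem_union_left _ x)) b hb))
    · exact k.2 a ha (by simp only [mem_union, not_or] at n ⊢; exact ⟨c, n.2⟩) b hb⟩
theorem Fill.grow (h : Fill B Ω) (e : B ⊆ F) (e' : F ⊆ Ω) : Fill F Ω :=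
  ⟨e', fun a ha n => h.2 a ha fun x => n (e x)⟩

variable {s : ℕ} {D : Finset (Pt ι)}

theorem Wd.card (w : Wd s D) : #(bl w.tr) = min w.lv (Fintype.card ι) := w.2
theorem Wd.mem (w : Wd s D) : w.tr ∈ D := w.1.2.2
theorem Wd.lv_pos (w : Wd s D) : 1 ≤ w.lv := Nat.le_add_left ..
theorem Wd.lv_le (w : Wd s D) : w.lv ≤ s := w.1.1.2
theorem Wd.ext' {w w' : Wd s D} (h : w.lv = w'.lv) (k : w.tr = w'.tr) : w = w' :=
  Subtype.ext (Prod.ext (Fin.ext (Nat.succ_injective h)) (Subtype.ext k))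
/-- uniqueness of the filled factor -/
theorem Wd.uniq {w w' : Wd s D} (h : w.lv = w'.lv) (a : Fill B (bl w.tr)) (a' : Fill B (bl w'.tr))
    (b : Le w.tr ω) (b' : Le w'.tr ω) : w = w' :=
  Wd.ext' h (b.eq b' (a.unique a' (by rw [w.card, w'.card, h])))
/-- the word `ω | F` of level `k` -/
theorem exists_wd (hD : Dc D) (hω : ω ∈ D) {k : ℕ} (h1 : 1 ≤ k) (h2 : k ≤ s) (hF : F ⊆ bl ω)
    (e : #F = min k (Fintype.card ι)) : ∃ w : Wd s D, w.lv = k ∧ w.tr = rs ω F :=
  ⟨⟨(⟨k - 1, by omega⟩, ⟨rs ω F, hD ω hω _ (rs_le _ _)⟩), by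
    simp only [bl_rs hF, e]; congr 1; omega⟩, by simp only [Wd.lv]; omega, rfl⟩

/-- the blocks used by a product -/
def bu (m : Wd s D →₀ ℕ) : Finset ι := m.support.biUnion fun w => bl w.tr

theorem bu_add (m m' : Wd s D →₀ ℕ) : bu (m + m') = bu m ∪ bu m' := by
  classical
  rw [bu, Finsupp.support_add_eq_union, union_biUnion]; rfl
theorem bu_single (w : Wd s D) : bu (Finsupp.single w 1) = bl w.tr := by
  simp [bu]
theorem card_bu (m : Wd s D →₀ ℕ) :
    #(bu m) ≤ min (Finsupp.weight Wd.lv m) (Fintype.card ι) := by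
  refine le_min (card_biUnion_le.trans ?_) (card_le_univ _)
  rw [Finsupp.weight_apply, Finsupp.sum]
  refine sum_le_sum fun w hw => (w.card.trans_le (min_le_left ..)).trans ?_
  exact Nat.le_mul_of_pos_left _ (Nat.pos_of_ne_zero (Finsupp.mem_support_iff.1 hw))
theorem weight_pos {m : Wd s D →₀ ℕ} (h : m ≠ 0) : 1 ≤ Finsupp.weight Wd.lv m := by
  obtain ⟨w, hw⟩ := Finsupp.support_nonempty_iff.2 h
  exact w.lv_pos.trans (Finsupp.le_weight_of_ne_zero' _ (Finsupp.mem_support_iff.1 hw))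
theorem forall_add {p : Wd s D → Prop} {m m' : Wd s D →₀ ℕ} :
    (∀ w ∈ (m + m').support, p w) ↔ (∀ w ∈ m.support, p w) ∧ ∀ w ∈ m'.support, p w := by
  classical
  rw [Finsupp.support_add_eq_union, forall_mem_union]

theorem Rr.uniq {w w' : Wd s D} {m : Wd s D →₀ ℕ} (a : Rr w m) (a' : Rr w' m) (b : Le w.tr ω)
    (b' : Le w'.tr ω) : w = w' := Wd.uniq (a.1.symm.trans a'.1) a.2.2 a'.2.2 b b'
theorem rr_single {w w' : Wd s D} : Rr w (Finsupp.single w' 1) ↔ w = w' := by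
  have : Rr w' (Finsupp.single w' 1) := ⟨by simp [Finsupp.weight_single],
    by simp [Le.refl], by
      change Fill (bu _) _; rw [bu_single]; exact .refl _⟩
  refine ⟨fun h => h.uniq this (.refl _) (h.2.1 _ (by simp)), fun e => e ▸ this⟩
theorem rr_add {w w' : Wd s D} {m' : Wd s D →₀ ℕ} : Rr w (Finsupp.single w' 1 + m') ↔
    w'.lv + Finsupp.weight Wd.lv m' = w.lv ∧ (Le w'.tr w.tr ∧ ∀ x ∈ m'.support, Le x.tr w.tr) ∧
      Fill (bl w'.tr ∪ bu m') (bl w.tr) := by
  change _ ∧ _ ∧ Fill (bu _) _ ↔ _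
  rw [forall_add, bu_add, bu_single]
  simp [Finsupp.weight_single]
theorem Rr.mul {w w' : Wd s D} {m m' : Wd s D →₀ ℕ} (a : Rr w' m)
    (b : Rr w (Finsupp.single w' 1 + m')) : Rr w (m + m') := by
  obtain ⟨b1, ⟨b2, b3⟩, b4⟩ := rr_add.1 b
  refine ⟨by rw [map_add, a.1, b1], forall_add.2 ⟨fun x hx => (a.2.1 x hx).trans b2, b3⟩, ?_⟩
  change Fill (bu _) _
  rw [bu_add]; exact a.2.2.trans' b4
/-- the factor of a point or a word -/
theorem exists_rr (hD : Dc D) (hω : ω ∈ D) {m : Wd s D →₀ ℕ} (h0 : m ≠ 0)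
    (h2 : Finsupp.weight Wd.lv m ≤ s) (hm : ∀ x ∈ m.support, Le x.tr ω)
    (hF : ∀ F, Fill (bu m) F → #F = min (Finsupp.weight Wd.lv m) (Fintype.card ι) → F ⊆ bl ω) :
    ∃ w, Rr w m ∧ Le w.tr ω := by
  obtain ⟨F, h, e⟩ := exists_fill (bu m) (card_bu m) (min_le_right ..)
  obtain ⟨w, e1, e2⟩ := exists_wd hD hω (weight_pos h0) h2 (hF F h e) e
  refine ⟨w, ⟨e1.symm, fun x hx => ?_, ?_⟩, e2 ▸ rs_le _ _⟩
  · rw [e2]; exact (hm x hx).rs ((subset_biUnion_of_mem (fun w : Wd s D => bl w.tr) hx).trans h.1)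
  · rw [e2, bl_rs (hF F h e)]; exact h
theorem Rr.split (hD : Dc D) {w : Wd s D} {m m' : Wd s D →₀ ℕ} (h0 : m ≠ 0) (a : Rr w (m + m')) :
    ∃ w', Rr w' m ∧ Rr w (Finsupp.single w' 1 + m') := by
  obtain ⟨a1, a2, a3⟩ := a
  change Fill (bu _) _ at a3
  rw [bu_add] at a3
  rw [map_add] at a1
  have := w.lv_le
  obtain ⟨w', h, k⟩ := exists_rr hD w.mem h0 (by omega) (forall_add.1 a2).1 fun F hF e => by
    have c := w.card
    have c' := card_bu m'
    by_cases t : Fintype.card ι ≤ w.lv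
    · rw [(card_eq_iff_eq_univ _).1 (c.trans (min_eq_right t))]; exact subset_univ _
    · exact a3.sub hF (by omega)
  exact ⟨w', h, rr_add.2 ⟨h.1 ▸ a1, ⟨k, (forall_add.1 a2).2⟩, a3.grow
    (union_subset_union_left h.2.2.1) (union_subset k.bl (subset_union_right.trans a3.1))⟩⟩

theorem sum_two {α : Type} [Fintype α] {P Q : α → Prop} [DecidablePred P] [DecidablePred Q]
    {R : Prop} [Decidable R] (h : R ↔ ∃ a, P a ∧ Q a)
    (u : ∀ a b, P a → Q a → P b → Q b → a = b) :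
    (if R then 1 else 0 : ℤ) = ∑ a, (if P a then 1 else 0) * if Q a then 1 else 0 := by
  by_cases r : R
  · obtain ⟨a, p, q⟩ := h.1 r
    rw [if_pos r, sum_eq_single a, if_pos p, if_pos q, one_mul]
    · intro b _ n
      by_cases p' : P b
      · rw [if_neg fun q' => n (u b a p' q' p q), mul_zero]
      · rw [if_neg p', zero_mul]
    · simp
  · rw [if_neg r, sum_eq_zero]
    intro a _
    by_cases p : P a
    · rw [if_neg fun q => r (h.2 ⟨a, p, q⟩), mul_zero]
    · rw [if_neg p, zero_mul]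

variable {V : ℕ → Pt ι → ℝ}

theorem tw_dg (w : Wd s D) : (tw s D V).dg w = w.lv := by simp [Sh.dg, tw]
theorem tw_dg' : (tw s D V).dg = Wd.lv := funext tw_dg
theorem tw_cd (w : Wd s D) : (tw s D V).cd w = Finsupp.single () w.lv := by simp [Sh.cd, tw]
theorem tw_cd' : (tw s D V).cd = fun w : Wd s D => Finsupp.single () w.lv := funext tw_cd
theorem tw_r {w : Wd s D} {m : Wd s D →₀ ℕ} : (tw s D V).r w m ≠ 0 ↔ Rr w m := by simp [tw]

theorem tw_ok (hD : Dc D) (hV : ∀ j w, 0 < V j w) : (tw s D V).Ok where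
  ne := fun w : Wd s D => Finsupp.single_ne_zero.2 (Nat.succ_ne_zero _)
  one := fun w w' : Wd s D => by
    change (if Rr w (Finsupp.single w' 1) then 1 else 0) = _
    simp only [rr_single]
  gr := fun (w : Wd s D) (m : Wd s D →₀ ℕ) h => by
    rw [tw_cd, ← (tw_r.1 h).1, tw_cd']
    change Finsupp.weight (fun w : Wd s D => Finsupp.single () w.lv) m = _
    rw [Finsupp.weight_apply, Finsupp.weight_apply, Finsupp.sum, Finsupp.sum,
      Finsupp.single_finsetSum]
    exact sum_congr rfl fun x _ => by rw [Finsupp.smul_single]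
  mul := fun (w : Wd s D) (m m' : Wd s D →₀ ℕ) h0 =>
    sum_two (α := Wd s D) (P := fun w' => Rr w' m) (Q := fun w' => Rr w (Finsupp.single w' 1 + m'))
      (R := Rr w (m + m')) ⟨fun a => a.split hD h0, fun ⟨_, a, b⟩ => a.mul b⟩ fun _ _ a b a' b' =>
      a.uniq a' (rr_add.1 b).2.1.1 (rr_add.1 b').2.1.1
  eps := fun w : Wd s D => fun h => by
    rw [tw_dg]; by_contra n; exact h (if_neg fun c => n c.1)
  pd := Matrix.PosDef.diagonal fun _ => hV _ _
  blk := fun w w' : Wd s D => fun h => by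
    by_contra n
    exact h (diagonal_apply_ne _ fun e => n (by rw [e]))

/-- every word is a product of letters -/
theorem exists_letters [Nonempty ι] (hD : Dc D) (w : Wd s D) : ∃ lam : Fin w.lv → Wd s D,
    (∀ i, (lam i).lv = 1 ∧ Le (lam i).tr w.tr) ∧
      ∀ w', Rr w' (∑ i, Finsupp.single (lam i) 1) ↔ w' = w := by
  have c := w.card
  have p := w.lv_pos
  have p' := Fintype.card_pos (α := ι)
  obtain ⟨f⟩ : Nonempty (bl w.tr ↪ Fin w.lv) :=
    Function.Embedding.nonempty_of_card_le (by simp only [Fintype.card_coe, Fintype.card_fin]; omega)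
  have : Nonempty (bl w.tr) := nonempty_coe_sort.2 (card_pos.1 (by omega))
  have hg := Function.invFun_surjective f.injective
  set g := Function.invFun f
  choose lam h1 h2 using fun i => exists_wd (s := s) hD w.mem le_rfl (p.trans w.lv_le)
    (singleton_subset_iff.2 (g i).2) (by rw [card_singleton]; omega)
  have hl : ∀ i, Le (lam i).tr w.tr := fun i => h2 i ▸ rs_le _ _
  have hs : ∀ x, x ∈ (∑ i, Finsupp.single (lam i) 1 : Wd s D →₀ ℕ).support ↔ ∃ i, lam i = x := by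
    intro x
    simp [Finsupp.finsetSum_apply, Finsupp.single_apply]
  have hb : bu (∑ i, Finsupp.single (lam i) 1) = bl w.tr := by
    ext a
    simp only [bu, mem_biUnion, hs]
    refine ⟨fun ⟨x, ⟨i, e⟩, h⟩ => (hl i).bl (e ▸ h), fun h => ?_⟩
    obtain ⟨i, e⟩ := hg ⟨a, h⟩
    refine ⟨_, ⟨i, rfl⟩, ?_⟩
    rw [h2, bl_rs (singleton_subset_iff.2 (g i).2), e]; exact mem_singleton_self _
  have hw : Rr w (∑ i, Finsupp.single (lam i) 1) :=
    ⟨by simp [Finsupp.weight_single, h1], fun x hx => by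
      obtain ⟨i, rfl⟩ := (hs x).1 hx; exact hl i, by change Fill (bu _) _; rw [hb]; exact .refl _⟩
  refine ⟨lam, fun i => ⟨h1 i, hl i⟩, fun w' => ⟨fun h => h.uniq hw (.refl _) fun a ha => ?_,
    fun e => e ▸ hw⟩⟩
  obtain ⟨i, e⟩ := hg ⟨a, mem_bl.2 ha⟩
  have e1 : (lam i).tr a = w.tr a := by rw [h2, rs, e, if_pos (mem_singleton_self _)]
  rw [← e1]
  exact h.2.1 _ ((hs _).2 ⟨i, rfl⟩) a (e1 ▸ ha)

theorem tw_sz [Nonempty ι] (hD : Dc D) {n : ℕ} {a : ℝ} (ha : 0 < a) (hV : ∀ j w, a ≤ V j w)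
    (h1 : 1 ≤ n) (hn : s * #D ≤ n) : (tw s D V).Sz n a where
  toOk := tw_ok hD fun j w => ha.trans_le (hV j w)
  card := (Fintype.card_subtype_le _).trans (by simpa using hn)
  ht := fun (w : Wd s D) (m : Wd s D →₀ ℕ) => by
    change |(if Rr w m then 1 else 0 : ℤ)| ≤ n
    split_ifs <;> simp [h1]
  lo := fun x : Wd s D → ℝ => by
    change a * ∑ w : Wd s D, x w ^ 2 ≤ x ⬝ᵥ diagonal (fun w : Wd s D => V w.lv w.tr) *ᵥ x
    rw [mul_sum]
    refine sum_le_sum fun w _ => ?_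
    rw [mulVec_diagonal, mul_left_comm, ← sq]
    exact mul_le_mul_of_nonneg_right (hV _ _) (sq_nonneg _)
  gen := fun κ _ (w : Wd s D) h => by
    obtain ⟨lam, h2, h3⟩ := exists_letters hD w
    refine ⟨w.1.1.val, lam, (tw_dg w).symm, fun i => (tw_dg _).trans (h2 i).1, id, ?_⟩
    refine (Fintype.sum_eq_single (α := Wd s D) w fun b n => ?_).trans_ne
      (mul_ne_zero h (tw_r.2 ((h3 w).2 rfl)))
    exact mul_eq_zero_of_right _ (by_contra fun c => n ((h3 b).1 (tw_r.1 c)))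

theorem tw_pt [Nonempty ι] (hD : Dc D) (hω : ω ∈ D) (hu : bl ω = univ) (hs : 1 ≤ s) :
    (tw s D V).Pt s (chi V ω) where
  mul := fun (m : Wd s D →₀ ℕ) h0 h => by
    rw [tw_dg'] at h
    refine Eq.trans ?_ (sum_two (α := Wd s D) (P := fun w => Rr w m) (Q := fun w => Le w.tr ω)
      (R := ∀ x ∈ m.support, Le x.tr ω) ⟨fun r => exists_rr hD hω h0 h r
      fun F _ _ => hu ▸ subset_univ F, fun ⟨_, a, b⟩ x hx => (a.2.1 x hx).trans b⟩
      fun _ _ a b a' b' => a.uniq a' b b')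
    split_ifs with r
    · exact prod_eq_one fun x hx => by
        change (if Le x.tr ω then (1 : ℤ) else 0) ^ _ = 1
        rw [if_pos (r x hx), one_pow]
    · push Not at r
      obtain ⟨x, hx, n⟩ := r
      exact prod_eq_zero hx (by
        change (if Le x.tr ω then (1 : ℤ) else 0) ^ _ = 0
        rw [if_neg n]
        exact zero_pow (Finsupp.mem_support_iff.1 hx))
  mass := by
    have p' := Fintype.card_pos (α := ι)
    obtain ⟨F, h, e⟩ := exists_fill (∅ : Finset ι) (k := 1) (by simp) p'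
    obtain ⟨w, e1, e2⟩ := exists_wd hD hω le_rfl hs (hu ▸ subset_univ F) (by omega)
    refine (sum_two (R := True) (P := fun w : Wd s D => w.lv = 1 ∧ Fill ∅ (bl w.tr))
      (Q := fun w => Le w.tr ω) ⟨fun _ => ⟨w, ⟨e1, ?_⟩, e2 ▸ rs_le _ _⟩, fun _ => trivial⟩
      fun _ _ a b a' b' => Wd.uniq (a.1.trans a'.1.symm) a.2 a'.2 b b').symm.trans (if_pos trivial)
    rwa [e2, bl_rs (hu ▸ subset_univ F)]

theorem ring : RING := fun _ _ _ _ _ _ _ hD =>
  ⟨tw_ok hD, fun _ _ ha hV h1 hn => tw_sz hD ha hV h1 hn, fun _ hω hu hs => tw_pt hD hω hu hs⟩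

end Crest.Agent.N49.Br

end
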