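import Crest.Agent.N49.Br.Kmt
import Crest.Agent.N49.Br.Fac
import Crest.Agent.N49.Br.Blk
import Crest.Agent.N49.Br.Kwb
import Crest.Agent.N49.Br.Grd
import Crest.Agent.N49.Wt.Pw
import Crest.Agent.N49.Tw.Mono
import Crest.Agent.N49.Rf.Ext2
import Crest.Agent.N49.Br.Err
import Crest.Agent.N49.Br.Lin

/-!
# Row 49 (helper70): from a grid count to the Kelley–Meka output on popular backgrounds
-/

set_option autoImplicit false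

open Matrix MvPolynomial Finset

noncomputable section

namespace Crest.Agent.N49.Tw.TS

variable {σ τ : Type} {T : TS σ} {st : T.C → ℕ} {M : ℕ}

variable [DecidableEq σ] {S : Sh σ τ} {Ψ : T.Twd S} {C n : ℕ} {a η : ℝ}

theorem Hy.mas (h : T.Hy S st Ψ M C n a η) (m : MAST M C) : (T.tw S Ψ).Mas η :=
  (lw_mas h.stg h.adm h.sz.toOk).1 (m _ _ T S st Ψ n a η h)

theorem RgS.sh_mas (h : T.RgS st M C n a η) (m : MAST M C) (g : T.Stg st M) (h0 : 0 < η)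
    (h1 : η ≤ 1) (s : S.Sz n a) : (T.sh S).Mas η :=
  tw_tw0 (T := T) (S := S) ▸ (h.hy g h0 h1 (g.adm s.toOk) s le_rfl le_rfl).mas m

end Crest.Agent.N49.Tw.TS

namespace Crest.Agent.N49.Br

open Po Tw Wt

/-- the output of the Kelley–Meka step in one fibre -/
def KO {I : Type} [Fintype I] [DecidableEq I] (M : Matrix I I ℝ) (θ : I → ℝ) (g : (I → ℤ) → ℝ)
    (lam : ℝ) (E j : ℕ) (γ : ℝ) : Prop :=
  ∃ (η : Matrix (Fin (wn E)) I ℝ) (S : Set (I → ℤ)) (ρ : (I → ℤ) → ℝ),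
    1 / 2 ^ E ^ 5 ≤ ∑' p, S.indicator (gz (mp M M) θ) p ∧
    (∀ p ∈ S, ∑' w, gz (lam • M) 0 w * g (p + w) ≤ 2 ^ (6 * E ^ 2)) ∧
    (∀ a, 1 / 2 ^ (6 * E ^ 2) ≤ ‖∑' w, (gz (lam • M) 0 w : ℂ) * ee (-(η a ⬝ᵥ zc w))‖ ∨ ∀ p ∈ S,
      1 / 2 ^ (6 * E ^ 2) ≤ ‖∑' w, (gz (lam • M) 0 w : ℂ) * (g (p + w) * ee (-(η a ⬝ᵥ zc w)))‖) ∧
    Pz ρ ∧ (∀ p, ρ p ≤ 2 ^ (4 * E ^ 5) * gz (cw I • mp M M) θ p) ∧
    ∀ x, (∀ a, fr (η a) x ≤ 1 / (2 ^ (8 * E ^ 2) * (Fintype.card I + 2))) →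
      qf (lam • M) (zc x) ≤ 1 / (2 ^ (5 * E) * (Fintype.card I + 2)) →
        (1 - 16 / 2 ^ j) * γ ≤ ∑' p, ρ p * g (p + x)

variable {ι : Type} [Fintype ι] [LinearOrder ι]

/-- the edge function of a point function -/
def Bd.eg (B : Bd ι) (Ω : Finset (Pt ι)) (f : (B.T.C → ℤ) → ℝ) (z : B.Zc) (a : B.I → ℤ) (η : B.Hc) :
    ℝ := ∏ ω ∈ Ω, f (B.pt ω z a η)

theorem Bd.Ok.av_le {B : Bd ι} (h : B.Ok) (hH : h.HID) {G : B.Zc → (B.I → ℤ) → B.Hc → ℝ} {c : ℝ}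
    (hG : ∀ z a η, 0 ≤ G z a η ∧ G z a η ≤ c) (z : B.Zc) (x : B.I → ℤ) :
    0 ≤ h.av G z x ∧ h.av G z x ≤ c * h.av (fun _ _ _ => 1) z x := by
  have p : ∀ e, 0 ≤ h.wH z x e * G z x e := fun e => mul_nonneg (hH.1 _ _ _) (hG _ _ _).1
  have k : ∀ e, h.wH z x e * G z x e ≤ c * (h.wH z x e * 1) := fun e => by
    rw [mul_one, mul_comm]; exact mul_le_mul_of_nonneg_right (hG _ _ _).2 (hH.1 _ _ _)
  have s := ((hH.2.2.1 z x).mul_right 1).mul_left c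
  exact ⟨tsum_nonneg p, ((Summable.of_nonneg_of_le p k s).tsum_le_tsum k s).trans_eq tsum_mul_left⟩

/-- **the first step**: any data, any edge function -/
theorem Bd.Ok.ko' {B : Bd ι} (h : B.Ok) {M C n P Q j E : ℕ}
    {st : B.T.C → ℕ} {a η γ lam : ℝ} (m : MAST M C) (hs : B.T.Stg st M)
    (rg : B.T.RgS st M C n a η) (η0 : 0 < η) (η1 : η ≤ 1 / 2 ^ P ^ 70)
    (hn : B.s * (#B.Z * ((2 * P ^ 7 + 1) * (2 * P ^ 7 + 1))) ≤ n) (n1 : 1 ≤ n)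
    (hv : ∀ l t, a ≤ B.vz l t ∧ a ≤ B.vh l t ∧ a * (2 * lam) ≤ B.v l t) (e : E = P ^ 68)
    (hj : 5 ≤ j) (hQ : 2 ^ j ≤ Q) (hP : Q ≤ P)
    (hl : 2 ^ (16 * E) * ((Fintype.card B.I : ℝ) + 2) ^ 7 ≤ lam)
    {G : B.Zc → (B.I → ℤ) → B.Hc → ℝ} (hG : ∀ z a η, 0 ≤ G z a η ∧ G z a η ≤ 2 ^ P)
    (γ1 : 1 / 2 ^ P ≤ γ) (γ2 : γ ≤ 2 ^ P) (hX : 8 * γ ^ (Q * Q) ≤
      (B.T.sh (B.S (univ : Finset (Fin Q × Fin Q)) 1 1)).E (h.PG univ 1 1 G)) :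
    ∃ W : Set B.Zc, 1 / 2 ^ (4 * P ^ 3 + 10) ≤ ∑' z, W.indicator h.rho z ∧
      ∀ z ∈ W, th ((2 : ℝ) • lam • h.M z)⁻¹ 0 ≤ 11 / 10 ∧
        KO (h.M z) (h.ce z) (h.av G z) lam E j γ := by
  have hL := lin h h.err
  have hH := hid h
  have a0 := rg.pos
  have l1 : 1 ≤ lam := le_trans (one_le_mul_of_one_le_of_one_le (one_le_pow₀ one_le_two)
    (one_le_pow₀ (by linarith [Nat.cast_nonneg (α := ℝ) (Fintype.card B.I)]))) hl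
  have Q2 : 2 ≤ Q := le_trans (Nat.le_self_pow (by omega) 2) hQ
  obtain ⟨W, hW, k⟩ := kmt h (fac blk fub h (kwb h) h.err hL hH) hL hH G P Q γ η lam Q2 hP l1 hG γ1 γ2 η1
    (fun k hk l hl' Γ c c' c1 c2 c3 c4 => rg.sh_mas m hs η0
      (η1.trans (div_le_one_of_le₀ (one_le_pow₀ one_le_two) (by positivity)))
      (szb ι B h k l Γ c c' a n a0 (by linarith) (by linarith) n1 (le_trans (by gcongr) hn)
        fun l t => ⟨(hv l t).1, (hv l t).2.1, le_trans (by gcongr; linarith) (hv l t).2.2,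
          le_trans (by gcongr) (hv l t).2.2⟩)) hX
  obtain ⟨b, hb⟩ := hH.2.2.2
  refine ⟨W, hW, fun z hz => ⟨(k z hz).sm, ?_⟩⟩
  have p := (hL z).1
  have := kmp B.I _ _ _ _ _ _ _ P j Q E γ b e hj hQ hP p p (p.smul (by linarith)) (fun _ => le_rfl)
    (fun x => by rw [qf_smul]; exact mul_le_mul_of_nonneg_right hl (qf_nonneg p x))
    (fun x => (h.av_le hH hG z x).1) (fun x => (h.av_le hH hG z x).2)
    (fun x => (h.av_le hH (c := 1) (fun _ _ _ => ⟨zero_le_one, le_rfl⟩) z x).1)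
    (fun x => by simpa only [Bd.Ok.av, mul_one] using hb z x) γ1 γ2 (k z hz)
  rwa [add_zero] at this

theorem Bd.Ok.ko {B : Bd ι} (h : B.Ok) {M C n P Q j E : ℕ}
    {st : B.T.C → ℕ} {a η γ lam : ℝ} (m : MAST M C) (hs : B.T.Stg st M)
    (rg : B.T.RgS st M C n a η) (η0 : 0 < η) (η1 : η ≤ 1 / 2 ^ P ^ 70)
    (hn : B.s * (#B.Z * ((2 * P ^ 7 + 1) * (2 * P ^ 7 + 1))) ≤ n) (n1 : 1 ≤ n)
    (hv : ∀ l t, a ≤ B.vz l t ∧ a ≤ B.vh l t ∧ a * (2 * lam) ≤ B.v l t) (e : E = P ^ 68)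
    (hj : 5 ≤ j) (hQ : 2 ^ j ≤ Q) (hP : Q ≤ P)
    (hl : 2 ^ (16 * E) * ((Fintype.card B.I : ℝ) + 2) ^ 7 ≤ lam)
    {G : B.Zc → (B.I → ℤ) → B.Hc → ℝ} (hG : ∀ z a η, 0 ≤ G z a η ∧ G z a η ≤ 2 ^ P)
    (γ1 : 1 / 2 ^ P ≤ γ) (γ2 : γ ≤ 2 ^ P) (hX : 8 * γ ^ (Q * Q) ≤
      (B.T.sh (B.S (univ : Finset (Fin Q × Fin Q)) 1 1)).E (h.PG univ 1 1 G)) :
    ∃ W : Set B.Zc, 1 / 2 ^ (4 * P ^ 3 + 10) ≤ ∑' z, W.indicator h.rho z ∧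
      ∀ z ∈ W, KO (h.M z) (h.ce z) (h.av G z) lam E j γ :=
  let ⟨W, a, b⟩ := h.ko' m hs rg η0 η1 hn n1 hv e hj hQ hP hl hG γ1 γ2 hX
  ⟨W, a, fun z hz => (b z hz).2⟩

theorem Bd.card_I (B : Bd ι) :
    Fintype.card B.I ≤ Fintype.card B.T.C * (B.s * (#B.Z * 4)) := by
  refine (Fintype.card_subtype_le _).trans ((Fintype.card_subtype_le _).trans ?_)
  rw [Fintype.card_prod]
  refine Nat.mul_le_mul_left _ ((Fintype.card_subtype_le _).trans ?_)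
  rw [Fintype.card_prod, Fintype.card_fin, Fintype.card_coe]
  refine Nat.mul_le_mul_left _ (card_image_le.trans ?_)
  rw [card_product, mul_comm]
  exact Nat.mul_le_mul_left _ (by simp)

/-- **the first step on a grid** -/
theorem s1' {x y : ι} {q : ι → ℕ}
    {s M C n P Q j E : ℕ} {T : TS Unit} {st : T.C → ℕ} {v : ℕ → Finset ι → ℝ} {a η γ lam b : ℝ}
    {f : (T.C → ℤ) → ℝ} (m : MAST M C) (xy : XY x y) (hs : T.Stg st M) (rg : T.RgS st M C n a η)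
    (η0 : 0 < η) (η1 : η ≤ 1 / 2 ^ P ^ 70) (hx : q x = Q) (hy : q y = Q)
    (sy : ∀ j A, x ∉ A → y ∉ A → v j (insert y A) = v j (insert x A))
    (hn : s * (#(zq x y q) * ((2 * P ^ 7 + 1) * (2 * P ^ 7 + 1))) ≤ n) (n1 : 1 ≤ n)
    (hv : ∀ l A, a * (2 * lam) ≤ v l A) (e : E = P ^ 68) (hj : 5 ≤ j) (hQ : 2 ^ j ≤ Q) (hP : Q ≤ P)
    (hl : 2 ^ (16 * E) * ((Fintype.card (gB x y q s T v).I : ℝ) + 2) ^ 7 ≤ lam)
    (hf : ∀ y, 0 ≤ f y ∧ f y ≤ b) (hb : b ^ #(zp x y q) ≤ 2 ^ P) (γ1 : 1 / 2 ^ P ≤ γ)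
    (γ2 : γ ≤ 2 ^ P) (hX : 8 * γ ^ (Q * Q) ≤ Top.GS T s q v f) :
    ∃ (h : (gB x y q s T v).Ok) (W : Set (gB x y q s T v).Zc),
      1 / 2 ^ (4 * P ^ 3 + 10) ≤ ∑' z, W.indicator h.rho z ∧ ∀ z ∈ W,
        th ((2 : ℝ) • lam • h.M z)⁻¹ 0 ≤ 11 / 10 ∧
        KO (h.M z) (h.ce z) (h.av ((gB x y q s T v).eg (zp x y q) f) z) lam E j γ := by
  have a0 := rg.pos
  have l1 : 1 ≤ lam := le_trans (one_le_mul_of_one_le_of_one_le (one_le_pow₀ one_le_two)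
    (one_le_pow₀ (by linarith [Nat.cast_nonneg (α := ℝ) (Fintype.card (gB x y q s T v).I)]))) hl
  have av : ∀ l A, a ≤ v l A := fun l A => le_trans (by nlinarith) (hv l A)
  obtain ⟨h, k⟩ := grd ι x y q s Q T v xy hs.cl (fun l A => a0.trans_le (av l A)) sy hx hy
  refine ⟨h, h.ko' m hs rg η0 η1 hn n1 (fun l t => ⟨av _ _, av _ _, hv _ _⟩) e hj hQ hP hl
    (fun z a η => ⟨prod_nonneg fun _ _ => (hf _).1, le_trans ?_ hb⟩) γ1 γ2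
    (hX.trans_eq (k (pts_ h) f))⟩
  rw [← prod_const]
  exact prod_le_prod (fun _ _ => (hf _).1) fun _ _ => (hf _).2

theorem s1 {x y : ι} {q : ι → ℕ}
    {s M C n P Q j E : ℕ} {T : TS Unit} {st : T.C → ℕ} {v : ℕ → Finset ι → ℝ} {a η γ lam b : ℝ}
    {f : (T.C → ℤ) → ℝ} (m : MAST M C) (xy : XY x y) (hs : T.Stg st M) (rg : T.RgS st M C n a η)
    (η0 : 0 < η) (η1 : η ≤ 1 / 2 ^ P ^ 70) (hx : q x = Q) (hy : q y = Q)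
    (sy : ∀ j A, x ∉ A → y ∉ A → v j (insert y A) = v j (insert x A))
    (hn : s * (#(zq x y q) * ((2 * P ^ 7 + 1) * (2 * P ^ 7 + 1))) ≤ n) (n1 : 1 ≤ n)
    (hv : ∀ l A, a * (2 * lam) ≤ v l A) (e : E = P ^ 68) (hj : 5 ≤ j) (hQ : 2 ^ j ≤ Q) (hP : Q ≤ P)
    (hl : 2 ^ (16 * E) * ((Fintype.card (gB x y q s T v).I : ℝ) + 2) ^ 7 ≤ lam)
    (hf : ∀ y, 0 ≤ f y ∧ f y ≤ b) (hb : b ^ #(zp x y q) ≤ 2 ^ P) (γ1 : 1 / 2 ^ P ≤ γ)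
    (γ2 : γ ≤ 2 ^ P) (hX : 8 * γ ^ (Q * Q) ≤ Top.GS T s q v f) :
    ∃ (h : (gB x y q s T v).Ok) (W : Set (gB x y q s T v).Zc),
      1 / 2 ^ (4 * P ^ 3 + 10) ≤ ∑' z, W.indicator h.rho z ∧ ∀ z ∈ W,
        KO (h.M z) (h.ce z) (h.av ((gB x y q s T v).eg (zp x y q) f) z) lam E j γ :=
  let ⟨h, W, a, b⟩ := s1' m xy hs rg η0 η1 hx hy sy hn n1 hv e hj hQ hP hl hf hb γ1 γ2 hX
  ⟨h, W, a, fun z hz => (b z hz).2⟩

end Crest.Agent.N49.Br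

end
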