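import Crest.Agent.N49.Br.S1
import Crest.Agent.N49.Top.Zst
import Crest.Agent.N49.Un.Rgd

/-!
# Row 49 (helper70): the first step from a grid state
-/

set_option autoImplicit false

open Matrix Finset

noncomputable section

namespace Crest.Agent.N49.Br

open Po Tw Top

/-- the data of a state with `Q` clones in each block -/
abbrev gS (s : ℕ) {d : ℕ} (g : Gs (d + 1)) (Q : ℕ) : Bd (Fin (d + 2)) :=
  gB 0 1 (fun _ => Q) s g.V.T g.v

/-- **the first step from a state**: `Q = X ^ (⌊ε⁻¹⌋ + j)`, `P = X ^ e`, `lam = 2 ^ P ^ 74` -/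
def S1P : Prop := ∀ (s d : ℕ) (ε : ℝ), 1 ≤ s → 0 < ε → ∃ j0, ∀ j ≥ j0, ∃ e0, ∀ e ≥ e0, ∃ b0, ∀ b ≥ b0,
  ∀ (N m : ℕ) (A : Finset ℕ) (α : ℝ) (g : Gs (d + 1)) (Q P : ℕ), 2 ≤ m → 1 / 2 ^ m ≤ α →
    g.P s (d + 1) N m A α ε b → Q = Xs s m g.c ^ (⌊ε⁻¹⌋₊ + j) → P = Xs s m g.c ^ e →
    ∃ (h : (gS s g Q).Ok) (W : Set (gS s g Q).Zc) (γ : ℝ),
      (1 + min ε 1 / 2) ^ Q ^ d ≤ (1 - 16 / 2 ^ j) * γ ∧ γ ≤ 2 ^ Q ^ d ∧
      1 / 2 ^ (4 * P ^ 3 + 10) ≤ ∑' z, W.indicator h.rho z ∧ ∀ z ∈ W,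
        th ((2 : ℝ) • (2 : ℝ) ^ P ^ 74 • h.M z)⁻¹ 0 ≤ 11 / 10 ∧ KO (h.M z) (h.ce z)
        (h.av ((gS s g Q).eg (zp 0 1 fun _ => Q) (fA g.V A α)) z) (2 ^ P ^ 74) (P ^ 68) j γ

theorem xy01 (d : ℕ) : XY (0 : Fin (d + 2)) 1 :=
  ⟨zero_ne_one, Fin.zero_le, fun _ h => Fin.one_le_of_ne_zero h⟩

theorem ss_ne {d : ℕ} (i : Fin d) : i.succ.succ ≠ 1 := fun e => by
  have := congrArg Fin.val e
  simp at this

theorem card_zq (d Q : ℕ) : #(zq (0 : Fin (d + 2)) 1 fun _ => Q) = (Q + 1) ^ d := by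
  simp [zq, Top.card_grid, Fin.prod_univ_succ, Fin.succ_ne_zero, ss_ne]

theorem card_zp (d Q : ℕ) : #(zp (0 : Fin (d + 2)) 1 fun _ => Q) ≤ Q ^ d := by
  refine (card_le_card (t := Fintype.piFinset fun i : Fin (d + 2) => if i = 0 ∨ i = 1 then {none}
    else (range Q).image some) fun t ht => Fintype.mem_piFinset.2 fun i => ?_).trans_eq ?_
  · simp only [zp, mem_filter] at ht
    obtain ⟨a, b⟩ := ht
    obtain ⟨a0, a1, a2⟩ := Gr.mem_zq.1 a
    split_ifs with k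
    · rcases k with rfl | rfl <;> simpa
    · obtain ⟨c, e⟩ := Option.ne_none_iff_exists'.1 (b i (not_or.1 k).1 (not_or.1 k).2)
      exact mem_image.2 ⟨c, mem_range.2 (a2 i c e), e.symm⟩
  · simp [Fin.prod_univ_succ, Fin.succ_ne_zero, ss_ne,
      card_image_of_injective _ (Option.some_injective ℕ)]

theorem card_le_Xs {s N m : ℕ} {V : Ctr} {c : ℕ → ℕ} (h : Cs0 s N V c) (hs : 1 ≤ s) (hm : 1 ≤ m) :
    Fintype.card V.T.C ≤ 2 ^ Xs s m c := by
  have a : Fintype.card V.T.C = V.Rc s 1 := card_eq_sum_card_fiberwise fun F _ =>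
    mem_coe.2 (mem_Icc.2 ⟨h.ok.1.lev_pos F, h.ok.2.1 F⟩)
  refine (a.trans_le (h.R 1 (mem_Icc.2 ⟨le_rfl, hs⟩))).trans ((single_le_sum (f := c)
    (fun _ _ => Nat.zero_le _) (mem_range.2 (by omega : s - 1 < 2 * s + 1))).trans
    ((Nat.lt_pow_succ_log_self one_lt_two _).le.trans (Nat.pow_le_pow_right two_pos ?_)))
  unfold Xs tot; omega

theorem gam {ε t η : ℝ} {d K L : ℕ} (e0 : 0 < ε) (e1 : ε ≤ 1) (t0 : 0 < t)
    (ht : (16 * d + 128) * t ≤ ε) (η0 : 0 < η) (η1 : η ≤ t) (hK : 1 ≤ K) (hL : 1 ≤ t * L) {x : ℝ}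
    (hx : x = (1 + ε) * (1 - 2 * η) ^ (2 * (d + 2))) :
    (1 + ε / 2) ^ K ≤ (1 - 16 * t) * ((1 - 8 * t) * x ^ K) ∧ (1 - 8 * t) * x ^ K ≤ 2 ^ K ∧
      1 ≤ (1 - 8 * t) * x ^ K ∧ 8 * ((1 - 8 * t) * x ^ K) ^ L ≤ x ^ (K * L) := by
  have d0 : (0 : ℝ) ≤ d * t := by positivity
  have t1 : t ≤ 1 / 128 := by nlinarith
  have a := one_add_mul_le_pow (show -2 ≤ -(2 * η) by linarith) (2 * (d + 2))
  have b : (1 - 2 * η) ^ (2 * (d + 2)) ≤ 1 := pow_le_one₀ (by linarith) (by linarith)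
  push_cast at a
  rw [← sub_eq_add_neg 1 (2 * η)] at a
  have c : 1 - 4 * (d + 2) * t ≤ (1 - 2 * η) ^ (2 * (d + 2)) := by nlinarith
  have x2 : x ≤ 2 := by nlinarith
  have x1 : (1 + ε) * (1 - 4 * (d + 2) * t) ≤ x := hx ▸ mul_le_mul_of_nonneg_left c (by linarith)
  have x0 : 0 ≤ x := le_trans (by nlinarith) x1
  have u0 : 0 ≤ (1 - 16 * t) * (1 - 8 * t) := mul_nonneg (by linarith) (by linarith)
  have u1 : (1 - 16 * t) * (1 - 8 * t) ≤ 1 := by nlinarith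
  have k : 1 + ε / 2 ≤ (1 - 16 * t) * (1 - 8 * t) * x := by
    have : (1 - 24 * t) * x ≤ (1 - 16 * t) * (1 - 8 * t) * x := by gcongr; nlinarith
    nlinarith
  have p : (1 + ε / 2) ^ K ≤ (1 - 16 * t) * ((1 - 8 * t) * x ^ K) := by
    refine (pow_le_pow_left₀ (by linarith) k K).trans ?_
    rw [mul_pow, ← mul_assoc]
    exact mul_le_mul_of_nonneg_right (pow_le_of_le_one u0 u1 (by omega)) (by positivity)
  have q : 0 ≤ (1 - 8 * t) * x ^ K := mul_nonneg (by linarith) (by positivity)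
  refine ⟨p, (mul_le_of_le_one_left (by positivity) (by linarith)).trans
    (pow_le_pow_left₀ x0 x2 K), (one_le_pow₀ (by linarith)).trans (p.trans
      (mul_le_of_le_one_left q (by linarith))), ?_⟩
  rw [mul_pow, ← pow_mul, ← mul_assoc]
  refine mul_le_of_le_one_left (by positivity) ?_
  have r := one_add_mul_le_pow (show -2 ≤ 8 * t by linarith) L
  have w : (1 + 8 * t) ^ L * (1 - 8 * t) ^ L ≤ 1 := by
    rw [← mul_pow]; exact pow_le_one₀ (by nlinarith) (by nlinarith)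
  nlinarith [pow_nonneg (show 0 ≤ 1 - 8 * t by linarith) L]

theorem s1p (hm : ∀ M, ∃ C, MAST M C) : S1P := by
  intro s d ε hs h0
  obtain ⟨C, hC⟩ := unif_C hm (fun _ _ _ => MAST.mono) ⌊ε⁻¹⌋₊
  set E := ⌊ε⁻¹⌋₊
  have e0 : 0 < min ε 1 := lt_min h0 one_pos
  obtain ⟨j0, hj0⟩ := pow_unbounded_of_one_lt ((16 * d + 128) / min ε 1) one_lt_two
  refine ⟨j0 + 5, fun j hj => ⟨s + 3 + (E + j + 1) * (d + 2), fun e he =>
    ⟨(15 * e + 5) * C + 74 * e + 2, fun b hb N m A α g Q P m2 hα p hQ hP => ?_⟩⟩⟩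
  have X2 : 2 ≤ Xs s m g.c := m2.trans (le_Xs _)
  have mX : m ≤ Xs s m g.c := le_Xs _
  have cX := card_le_Xs p.cs hs (show 1 ≤ m by omega)
  set X := Xs s m g.c
  have pw : ∀ {a b}, a ≤ b → X ^ a ≤ X ^ b := fun h => Nat.pow_le_pow_right (by omega) h
  have jQ : 2 ^ j ≤ Q := hQ ▸ (Nat.pow_le_pow_left X2 j).trans (pw (by omega))
  have Q1 : 1 ≤ Q := Nat.one_le_two_pow.trans jQ
  have Qx : Q + 1 ≤ X ^ (E + j + 1) := by rw [pow_succ, ← hQ]; nlinarith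
  have sx : 4 * s + 1 ≤ X ^ (s + 3) := by
    have := (Nat.lt_two_pow_self (n := s)).trans_le (Nat.pow_le_pow_left X2 s)
    have := Nat.pow_le_pow_left X2 3
    rw [pow_add]; nlinarith
  have G1 : 1 ≤ (Q + 1) ^ (d + 2) := Nat.one_le_pow _ _ (by omega)
  have GP : (4 * s + 1) * (Q + 1) ^ (d + 2) ≤ P := by
    rw [hP]
    refine le_trans (Nat.mul_le_mul sx (Nat.pow_le_pow_left Qx _)) ?_
    rw [← pow_mul, ← pow_add]; exact pw he
  have Gd : (Q + 1) ^ d ≤ (Q + 1) ^ (d + 2) := Nat.pow_le_pow_right (by omega) (by omega)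
  have sG : s * ((Q + 1) ^ d * 4) ≤ P ∧ s * (Q + 1) ^ d ≤ P := by
    constructor <;> nlinarith [Nat.mul_le_mul_left s Gd]
  have XQ : X ≤ Q := hQ ▸ Nat.le_self_pow (by omega) X
  have mQ : Q * Q ^ d ≤ P := le_trans (by
    rw [← pow_succ']
    exact ((Nat.pow_le_pow_left (Nat.le_succ Q) _).trans (Nat.pow_le_pow_right (by omega)
      (by omega))).trans (Nat.le_mul_of_pos_left _ (by omega))) GP
  have K1 : 1 ≤ Q ^ d := Nat.one_le_pow _ _ Q1
  have QP : Q ≤ P := le_trans (Nat.le_mul_of_pos_right _ K1) mQ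
  have P2 : 2 ≤ P := X2.trans (XQ.trans QP)
  have pP : ∀ {a b}, a ≤ b → P ^ a ≤ P ^ b := fun h => Nat.pow_le_pow_right (by omega) h
  have P1 : ∀ {a}, a ≠ 0 → P ≤ P ^ a := fun h => Nat.le_self_pow h P
  set n := P * ((2 * P ^ 7 + 1) * (2 * P ^ 7 + 1)) with hn
  have Pn : P ≤ n := Nat.le_mul_of_pos_right _ (by positivity)
  have nx : n + 1 ≤ X ^ (15 * e + 5) := by
    have a := Nat.pow_le_pow_left X2 5
    have b := P1 (a := 7) (by norm_num)
    have c : n ≤ P * (3 * P ^ 7 * (3 * P ^ 7)) := by rw [hn]; gcongr <;> omega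
    have d : P ^ 15 = P * (P ^ 7 * P ^ 7) := by ring
    have f := P1 (a := 15) (by norm_num)
    rw [pow_add, mul_comm 15, pow_mul, ← hP]; nlinarith
  have η1 : (1 / 2 ^ P ^ 70 : ℝ) ≤ 1 / 2 ^ j := one_div_le_one_div_of_le (by positivity)
    (pow_le_pow_right₀ one_le_two ((Nat.lt_two_pow_self.le.trans (jQ.trans QP)).trans
      (P1 (by norm_num))))
  have rg := rg_of (C := C) (a := 1 / 2 ^ X ^ (74 * e + 2)) (η := 1 / 2 ^ P ^ 70) p.rg p.stg
    (by omega) nx (by omega) (ex_le (by omega) (by omega))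
    (by rw [hP, ← pow_mul]; exact ex_le (by omega) (by omega))
  have ht : (16 * d + 128) * (1 / 2 ^ j : ℝ) ≤ min ε 1 := by
    rw [mul_one_div, div_le_comm₀ (by positivity) e0]
    exact hj0.le.trans (pow_le_pow_right₀ one_le_two (by omega))
  have hv : ∀ l B, (1 / 2 ^ X ^ (74 * e + 2) : ℝ) * (2 * 2 ^ P ^ 74) ≤ g.v l B := fun l B => by
    refine le_trans ?_ (p.lo l B)
    rw [one_div_mul_eq_div, div_le_div_iff₀ (by positivity) (by positivity), one_mul, ← pow_succ',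
      ← pow_add]
    refine pow_le_pow_right₀ one_le_two ?_
    have a : X ^ E ≤ P ^ 74 := ((hQ ▸ pw (by omega) : X ^ E ≤ Q).trans QP).trans (P1 (by norm_num))
    have b := Nat.pow_le_pow_left X2 2
    have c := P1 (a := 74) (by norm_num)
    rw [pow_add, mul_comm 74, pow_mul, ← hP]; nlinarith
  have a0 : 0 < α := lt_of_lt_of_le (by positivity) hα
  have t4 : (1 / 2 ^ j : ℝ) ≤ 1 / 4 := by
    nlinarith [min_le_right ε 1, (by positivity : (0 : ℝ) ≤ d * (1 / 2 ^ j))]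
  have R := Un.rgd g.M C (hC _ p.hM) (Fin (d + 2)) s n (fun _ => g.Q) (fun _ => Q) g.v g.V.T g.st _ _
    (1 + min ε 1) (fA g.V A α) p.stg rg (by positivity) (η1.trans t4) (by omega)
    (by rw [Top.card_grid, prod_const, card_univ, Fintype.card_fin]; nlinarith)
    (fun l B => le_trans (le_mul_of_one_le_right (by positivity)
      (by linarith [one_le_pow₀ (n := P ^ 74) (one_le_two (α := ℝ))])) (hv l B))
    (fun _ => ⟨p.Q1, hQ ▸ p.hQ.trans (pw (by omega))⟩) (fA_nonneg a0.le) fA_bb (by positivity)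
    (le_trans (by
      rw [prod_const, card_univ, Fintype.card_fin]
      exact pow_le_pow_left₀ (by positivity) (by linarith [min_le_left ε 1]) _) p.ex)
  rw [prod_const, card_univ, Fintype.card_fin] at R
  obtain ⟨g1, g2, g3, g4⟩ := gam (K := Q ^ d) (L := Q * Q) e0 (min_le_right _ _) (by positivity) ht
    (by positivity) η1 K1 (by
      rw [one_div_mul_eq_div, one_le_div (by positivity)]
      exact_mod_cast jQ.trans (Nat.le_mul_self Q)) rfl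
  have hl : (2 : ℝ) ^ (16 * P ^ 68) * (Fintype.card (gS s g Q).I + 2) ^ 7 ≤ 2 ^ P ^ 74 := by
    have a := (gS s g Q).card_I
    change _ ≤ Fintype.card g.V.T.C * (s * (#(zq (0 : Fin (d + 2)) 1 fun _ => Q) * 4)) at a
    rw [card_zq] at a
    have b : 2 ^ X ≤ 2 ^ P := Nat.pow_le_pow_right two_pos (XQ.trans QP)
    have c : P < 2 ^ P := Nat.lt_two_pow_self
    have f : Fintype.card (gS s g Q).I + 2 ≤ 2 ^ (3 * P) := by
      have := a.trans (Nat.mul_le_mul (cX.trans b) sG.1)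
      rw [mul_comm, pow_mul]; nlinarith [Nat.mul_le_mul c.le c.le, Nat.mul_le_mul P2 c.le]
    have i : 16 * P ^ 68 + 3 * P * 7 ≤ P ^ 74 := by
      have := Nat.pow_le_pow_left P2 6
      have := P1 (a := 68) (by norm_num)
      rw [show P ^ 74 = P ^ 6 * P ^ 68 by ring]; nlinarith
    have := (Nat.mul_le_mul_left (2 ^ (16 * P ^ 68)) (Nat.pow_le_pow_left f 7)).trans
      ((by rw [← pow_mul, ← pow_add] : _ = _).trans_le (Nat.pow_le_pow_right two_pos i))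
    exact_mod_cast this
  have hz : ((2 : ℝ) ^ m) ^ #(zp (0 : Fin (d + 2)) 1 fun _ => Q) ≤ 2 ^ P := by
    rw [← pow_mul]
    exact pow_le_pow_right₀ one_le_two ((Nat.mul_le_mul (mX.trans XQ) (card_zp d Q)).trans mQ)
  obtain ⟨h, W, w1, w2⟩ := s1' (lam := 2 ^ P ^ 74) (j := j) (b := 2 ^ m) (f := fA g.V A α)
    (hC _ p.hM) (xy01 d) p.stg rg (by positivity) le_rfl rfl rfl (fun _ _ _ _ => p.sy _ _ _)
    (by rw [card_zq, ← mul_assoc]; exact Nat.mul_le_mul_right _ sG.2) (by omega) hv rfl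
    (by omega) jQ QP hl (fun y => ⟨fA_nonneg a0.le y, fA_le hα y⟩) hz
    (le_trans (div_le_one_of_le₀ (one_le_pow₀ one_le_two) (by positivity)) g3)
    (g2.trans (pow_le_pow_right₀ one_le_two (le_trans (Nat.le_mul_of_pos_left _ Q1) mQ)))
    (g4.trans (le_of_eq_of_le (by rw [← sq, ← pow_add]) R))
  exact ⟨h, W, _, by simpa only [mul_one_div] using g1, g2, w1, w2⟩

end Crest.Agent.N49.Br

end
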