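import Crest.Agent.N49.Br.Twh
import Crest.Agent.N49.Br.S1p
import Crest.Agent.N49.Md.Defs

/-!
# Row 49 (helper74): the base of the inner loops of a grid state
-/

set_option autoImplicit false
set_option linter.unusedSectionVars false

open Matrix Finset

noncomputable section

namespace Crest.Agent.N49.Br

open Po Tw Sy Rm Crest.Agent.N49.Top

/-- the letters: `x` and `Q` clones in each of the `d` other blocks -/
abbrev Gt (d Q : ℕ) : Type := Option (Fin d × Fin Q)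

variable {d Q s : ℕ}

/-- their blocks -/
def gk (a : Gt d Q) : Fin (d + 1) := a.elim 0 fun t => t.1.succ
/-- their places in the grid -/
def gl (a : Gt d Q) : Fin (d + 2) × ℕ := ((gk a).succ, a.elim 0 fun t => t.2)
variable (d Q) in
/-- the words -/
def gW : Finset (Finset (Gt d Q)) := {A | ∀ a ∈ A, ∀ b ∈ A, gk a = gk b → a = b}
/-- the inverse widths -/
def gla (ρ c : ℝ) (l : Fin (d + 1)) : ℝ := √((if l = 0 then c else 1) / ρ)

theorem mem_gW {A : Finset (Gt d Q)} : A ∈ gW d Q ↔ ∀ a ∈ A, ∀ b ∈ A, gk a = gk b → a = b := by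
  simp only [gW, mem_filter, mem_univ, true_and]

theorem gk_eq (a : Gt d Q) : gk a = 0 ↔ a = none := by
  cases a <;> simp [gk, Fin.succ_ne_zero]

theorem gl_none : gl (none : Gt d Q) = (1, 0) := rfl

theorem gl_inj : Function.Injective (gl : Gt d Q → _) := by
  rintro (_ | ⟨i, a⟩) (_ | ⟨j, b⟩) e <;>
    simp only [gl, gk, Option.elim, Prod.mk.injEq, Fin.succ_inj] at e
  · rfl
  · exact (Fin.succ_ne_zero _ e.1.symm).elim
  · exact (Fin.succ_ne_zero _ e.1).elim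
  · rw [e.1, Fin.ext e.2]

theorem card_Gt : Fintype.card (Gt d Q) = d * Q + 1 := by simp

theorem gW_wf (hd : d < s) : Md.Wf s (gW d Q) gk := by
  refine ⟨fun B h A k => mem_gW.2 fun a p b q => mem_gW.1 h a (k p) b (k q),
    fun B h a p b q => mem_gW.1 h a p b q, fun B h => ?_⟩
  have := card_le_card_of_injOn (s := B) (t := univ) gk (fun _ _ => mem_coe.2 (mem_univ _))
    fun a p b q => mem_gW.1 h a p b q
  rw [card_univ, Fintype.card_fin] at this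
  omega

variable {T : TS Unit} {v : ℕ → Finset (Fin (d + 2)) → ℝ}

theorem mem_gD (h : (gB 0 1 (fun _ => Q) s T v).Ok) {w : Pt (Fin (d + 2))} :
    w ∈ (gB 0 1 (fun _ => Q) s T v).D G0 ↔ w 0 = none ∧ (∀ n, w 1 = some n → n = 0) ∧
      ∀ (i : Fin d) n, w i.succ.succ = some n → n < Q := by
  rw [h.mem_D]
  have px : ∀ a b, (gB 0 1 (fun _ => Q) s T v).pu w a b 0 = a := fun a b => Bd.pu_x w a b
  have py : ∀ a b, (gB 0 1 (fun _ => Q) s T v).pu w a b 1 = b := fun a b => h.pu_y w a b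
  have pz : ∀ a b (i : Fin d), (gB 0 1 (fun _ => Q) s T v).pu w a b i.succ.succ = w i.succ.succ :=
    fun a b i => Bd.pu_ne w a b (Fin.succ_ne_zero _) (ss_ne i)
  refine ⟨fun ⟨a, j, p, q⟩ => ?_, fun ⟨a, b, c⟩ => ⟨Gr.mem_zq.2 ⟨px _ _, py _ _, fun i n e => ?_⟩, ?_⟩⟩
  · refine ⟨?_, fun n e => ?_, fun i n e => (Gr.mem_zq.1 a).2.2 _ n ((pz _ _ i).trans e)⟩
    · rcases j with _ | j | j | j
      exacts [p, j.elim0, p, j.1.1.elim0]
    · have r : jy j = some n := q.symm.trans e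
      rcases j with _ | j | j | j
      · cases r
      · exact j.elim0
      · rw [← Option.some.inj r, Subsingleton.elim j 0]; rfl
      · exact j.1.1.elim0
  · rcases Fin.eq_zero_or_eq_succ i with rfl | ⟨i, rfl⟩
    · rw [px] at e; cases e
    · rcases Fin.eq_zero_or_eq_succ i with rfl | ⟨i, rfl⟩
      · rw [Fin.succ_zero_eq_one, py] at e; cases e
      · exact c i n ((pz _ _ i).symm.trans e)
  · rcases e : w 1 with _ | n
    · exact ⟨.inl (), a, e⟩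
    · exact ⟨.inr (.inr (.inl 0)), a, e.trans (by rw [b n e]; rfl)⟩

theorem g_lt (h : (gB 0 1 (fun _ => Q) s T v).Ok) : Lt (gB 0 1 (fun _ => Q) s T v).x
    ((gB 0 1 (fun _ => Q) s T v).D G0) gl (gW d Q) := by
  refine ⟨Fin.zero_le, fun t a => ((mem_gD h).1 a).1, gl_inj, fun t a i n e => ?_, fun A => ?_⟩
  · obtain ⟨a, b, c⟩ := (mem_gD h).1 a
    rcases Fin.eq_zero_or_eq_succ i with rfl | ⟨i, rfl⟩
    · rw [a] at e; cases e
    · rcases Fin.eq_zero_or_eq_succ i with rfl | ⟨i, rfl⟩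
      · exact ⟨none, by rw [b n e]; rfl⟩
      · exact ⟨some (i, ⟨n, c i n e⟩), rfl⟩
  · rw [mem_gW]
    refine ⟨fun k => ?_, ?_⟩
    · let t : Pt (Fin (d + 2)) := fun i =>
        if e : ∃ a ∈ A, (gl a).1 = i then some (gl e.choose).2 else none
      have ht : ∀ i n, t i = some n ↔ ∃ a ∈ A, gl a = (i, n) := fun i n => by
        refine ⟨fun e => ?_, fun ⟨a, p, q⟩ => ?_⟩
        · by_cases r : ∃ a ∈ A, (gl a).1 = i
          · exact ⟨_, r.choose_spec.1, Prod.ext r.choose_spec.2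
              (Option.some.inj ((dif_pos r).symm.trans e))⟩
          · cases (dif_neg r).symm.trans e
        · have r : ∃ a ∈ A, (gl a).1 = i := ⟨a, p, congrArg Prod.fst q⟩
          have := k _ r.choose_spec.1 a p
            (Fin.succ_inj.1 (r.choose_spec.2.trans (congrArg Prod.fst q).symm))
          exact (dif_pos r).trans (by rw [this, q])
      refine ⟨t, (mem_gD h).2 ⟨?_, fun n e => ?_, fun i n e => ?_⟩, ext fun a => ?_⟩
      · exact dif_neg fun ⟨a, _, q⟩ => Fin.succ_ne_zero _ q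
      · obtain ⟨a, -, q⟩ := (ht _ _).1 e
        rw [(gk_eq a).1 (Fin.succ_inj.1 (congrArg Prod.fst q))] at q
        exact (congrArg Prod.snd q).symm
      · obtain ⟨_ | a, -, q⟩ := (ht _ _).1 e
        · exact (ss_ne i (congrArg Prod.fst q).symm).elim
        · exact (congrArg Prod.snd q).symm.trans_lt a.2.2
      · rw [mem_lw, ht]
        exact ⟨fun ⟨b, p, q⟩ => gl_inj q ▸ p, fun p => ⟨a, p, rfl⟩⟩
    · rintro ⟨t, -, rfl⟩ a p b q e
      rw [mem_lw] at p q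
      have e1 : (gl a).1 = (gl b).1 := congrArg Fin.succ e
      exact gl_inj (Prod.ext e1 (Option.some.inj (p.symm.trans (e1 ▸ q))))

theorem gla_sq {ρ c : ℝ} (hρ : 0 < ρ) (hc : 0 < c) (l : Fin (d + 1)) :
    gla ρ c l ^ 2 * ρ = if l = 0 then c else 1 := by
  rw [gla, Real.sq_sqrt (by split_ifs <;> positivity), div_mul_cancel₀ _ hρ.ne']

theorem g_hl (h : (gB 0 1 (fun _ => Q) s T v).Ok) {ρ c : ℝ} (hρ : 0 < ρ) (hc : 0 < c)
    (hv : ∀ j ∈ Icc 1 s, ∀ B, v j B = ρ ^ j) (w : Wd s ((gB 0 1 (fun _ => Q) s T v).D G0)) :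
    (∏ a ∈ lw (gl (Q := Q)) w.tr, gla ρ c (gk a)) ^ 2 *
      (gB 0 1 (fun _ => Q) s T v).V 1 c w.lv w.tr = 1 := by
  have m : w.lv ∈ Icc 1 s := mem_Icc.2 ⟨Nat.le_add_left _ _, w.1.1.2⟩
  obtain ⟨a, b, -⟩ := (mem_gD h).1 w.1.2.2
  have e : (∏ a ∈ lw (gl (Q := Q)) w.tr, gla ρ c (gk a)) ^ 2 * ρ ^ w.lv =
      if none ∈ lw (gl (d := d) (Q := Q)) w.tr then c else 1 := by
    rw [← (g_lt h).lv w, ← prod_pow, ← prod_const, ← prod_mul_distrib]
    simp only [gla_sq hρ hc, gk_eq, prod_ite_eq']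
  have p : (gB 0 1 (fun _ => Q) s T v).V 1 c w.lv w.tr =
      if w.tr 1 = none then ρ ^ w.lv else ρ ^ w.lv / c := by
    rw [Bd.V, if_pos (show w.tr (gB 0 1 (fun _ => Q) s T v).x = none from a)]
    exact if_congr Iff.rfl (hv _ m _) (congrArg (· / c) (hv _ m _))
  rw [p]
  rcases r : w.tr 1 with _ | n
  · rw [if_pos rfl, e, if_neg]
    rw [mem_lw, gl_none, r]; exact fun k => nomatch k
  · rw [if_neg (Option.some_ne_none n), mul_div_assoc', e, if_pos, div_self hc.ne']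
    rw [mem_lw, gl_none, r, b n r]

theorem rg_max {st : T.C → ℕ} {M C n : ℕ} {a η : ℝ} (g : T.Stg st M) (h : T.RgS st M C n a η) :
    T.RgS st (max M 1) C n a η := by
  rcases Nat.eq_zero_or_pos M with rfl | k
  · have a0 := h.pos
    have p : (1 : ℝ) ≤ (n + 1) ^ C := one_le_pow₀ (by simp)
    have q : a / (n + 1) ^ C / (n + 1) ^ C ≤ a / (n + 1) ^ C := div_le_self (by positivity) p
    refine ⟨fun t _ => if t = 0 then a / (n + 1) ^ C / (n + 1) ^ C else a / (n + 1) ^ C,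
      fun _ => min 1 (a / (n + 1) ^ C / (n + 1) ^ C), fun t _ => ⟨by positivity, min_le_left _ _,
        fun _ => ?_⟩, fun t r t' r' _ _ => ?_, fun t _ l col k hk _ _ => (hk (funext fun c => ?_)).elim⟩
    · dsimp only
      split_ifs
      · exact ⟨min_le_right _ _, by
          rw [mul_div_cancel₀ _ (by positivity)]; exact div_le_self a0.le p⟩
      · exact ⟨(min_le_right _ _).trans q, by rw [mul_div_cancel₀ _ (by positivity)]⟩
    · dsimp only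
      rw [if_pos (by omega), if_neg (by omega), mul_div_cancel₀ _ (by positivity)]
    · exact absurd (g.le c).1 (not_le.2 (g.pos c))
  · rwa [max_eq_left k]

/-- **the base**: the whitened top tower, the letter `x` has the precision `c` -/
def gBs (g : Gs (d + 1)) (N : Matrix g.V.T.C g.V.T.C ℝ) (ρ c : ℝ) : Md.Bs (Fin (d + 1)) :=
  ⟨g.V.T.top.un N, g.st, max g.M 1, gla ρ c⟩

/-- all the stages -/
def gst (s : ℕ) (g : Gs (d + 1)) (Q : ℕ) (F : (gS s g Q).T.C) : Prop := g.st F < max g.M 1 + 1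
instance (g : Gs (d + 1)) : DecidablePred (gst s g Q) := fun _ => Nat.decLt _ _

/-- the context of the inner loops -/
structure Gc (s : ℕ) (g : Gs (d + 1)) (Q : ℕ) (N : Matrix g.V.T.C g.V.T.C ℝ) (ρ c : ℝ) : Prop where
  ok : (gS s g Q).Ok
  stg : g.V.T.Stg g.st g.M
  lev : ∀ F, g.V.T.lev F ≤ s
  wh : Wh g.V.T g.st N
  ρ0 : 0 < ρ
  c0 : 0 < c
  pv : ∀ j ∈ Icc 1 s, ∀ B, g.v j B = ρ ^ j

namespace Gc

variable {g : Gs (d + 1)} {N : Matrix g.V.T.C g.V.T.C ℝ} {ρ c : ℝ} (h : Gc s g Q N ρ c)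
include h

theorem hp (F : (gS s g Q).T.C) : gst s g Q F :=
  Nat.lt_succ_of_le ((h.stg.le F).1.trans (le_max_left _ _))

/-- the coordinates: background and fibre -/
def E (r : (gS s g Q).Cl false false ⊕ (gS s g Q).I) : (gBs g N ρ c).SC (gW d Q) :=
  h.ok.sE (g_lt h.ok) h.hp r
/-- the background -/
def zy {R : Type} (y : (gBs g N ρ c).SC (gW d Q) → R) (r : (gS s g Q).Cl false false) : R :=
  y (h.E (.inl r))
/-- the fibre coordinate -/
def wy {R : Type} (y : (gBs g N ρ c).SC (gW d Q) → R) (r : (gS s g Q).I) : R := y (h.E (.inr r))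
/-- **the datum** -/
def F (η : (gS s g Q).Zc → (gS s g Q).I → ℝ) : Fm (Fin (d + 1)) ((gBs g N ρ c).SC (gW d Q)) :=
  h.ok.gF (g_lt h.ok) h.hp η
/-- **the dense set** -/
def H (Z : Set (gS s g Q).Zc) : Set ((gBs g N ρ c).SC (gW d Q) → ℤ) := {y | h.zy y ∈ Z}

theorem E_bij : Function.Bijective h.E := h.ok.sE_bij (g_lt h.ok) h.hp h.lev

theorem E_z (r : (gS s g Q).Cl false false) :
    (h.E (.inl r)).1 = (r.1.1.1, lw gl ((gS s g Q).pu r.1.1.2.tr none none)) :=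
  h.ok.sE_z (g_lt h.ok) h.hp r

theorem E_x (r : (gS s g Q).I) :
    (h.E (.inr r)).1 = (r.1.1.1, lw gl ((gS s g Q).pu r.1.1.2.tr none (some 0))) :=
  h.ok.sE_x (g_lt h.ok) h.hp r

theorem E_mem (r : (gS s g Q).Cl false false ⊕ (gS s g Q).I) : none ∈ (h.E r).1.2 ↔ r.isRight :=
  h.ok.sE_mem (g_lt h.ok) h.hp gl_none r

theorem mem_ty (r : (gS s g Q).Cl false false ⊕ (gS s g Q).I) :
    0 ∈ ((gBs g N ρ c).SY (gW d Q) gk).ty (h.E r) ↔ r.isRight :=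
  h.ok.mem_ty (g_lt h.ok) h.hp (N := N) (la := fun A => ∏ a ∈ A, gla ρ c (gk a)) gl_none gk_eq r

theorem F_cf (η : (gS s g Q).Zc → (gS s g Q).I → ℝ) (y : (gBs g N ρ c).SC (gW d Q) → ℤ) :
    h.F η (TT.cf y) = η (h.zy y) ⬝ᵥ zc (h.wy y) := h.ok.gF_cf (g_lt h.ok) h.hp η y

theorem F_eq (η : (gS s g Q).Zc → (gS s g Q).I → ℝ) {P : (gBs g N ρ c).SC (gW d Q) ⊕ _ → ℝ}
    {z : (gS s g Q).Zc} (hz : ∀ r, P (.inl (h.E (.inl r))) = z r) :
    h.F η P = η z ⬝ᵥ h.wy fun w => P (.inl w) := by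
  have : (fun r => round (P (.inl (h.E (.inl r))))) = z := funext fun r => by
    rw [hz, round_intCast]
  exact congrArg (fun z => η z ⬝ᵥ h.wy fun w => P (.inl w)) this

theorem F_dat (η : (gS s g Q).Zc → (gS s g Q).I → ℝ) :
    ((gBs g N ρ c).SY (gW d Q) gk).Dat univ {0} (h.F η) :=
  h.ok.gF_dat (g_lt h.ok) h.hp (N := N) (la := fun A => ∏ a ∈ A, gla ρ c (gk a)) gl_none gk_eq η

theorem wt (y : (gBs g N ρ c).SC (gW d Q) → ℤ) : ((gBs g N ρ c).SY (gW d Q) gk).wt y =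
    (g.V.T.sh ((gS s g Q).S G0 1 c)).Zc *
      (h.ok.rho (h.zy y) * gd (c • h.ok.M (h.zy y)) 0 (h.wy y)) :=
  h.ok.sT_wt (g_lt h.ok) h.hp (la := fun A => ∏ a ∈ A, gla ρ c (gk a)) (bk := gk) h.lev h.stg h.wh
    h.c0 (g_hl h.ok h.ρ0 h.c0 h.pv) y

theorem pr (m : (g.V.T.sh ((gS s g Q).S G0 1 c)).Mas 1) (Z : Set (gS s g Q).Zc) :
    (∑' z, Z.indicator h.ok.rho z) / 2 ≤ ((gBs g N ρ c).SY (gW d Q) gk).pr (h.H Z) :=
  h.ok.sT_pr (g_lt h.ok) h.hp (la := fun A => ∏ a ∈ A, gla ρ c (gk a)) (bk := gk) h.lev h.stg h.wh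
    h.c0 (g_hl h.ok h.ρ0 h.c0 h.pv) m Z

theorem qf_x {z : (gS s g Q).Zc} {P : (gBs g N ρ c).SC (gW d Q) ⊕ _ → ℝ}
    (hz : ∀ r, P (.inl (h.E (.inl r))) = z r) :
    ∑ r : (gS s g Q).I, ((gBs g N ρ c).SY (gW d Q) gk).Φ P (h.E (.inr r)) ^ 2 =
      qf (c • h.ok.M z) (h.wy fun w => P (.inl w)) :=
  h.ok.sT_qf (g_lt h.ok) h.hp (la := fun A => ∏ a ∈ A, gla ρ c (gk a)) (bk := gk) h.lev h.stg h.wh
    h.c0 (g_hl h.ok h.ρ0 h.c0 h.pv) hz

theorem stg' : g.V.T.Stg g.st (max g.M 1) :=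
  ⟨h.stg.cl, h.stg.tri, h.stg.lev, fun F =>
    ⟨(h.stg.le F).1.trans (le_max_left _ _), (h.stg.le F).2.trans (le_max_left _ _)⟩⟩

theorem rg {C n : ℕ} {a η : ℝ} (r : g.V.T.RgS g.st g.M C n a η) : (gBs g N ρ c).Rg C n a η :=
  h.wh.rg h.stg (rg_max h.stg r)

theorem bs {n : ℕ} (ρ1 : 1 / 2 ^ n ≤ ρ) (ρ2 : ρ ≤ 1) (c1 : 1 ≤ c) (c2 : c ≤ 2 ^ n) :
    (gBs g N ρ c).Ok s n := by
  refine ⟨h.wh.old h.stg' h.lev (le_max_right _ _), fun l => ?_⟩
  have ρ0 := h.ρ0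
  have a : 1 ≤ (if l = 0 then c else 1) ∧ (if l = 0 then c else 1) ≤ (2 : ℝ) ^ n := by
    split_ifs
    exacts [⟨c1, c2⟩, ⟨le_rfl, one_le_pow₀ one_le_two⟩]
  refine ⟨(div_le_one_of_le₀ (one_le_pow₀ one_le_two) (by positivity)).trans
    (Real.one_le_sqrt.2 ((one_le_div ρ0).2 (ρ2.trans a.1))), Real.sqrt_le_iff.2 ⟨by positivity, ?_⟩⟩
  rw [div_le_iff₀ ρ0]
  rw [div_le_iff₀ (by positivity)] at ρ1
  have : (0 : ℝ) < 2 ^ n := by positivity
  nlinarith [a.2]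

theorem card : Fintype.card ((gBs g N ρ c).SC (gW d Q)) ≤
    Fintype.card g.V.T.C * (s * ((Q + 1) ^ d * 2)) := by
  refine (Fintype.card_of_bijective ((g_lt h.ok).fs_bij (V := (gS s g Q).V 1 1) h.hp h.stg.cl.1
    h.lev)).symm.trans_le ((Fintype.card_subtype_le _).trans ?_)
  rw [Fintype.card_prod]
  refine Nat.mul_le_mul_left _ ((Fintype.card_subtype_le _).trans ?_)
  rw [Fintype.card_prod, Fintype.card_fin, Fintype.card_coe]
  refine Nat.mul_le_mul_left _ (card_image_le.trans ?_)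
  rw [card_product, mul_comm]
  exact Nat.mul_le_mul (card_zq d Q).le (by simp)

theorem mas {C n : ℕ} {a η : ℝ} (m : MAST g.M C) (r : g.V.T.RgS g.st g.M C n a η) (η0 : 0 < η)
    (η1 : η ≤ 1) (n1 : 1 ≤ n) (hn : s * ((Q + 1) ^ d * 2) ≤ n) (c1 : 1 ≤ c)
    (hv : ∀ j B, a * c ≤ g.v j B) : (g.V.T.sh ((gS s g Q).S G0 1 c)).Mas 1 := by
  have a0 := r.pos
  have k : ∀ j B, a ≤ g.v j B := fun j B => (le_mul_of_one_le_right a0.le c1).trans (hv j B)
  refine (r.sh_mas m h.stg η0 η1 (szb _ _ h.ok 0 1 G0 1 c a n a0 one_pos h.c0 n1 ?_ fun j t =>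
    ⟨k _ _, k _ _, (mul_one a).trans_le (k _ _), hv _ _⟩)).mono η1
  exact le_trans (by rw [show #(gS s g Q).Z = (Q + 1) ^ d from card_zq d Q]; rfl) hn

end Gc

theorem exists_gc {N0 m b : ℕ} {A : Finset ℕ} {α ε c : ℝ} {g : Gs (d + 1)}
    (p : g.P s (d + 1) N0 m A α ε b) (hs : 1 ≤ s) (h : (gS s g Q).Ok) (hc : 0 < c) :
    ∃ N ρ, Gc s g Q N ρ c ∧ 1 / 2 ^ Xs s m g.c ^ ⌊ε⁻¹⌋₊ ≤ ρ ∧ ρ ≤ 1 := by
  obtain ⟨N, w⟩ := exists_wh p.stg
  obtain ⟨ρ, a, k⟩ := p.pv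
  have e : g.v 1 ∅ = ρ := (k 1 (mem_Icc.2 ⟨le_rfl, hs⟩) _).trans (pow_one ρ)
  exact ⟨N, ρ, ⟨h, p.stg, p.cs.ok.2.1, w, a, hc, k⟩, e ▸ p.lo _ _, e ▸ p.hi _ _⟩

end Crest.Agent.N49.Br

end
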