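import Crest.Agent.N49.Br.Tws
import Crest.Agent.N49.Br.All

/-!
# Row 49 (helper74): the background and one clone form the symbol tower
-/

set_option autoImplicit false
set_option linter.unusedSectionVars false

open Matrix Finset MvPolynomial

noncomputable section

namespace Crest.Agent.N49.Br

open Po Tw Sy

/-- no clone of `x`, one clone of `y` -/
abbrev G0 : Finset (Fin 0 × Fin 1) := ∅

theorem sP_lin {τ A I : Type} [Fintype τ] [DecidableEq τ] [Fintype I] [DecidableEq I]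
    {T : TS Unit} {p : T.C → Prop} [DecidablePred p] {W : Finset (Finset τ)}
    (E : A ⊕ I ≃ SC T p W) {t : τ} (hm : ∀ r, t ∈ (E r).1.2 ↔ r.isRight)
    (P : MvPolynomial T.C ℝ) {S : Finset τ} (hS : t ∈ S) (z : A → ℝ) (w : I → ℝ) :
    sP T p W P S (fun c => Sum.elim z w (E.symm c)) =
      ∑ r, w r * sP T p W P S fun c => Sum.elim z (fun j => if r = j then 1 else 0) (E.symm c) := by
  set l : (I → ℝ) → ℝ := fun w => sP T p W P S fun c => Sum.elim z w (E.symm c) with hl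
  have lin : ∀ (a b : ℝ) w w', l (a • w + b • w') = a * l w + b * l w' := fun a b w w' => by
    have n : ∀ w w' : I → ℝ, ∀ c A, t ∉ A → sx T p W (fun c => Sum.elim z w (E.symm c)) c A =
        sx T p W (fun c => Sum.elim z w' (E.symm c)) c A := fun w w' c A a => by
      unfold sx
      split_ifs with b
      · obtain ⟨r' | r', f⟩ := E.surjective ⟨(c, A), b⟩
        · simp only [← f, E.symm_apply_apply]; rfl
        · exact absurd (by have := (hm (.inr r')).2 rfl; rwa [f] at this) a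
      · rfl
    refine sy_lin _ _ hS a b (n _ _) (n _ _) fun c A m => ?_
    unfold sx
    split_ifs with d
    · obtain ⟨r' | r', f⟩ := E.surjective ⟨(c, A), d⟩
      · exact absurd ((hm (.inl r')).1 (by rwa [f])) (by simp)
      · simp only [← f, E.symm_apply_apply]; rfl
    · simp
  have l0 : IsLinearMap ℝ l := ⟨fun w w' => by simpa using lin 1 1 w w',
    fun a w => by simpa using lin a 0 w w⟩
  exact (l0.mk' l).pi_apply_eq_sum_univ w

namespace Bd

variable {ι τ L : Type} [Fintype ι] [LinearOrder ι] [Fintype τ] [DecidableEq τ] [Fintype L]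
  [DecidableEq L] {B : Bd ι} {lt : τ → ι × ℕ} {W : Finset (Finset τ)} {p : B.T.C → Prop}
  [DecidablePred p] (h : B.Ok) (k : Lt B.x (B.D G0) lt W) (hp : ∀ c, p c)

/-- the two classes -/
def sj : B.Cl false false ⊕ B.I → Σ j : Jc G0, B.Cl (ja j) (jb j)
  | .inl r => ⟨.inl (), r⟩
  | .inr r => ⟨.inr (.inr (.inl 0)), r⟩

theorem sj_bij : Function.Bijective (sj (B := B)) := by
  constructor
  · rintro (r | r) (r' | r') e <;> cases e <;> rfl
  · rintro ⟨_ | a | b | e, r⟩
    · exact ⟨.inl r, rfl⟩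
    · exact a.elim0
    · obtain rfl := Subsingleton.elim b 0; exact ⟨.inr r, rfl⟩
    · exact e.1.1.elim0

/-- **the symbol coordinates** -/
def Ok.sE (r : B.Cl false false ⊕ B.I) : SC B.T p W :=
  k.fs B.s (B.V 1 1) hp (h.eC 1 1 (sj r))

theorem Ok.sE_z (r : B.Cl false false) :
    (h.sE k hp (.inl r)).1 = (r.1.1.1, lw lt (B.pu r.1.1.2.tr none none)) := rfl
theorem Ok.sE_x (r : B.I) :
    (h.sE k hp (.inr r)).1 = (r.1.1.1, lw lt (B.pu r.1.1.2.tr none (some 0))) := rfl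

theorem Ok.sE_mem {a : τ} (ha : lt a = (B.y, 0)) (r : B.Cl false false ⊕ B.I) :
    a ∈ (h.sE k hp r).1.2 ↔ r.isRight := by
  rcases r with r | r
  · rw [h.sE_z, mem_lw, ha, h.pu_y]; simp
  · rw [h.sE_x, mem_lw, ha, h.pu_y]; simp

variable (hs : ∀ c, B.T.lev c ≤ B.s)
include hs

theorem Ok.sE_bij : Function.Bijective (h.sE k hp) :=
  (k.fs_bij hp h.cl.1 hs).comp ((h.eC 1 1).bijective.comp sj_bij)

omit hs in
theorem Ok.fs_cE (c : ℝ) (y : SC B.T p W → ℤ) : (fun r => y (k.fs B.s (B.V 1 c) hp r)) =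
    h.cE (Γ := G0) 1 c (fun r => y (h.sE k hp (.inl r)),
      (Fin.elim0, fun _ r => y (h.sE k hp (.inr r))), fun e => e.1.1.elim0) := funext fun r => by
  obtain ⟨r, rfl⟩ := (h.eC 1 c).surjective r
  rw [h.cE_eC]
  obtain ⟨r | r, rfl⟩ := sj_bij.2 r <;> rfl

theorem Ok.sP_int (y : SC B.T p W → ℤ) (r : B.Cl false false ⊕ B.I) :
    sP B.T p W (B.T.Φ (h.sE k hp r).1.1) (h.sE k hp r).1.2 (zc y) = h.uj (Γ := G0)
      (fun r => y (h.sE k hp (.inl r)), (Fin.elim0, fun _ r => y (h.sE k hp (.inr r))),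
        fun e => e.1.1.elim0) (sj r) := by
  refine (k.u_fs hp h.cl.1 hs (zc y) (h.eC 1 1 (sj r))).symm.trans
    (Eq.trans ?_ (h.err.1 _ _ _ 1 1 one_pos one_pos _ _))
  rw [← h.fs_cE k hp 1 y]; rfl

/-- the errors of the background -/
theorem Ok.sP_z {y : SC B.T p W → ℝ} {z : B.Zc} (hz : ∀ r, y (h.sE k hp (.inl r)) = z r)
    (r : B.Cl false false) : sP B.T p W (B.T.Φ (h.sE k hp (.inl r)).1.1)
      (h.sE k hp (.inl r)).1.2 y = h.U z 0 0 r := by
  set E := Equiv.ofBijective _ (h.sE_bij k hp hs)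
  have := h.sP_int k hp hs (fun c => Sum.elim z 0 (E.symm c)) (.inl r)
  have e : ∀ r, E.symm (h.sE k hp r) = r := E.symm_apply_apply
  simp only [e] at this
  refine Eq.trans (sy_congr' _ _ fun c A a _ => ?_) this
  unfold sx
  split_ifs with b
  · obtain ⟨r' | r', f⟩ := (h.sE_bij k hp hs).2 ⟨(c, A), b⟩
    · rw [← f, hz]; simp only [zc, e]; rfl
    · obtain ⟨t, g⟩ := k.cov _ (h.eC (Γ := G0) 1 1 (sj (.inr r'))).1.2.mem B.y 0 (h.pu_y _ _ _)
      have := (h.sE_mem k hp g (.inr r')).2 rfl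
      rw [f] at this
      simpa using (h.sE_mem k hp g (.inl r)).1 (a this)
  · rfl

/-- the errors of the clone -/
theorem Ok.sP_x {y : SC B.T p W → ℝ} {z : B.Zc} (hz : ∀ r, y (h.sE k hp (.inl r)) = z r)
    (r : B.I) : sP B.T p W (B.T.Φ (h.sE k hp (.inr r)).1.1) (h.sE k hp (.inr r)).1.2 y =
      (h.L z *ᵥ fun r' => y (h.sE k hp (.inr r'))) r := by
  set E := Equiv.ofBijective _ (h.sE_bij k hp hs)
  have e : ∀ r, E.symm (h.sE k hp r) = r := E.symm_apply_apply
  obtain ⟨t, g⟩ := k.cov _ (h.eC (Γ := G0) 1 1 (sj (.inr r))).1.2.mem B.y 0 (h.pu_y _ _ _)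
  have e1 : y = fun c => Sum.elim (zc z) (fun r' => y (h.sE k hp (.inr r'))) (E.symm c) :=
    funext fun c => by
      obtain ⟨r' | r', rfl⟩ := (h.sE_bij k hp hs).2 c
      · rw [e]; exact hz r'
      · rw [e]; rfl
  refine (congrArg _ e1).trans ((sP_lin E (h.sE_mem k hp g) _
    ((h.sE_mem k hp g (.inr r)).2 rfl) _ _).trans ?_)
  refine sum_congr rfl fun r' _ => (mul_comm _ _).trans (congrArg (· * _) ?_)
  have := h.sP_int k hp hs (fun c => Sum.elim z (Pi.single r' 1) (E.symm c)) (.inr r)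
  simp only [e] at this
  refine Eq.trans (congrArg _ (funext fun c => ?_)) this
  show _ = ((Sum.elim z (Pi.single r' 1) (E.symm c) : ℤ) : ℝ)
  rcases E.symm c with c | c
  · rfl
  · rw [Sum.elim_inr, Sum.elim_inr, Pi.single_apply, Int.cast_ite, Int.cast_one, Int.cast_zero]
    exact if_congr eq_comm rfl rfl

/-- **the weights** -/
theorem Ok.sy_wt (hK : B.T.K = 1) {c : ℝ} (hc : 0 < c) {la : Finset τ → ℝ}
    (hl : ∀ w : Wd B.s (B.D G0), la (lw lt w.tr) ^ 2 * B.V 1 c w.lv w.tr = 1) (blk : τ → L)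
    (y : SC B.T p W → ℤ) : (symT B.T p W la blk).wt y = (B.T.sh (B.S G0 1 c)).Zc *
      (h.rho (fun r => y (h.sE k hp (.inl r))) * gd (c • h.M fun r => y (h.sE k hp (.inl r))) 0
        fun r => y (h.sE k hp (.inr r))) := by
  have e := Fa.wt_div h Br.blk h.kwb h.err h.lin one_pos hc (Γ := G0)
    (fun r => y (h.sE k hp (.inl r)), (Fin.elim0, fun _ r => y (h.sE k hp (.inr r))),
      fun e => e.1.1.elim0)
  rw [← h.fs_cE k hp c y, div_eq_iff (TS.sh_tri h.cl (h.ok_S one_pos hc)).Zc_pos.ne'] at e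
  simp only [univ_eq_empty, prod_empty, univ_unique, prod_singleton, one_mul, mul_one] at e
  refine Eq.trans ?_ (e.trans (mul_comm _ _))
  have e1 : (B.T.sh (B.S G0 1 c)).K⁻¹ = diagonal (fun r => la (lw lt (Wd.tr r.1.2))) *
      diagonal fun r => la (lw lt (Wd.tr r.1.2)) := by
    refine inv_eq_left_inv ?_
    rw [diagonal_mul_diagonal]
    ext r r'
    rw [diagonal_mul]
    change _ * (B.T.K r.1.1 r'.1.1 * diagonal (fun w : Wd B.s (B.D G0) => B.V 1 c w.lv w.tr)
      r.1.2 r'.1.2) = _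
    rw [hK]
    by_cases a : r = r'
    · subst a; simpa [sq] using hl r.1.2
    · rw [one_apply_ne a]
      by_cases b : r.1.1 = r'.1.1
      · rw [diagonal_apply_ne _ fun d => a (Subtype.ext (Prod.ext b d))]; simp
      · rw [one_apply_ne b]; simp
  refine Eq.trans ?_ (Swt.wt_dg e1 _)
  refine congrArg Real.exp ((neg_mul _ _).trans (congrArg (fun a => -(Real.pi * a))
    (Eq.trans ?_ (Ir.qf_one _).symm)))
  refine (Fintype.sum_bijective _ (k.fs_bij (V := B.V 1 c) hp h.cl.1 hs) _ _ fun r => ?_).symm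
  exact congrArg (fun a => (_ * a) ^ 2) (k.u_fs hp h.cl.1 hs (zc y) r)

end Bd

end Crest.Agent.N49.Br

end
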