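import Crest.Agent.N49.Br.Tsy
import Crest.Agent.N49.Rn.Nun

/-!
# Row 49 (helper74): whitening, and the symbol tower of the whitened tower
-/

set_option autoImplicit false
set_option linter.unusedSectionVars false

open Matrix Finset MvPolynomial

noncomputable section

namespace Crest.Agent.N49.Br

open Po Tw Sy Rm

/-- whitening matrices -/
structure Wh (T : TS Unit) (st : T.C → ℕ) (N : Matrix T.C T.C ℝ) : Prop where
  blk : Rw.Blk st N
  e : Nᵀ * N = T.K⁻¹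

theorem sh_wt_tw {τ : Type} (T : TS Unit) (S : Sh Unit τ) (y : T.Cw S → ℤ) :
    (T.sh S).wt y = (T.tw S (T.tw0 S)).wt y := by
  have : (T.tw S (T.tw0 S)).Φ = (T.sh S).Φ :=
    funext fun p => congrArg (S.cf _ p.1.2) (TS.eval₂_tw0 _ _)
  exact (congrArg (fun Φ => ((T.sh S).setΦ Φ).wt y) this).symm

section
variable {T : TS Unit} {st : T.C → ℕ} {M : ℕ} {N : Matrix T.C T.C ℝ} (h : T.Stg st M)
include h

theorem exists_wh : ∃ N, Wh T st N :=
  let ⟨B, hB, e⟩ := exists_blk_sqrt (lev := st) h.tri.pd.inv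
    (blk_inv fun _ _ f => by_contra fun z => f (h.blk z))
  ⟨B, hB, e⟩

variable (w : Wh T st N)
include w

theorem Wh.stg : (T.top.un N).Stg st M := h.un_stg w.blk w.e
theorem Wh.old {s : ℕ} (hs : ∀ c, T.lev c ≤ s) (hM : 1 ≤ M) : Old (T.top.un N) st M s :=
  ⟨h.un_ok w.blk w.e, rfl, h.un_stg w.blk w.e, hs, hM⟩
theorem Wh.D : (T.top.un N).D = T.D := (h.cl.1.top.un_D
  (fun _ _ f => by_contra fun z => f (h.un_lev w.blk z)) w.e).trans T.top_D
theorem Wh.sD : ((T.top.un N).stg st).D = (T.stg st).D := h.un_D w.blk w.e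

theorem Wh.rg {M' C n : ℕ} {a η : ℝ} (r : T.RgS st M' C n a η) :
    (T.top.un N).RgS st M' C n a η := by
  obtain ⟨κ, lb, r1, r2, r3⟩ := r
  refine ⟨κ, lb, r1, r2, fun t ht l col k k0 hk hq => ?_⟩
  have hD := w.sD h
  have c : ((T.top.un N).stg st).ct = (T.stg st).ct := by unfold TS.ct; rw [hD]; rfl
  have L : (T.top.un N).LbS st M' C n lb η t = T.LbS st M' C n lb η t := by
    unfold TS.LbS; rw [c]; rfl
  rw [L, hD] at hq
  rw [L, h.un_sbS w.blk w.e t col (fun j => (r1 t (mem_Icc.1 ht).2).1.trans_le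
    ((r1 t (mem_Icc.1 ht).2).2.2 j).1) fun F z => (hk F z).1]
  exact r3 t ht l col k k0 hk hq

theorem Wh.tw_wt {τ : Type} {S : Sh Unit τ} {Ψ : T.Twd S} (o : S.Ok) (a : T.Adm S st Ψ)
    (y : T.Cw S → ℤ) :
    ((T.top.un N).tw S fun F : T.C => ∑ F', N F F' • Ψ F').wt y = (T.tw S Ψ).wt y :=
  h.rpl_wt w.blk w.e (T.top.un N).Φ (TS.lw_tri h a o)
    (TS.lw_tri (h.un_stg w.blk w.e) (a.un h w.blk) o) y

theorem Wh.sh_wt {τ : Type} {S : Sh Unit τ} (o : S.Ok) (e : S.ε = 0) (y : T.Cw S → ℤ) :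
    ((T.top.un N).sh S).wt y = (T.sh S).wt y := by
  refine (sh_wt_tw _ _ _).trans (Eq.trans ?_ (sh_wt_tw _ _ _).symm)
  rw [h.un_tw0 w.blk e]
  exact w.tw_wt h o (h.adm o) y
end

theorem qf_int_ext {I : Type} [Fintype I] [DecidableEq I] {M M' : Matrix I I ℝ} (h : Mᵀ = M)
    (h' : M'.IsHermitian) (e : ∀ a : I → ℤ, qf M (zc a) = qf M' (zc a)) : M = M' := by
  have s : ∀ i : I, zc (Pi.single i 1 : I → ℤ) = Pi.single i 1 := fun i => funext fun j => by
    by_cases k : j = i <;> simp [zc, k]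
  ext i j
  have e1 := e (Pi.single i 1 + Pi.single j 1)
  have e2 := e (Pi.single i 1)
  have e3 := e (Pi.single j 1)
  have e4 : M j i = M i j := congrFun (congrFun h i) j
  have e5 : M' j i = M' i j := by simpa using h'.apply i j
  simp only [zc_add, s, qf, mulVec_add, add_dotProduct, dotProduct_add, single_one_dotProduct,
    mulVec_single_one, col_apply] at e1 e2 e3
  linarith

theorem sP_loc {τ A I : Type} [Fintype τ] [DecidableEq τ] {T : TS Unit} {p : T.C → Prop}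
    [DecidablePred p] {W : Finset (Finset τ)} (E : A ⊕ I ≃ SC T p W) {t : τ}
    (hm : ∀ r, t ∈ (E r).1.2 ↔ r.isRight) (P : MvPolynomial T.C ℝ) {S : Finset τ} (hS : t ∉ S)
    (z : A → ℝ) (w w' : I → ℝ) : sP T p W P S (fun c => Sum.elim z w (E.symm c)) =
      sP T p W P S fun c => Sum.elim z w' (E.symm c) :=
  sy_congr' _ _ fun c D a _ => by
    unfold sx
    split_ifs with b
    · obtain ⟨r' | r', f⟩ := E.surjective ⟨(c, D), b⟩
      · simp only [← f, E.symm_apply_apply]; rfl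
      · exact absurd (a (by have := (hm (.inr r')).2 rfl; rwa [f] at this)) hS
    · rfl

variable {ι τ L : Type} [Fintype ι] [LinearOrder ι] [Fintype τ] [DecidableEq τ] [Fintype L]
  [DecidableEq L] {lt : τ → ι × ℕ} {W : Finset (Finset τ)}

theorem Lt.sy_wt {x : ι} {D : Finset (Pt ι)} (k : Lt x D lt W) {s : ℕ} {V : ℕ → Pt ι → ℝ}
    {T : TS Unit} {p : T.C → Prop} [DecidablePred p] (hp : ∀ c, p c) (hT : T.Tri)
    (hs : ∀ c, T.lev c ≤ s) (hK : T.K = 1) {la : Finset τ → ℝ}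
    (hl : ∀ w : Wd s D, la (lw lt w.tr) ^ 2 * V w.lv w.tr = 1) (blk : τ → L) (y : SC T p W → ℤ) :
    (symT T p W la blk).wt y = (T.sh (tw s D V)).wt fun r => y (k.fs s V hp r) := by
  have e1 : (T.sh (tw s D V)).K⁻¹ = diagonal (fun r => la (lw lt (Wd.tr r.1.2))) *
      diagonal fun r => la (lw lt (Wd.tr r.1.2)) := by
    refine inv_eq_left_inv ?_
    rw [diagonal_mul_diagonal]
    ext r r'
    rw [diagonal_mul]
    change _ * (T.K r.1.1 r'.1.1 * diagonal (fun w : Wd s D => V w.lv w.tr) r.1.2 r'.1.2) = _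
    rw [hK]
    by_cases a : r = r'
    · subst a; simpa [sq] using hl r.1.2
    · rw [one_apply_ne a]
      by_cases b : r.1.1 = r'.1.1
      · rw [diagonal_apply_ne _ fun d => a (Subtype.ext (Prod.ext b d))]; simp
      · rw [one_apply_ne b]; simp
  refine Eq.trans ?_ (Swt.wt_dg e1 _)
  refine congrArg Real.exp ((neg_mul _ _).trans (congrArg (fun a => -(Real.pi * a))
    (Eq.trans ?_ (Ir.qf_one _).symm)))
  refine (Fintype.sum_bijective _ (k.fs_bij (V := V) hp hT hs) _ _ fun r => ?_).symm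
  exact congrArg (fun a => (_ * a) ^ 2) (k.u_fs hp hT hs (zc y) r)

namespace Bd

variable {B : Bd ι} {p : B.T.C → Prop} [DecidablePred p] (h : B.Ok) (k : Lt B.x (B.D G0) lt W)
  (hp : ∀ c, p c)

/-- the background of a symbol configuration -/
def Ok.zy {R : Type} (y : SC B.T p W → R) (r : B.Cl false false) : R := y (h.sE k hp (.inl r))
/-- its direction -/
def Ok.wy {R : Type} (y : SC B.T p W → R) (r : B.I) : R := y (h.sE k hp (.inr r))
/-- **the datum** of a field of frequencies -/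
def Ok.gF (η : B.Zc → B.I → ℝ) : Fm L (SC B.T p W) := fun P =>
  η (fun r => round (h.zy k hp (fun c => P (.inl c)) r)) ⬝ᵥ h.wy k hp fun c => P (.inl c)

theorem Ok.gF_cf (η : B.Zc → B.I → ℝ) (y : SC B.T p W → ℤ) :
    h.gF k hp η (TT.cf (L := L) y) = η (h.zy k hp y) ⬝ᵥ zc (h.wy k hp y) := by
  simp only [Ok.gF, Ok.zy, TT.cf, Sum.elim_inl, round_intCast]; rfl

variable {st : B.T.C → ℕ} {M : ℕ} {N : Matrix B.T.C B.T.C ℝ} {c : ℝ} {la : Finset τ → ℝ}
  {bk : τ → L} {l0 : L} {a0 : τ}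

/-- **the symbol tower** -/
abbrev sT (B : Bd ι) (W : Finset (Finset τ)) (p : B.T.C → Prop) [i : DecidablePred p]
    (N : Matrix B.T.C B.T.C ℝ) (la : Finset τ → ℝ) (bk : τ → L) : TT L (SC B.T p W) :=
  @symT τ L _ _ _ (B.T.top.un N) p i W la bk

theorem Ok.mem_ty (ha : lt a0 = (B.y, 0)) (hb : ∀ a, bk a = l0 ↔ a = a0)
    (r : B.Cl false false ⊕ B.I) : l0 ∈ (B.sT W p N la bk).ty (h.sE k hp r) ↔ r.isRight := by
  rw [← h.sE_mem k hp ha]
  exact mem_image.trans ⟨fun ⟨a, b, c⟩ => (hb a).1 c ▸ b, fun b => ⟨_, b, (hb _).2 rfl⟩⟩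

theorem Ok.gF_dat (ha : lt a0 = (B.y, 0)) (hb : ∀ a, bk a = l0 ↔ a = a0) (η : B.Zc → B.I → ℝ) :
    (B.sT W p N la bk).Dat univ {l0} (h.gF k hp η) := by
  refine ⟨fun P P' e => ?_, fun l hl a b P P' e => ?_⟩
  · have : (fun c => P (.inl c)) = fun c => P' (.inl c) := funext fun c =>
      e _ (subset_univ _) (image_nonempty.2 (card_pos.1 (c.2.2.2 ▸ h.cl.1.lev_pos _)))
    simp only [Ok.gF, this]
  · obtain rfl := mem_singleton.1 hl
    have n : ∀ r, l ∉ (B.sT W p N la bk).tv (.inl (h.sE k hp (.inl r))) := fun r m => by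
      simpa using (h.mem_ty k hp ha hb (.inl r)).1 m
    have m : ∀ r, l ∈ (B.sT W p N la bk).tv (.inl (h.sE k hp (.inr r))) := fun r =>
      (h.mem_ty k hp ha hb (.inr r)).2 rfl
    simp only [Ok.gF, Ok.zy, TT.cmb, if_neg (n _), ← e _ (n _), dotProduct, Ok.wy, if_pos (m _),
      mul_sum, ← sum_add_distrib]
    exact sum_congr rfl fun _ _ => by ring

variable (hs : ∀ c, B.T.lev c ≤ B.s) (g : B.T.Stg st M) (w : Wh B.T st N) (hc : 0 < c)
  (hl : ∀ w : Wd B.s (B.D G0), la (lw lt w.tr) ^ 2 * B.V 1 c w.lv w.tr = 1)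
include h hs g w hc hl

theorem Ok.sT_sh (y : SC B.T p W → ℤ) : (B.sT W p N la bk).wt y =
    (B.T.sh (B.S G0 1 c)).wt fun r => y (k.fs B.s (B.V 1 c) hp r) := by
  have e := @Lt.sy_wt _ _ _ _ _ _ _ _ _ _ _ _ _ k B.s (B.V 1 c) (B.T.top.un N) p ‹_› hp
    (w.stg g).cl.1 hs rfl _ hl bk y
  have e' := w.sh_wt g (h.ok_S one_pos hc) k.eps fun r => y (k.fs B.s (B.V 1 c) hp r)
  exact e.trans e'

/-- **the weights** -/
theorem Ok.sT_wt (y : SC B.T p W → ℤ) : (B.sT W p N la bk).wt y = (B.T.sh (B.S G0 1 c)).Zc *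
    (h.rho (h.zy k hp y) * gd (c • h.M (h.zy k hp y)) 0 (h.wy k hp y)) := by
  have e := Fa.wt_div h Br.blk h.kwb h.err h.lin one_pos hc (Γ := G0)
    (h.zy k hp y, (Fin.elim0, fun _ => h.wy k hp y), fun e => e.1.1.elim0)
  rw [div_eq_iff (TS.sh_tri h.cl (h.ok_S one_pos hc)).Zc_pos.ne'] at e
  simp only [univ_eq_empty, prod_empty, univ_unique, prod_singleton, one_mul, mul_one] at e
  exact (h.sT_sh k hp hs g w hc hl y).trans
    ((congrArg _ (h.fs_cE k hp c y)).trans (e.trans (mul_comm _ _)))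

omit g w hc hl in
/-- configurations -/
def Ok.yE : (SC B.T p W → ℤ) ≃ B.Zc × (B.I → ℤ) :=
  ((Equiv.ofBijective _ (h.sE_bij k hp hs)).arrowCongr (Equiv.refl ℤ)).symm.trans
    (Equiv.sumArrowEquivProdArrow _ _ _)

omit g w hc hl in
theorem Ok.yE_eq (y : SC B.T p W → ℤ) : h.yE k hp hs y = (h.zy k hp y, h.wy k hp y) := rfl

include k hp in
theorem Ok.sT_Z : HasSum (B.sT W p N la bk).wt (B.T.sh (B.S G0 1 c)).Z := by
  have e := (TS.sh_tri h.cl (h.ok_S (Γ := G0) one_pos hc)).summable.hasSum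
  have e' := ((Equiv.ofBijective _ (k.fs_bij (V := B.V 1 c) hp h.cl.1 hs)).arrowCongr
    (Equiv.refl ℤ)).symm.hasSum_iff.2 e
  exact (funext (h.sT_sh (bk := bk) k hp hs g w hc hl)).symm ▸ e'

/-- **popular backgrounds** -/
theorem Ok.sT_pr (m : (B.T.sh (B.S G0 1 c)).Mas 1) (Z : Set B.Zc) :
    (∑' z, Z.indicator h.rho z) / 2 ≤ (B.sT W p N la bk).pr {y | h.zy k hp y ∈ Z} := by
  have t := TS.sh_tri h.cl (h.ok_S (Γ := G0) one_pos hc)
  have s := h.sT_Z k hp hs g w hc hl (bk := bk)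
  have s1 := (s.summable.indicator {y | h.zy k hp y ∈ Z}).hasSum
  rw [← (h.yE k hp hs).symm.hasSum_iff] at s1
  have s2 := s1.prod_fiberwise (g := fun z => (B.T.sh (B.S G0 1 c)).Zc *
      (Z.indicator h.rho z * (th (c • h.M z) 0 / dt (c • h.M z)))) fun z => by
    have := (((summable_gs ((h.lin z).1.smul hc) 0).hasSum.div_const (dt (c • h.M z))).mul_left
      (Z.indicator h.rho z)).mul_left (B.T.sh (B.S G0 1 c)).Zc
    refine this.congr_fun fun a => ?_
    obtain ⟨y, e⟩ := (h.yE k hp hs).surjective (z, a)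
    rw [Function.comp_apply, ← e, Equiv.symm_apply_apply]
    obtain ⟨rfl, rfl⟩ := Prod.ext_iff.1 e
    by_cases b : h.zy k hp y ∈ Z
    · rw [Set.indicator_of_mem (s := {y | h.zy k hp y ∈ Z}) b, h.sT_wt k hp hs g w hc hl]
      exact congrArg (fun a => _ * (a * _)) (Set.indicator_of_mem b _).symm
    · rw [Set.indicator_of_notMem (s := {y | h.zy k hp y ∈ Z}) b]
      exact Eq.symm (mul_eq_zero_of_right _ (mul_eq_zero_of_left (Set.indicator_of_notMem b _) _))
  have n : ∀ z, 0 ≤ Z.indicator h.rho z := fun z => Set.indicator_nonneg (fun z _ => h.hid.2.1 z) z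
  have l : ∀ z, (B.T.sh (B.S G0 1 c)).Zc * Z.indicator h.rho z ≤ (B.T.sh (B.S G0 1 c)).Zc *
      (Z.indicator h.rho z * (th (c • h.M z) 0 / dt (c • h.M z))) := fun z =>
    mul_le_mul_of_nonneg_left (le_mul_of_one_le_right (n z) ((one_le_div
      (dt_pos ((h.lin z).1.smul hc))).2 (dt_le_th ((h.lin z).1.smul hc)))) t.Zc_pos.le
  have l2 := (Summable.of_nonneg_of_le (fun z => mul_nonneg t.Zc_pos.le (n z)) l
    s2.summable).tsum_le_tsum l s2.summable
  rw [tsum_mul_left, s2.tsum_eq] at l2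
  rw [TT.pr, s.tsum_eq, div_le_div_iff₀ two_pos t.Z_pos]
  have := (abs_le.1 m).2
  have n' : 0 ≤ ∑' z, Z.indicator h.rho z := tsum_nonneg n
  have e : (B.T.sh (B.S G0 1 c)).Z ≤ 2 * (B.T.sh (B.S G0 1 c)).Zc := by linarith
  linarith [mul_le_mul_of_nonneg_left e n']

/-- **the form on the fibre** -/
theorem Ok.sT_qf {z : B.Zc} {P : SC B.T p W ⊕ L → ℝ}
    (hz : ∀ r, P (.inl (h.sE k hp (.inl r))) = z r) :
    ∑ r : B.I, (B.sT W p N la bk).Φ P (h.sE k hp (.inr r)) ^ 2 =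
      qf (c • h.M z) (h.wy k hp fun c => P (.inl c)) := by
  rcases isEmpty_or_nonempty B.I with n | ⟨⟨r0⟩⟩
  · simp [qf, dotProduct]
  obtain ⟨t, ht⟩ := k.cov _ (h.eC (Γ := G0) 1 1 (sj (.inr r0))).1.2.mem B.y 0 (h.pu_y _ _ _)
  set E := Equiv.ofBijective _ (h.sE_bij k hp hs)
  have e : ∀ r, E.symm (h.sE k hp r) = r := E.symm_apply_apply
  set f : (B.I → ℝ) → SC B.T p W → ℝ := fun x r => la r.1.2 * sP B.T p W ((B.T.top.un N).Φ r.1.1)
    r.1.2 fun c => Sum.elim (zc z) x (E.symm c) with hf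
  set A : Matrix B.I B.I ℝ := Matrix.of fun r r' => f (fun j => if r' = j then 1 else 0)
    (h.sE k hp (.inr r)) with hA
  have l : ∀ x, ∑ r, f x (h.sE k hp (.inr r)) ^ 2 = qf (Aᵀ * A) x := fun x => by
    rw [qf_mul]
    refine sum_congr rfl fun r _ => congrArg (· ^ 2) ?_
    refine (congrArg (_ * ·) (sP_lin E (h.sE_mem k hp ht) _
      ((h.sE_mem k hp ht (.inr r)).2 rfl) _ _)).trans ((mul_sum _ _ _).trans ?_)
    exact sum_congr rfl fun r' _ => (mul_left_comm _ _ _).trans (mul_comm _ _)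
  have l0 : ∀ x r, f x (h.sE k hp (.inl r)) = f 0 (h.sE k hp (.inl r)) := fun x r =>
    congrArg (_ * ·) (sP_loc E (h.sE_mem k hp ht) _
      (fun m => by simpa using (h.sE_mem k hp ht (.inl r)).1 m) _ _ _)
  have m : ∀ a : B.I → ℤ, Real.exp (-Real.pi * (∑ r, f 0 (h.sE k hp (.inl r)) ^ 2 +
      qf (Aᵀ * A) (zc a))) = (B.T.sh (B.S G0 1 c)).Zc * (h.rho z * gd (c • h.M z) 0 a) := fun a => by
    have := h.sT_wt (bk := bk) k hp hs g w hc hl fun c => Sum.elim z a (E.symm c)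
    rw [show (h.zy k hp fun c => Sum.elim z a (E.symm c)) = z from
        funext fun r => congrArg (Sum.elim z a) (e _),
      show (h.wy k hp fun c => Sum.elim z a (E.symm c)) = a from
        funext fun r => congrArg (Sum.elim z a) (e _)] at this
    rw [← this, ← l, ← sum_congr rfl fun r _ => congrArg (· ^ 2) (l0 (zc a) r), TT.wt,
      ← E.sum_comp, Fintype.sum_sum_type]
    have : (fun c => Sum.elim (zc z) (zc a) (E.symm c)) =
        fun c => ((Sum.elim z a (E.symm c) : ℤ) : ℝ) := funext fun c => by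
      rcases E.symm c with _ | _ <;> rfl
    simp only [hf, this]
    rfl
  have m2 : Aᵀ * A = c • h.M z := qf_int_ext (by simp) ((h.lin z).1.smul hc).1 fun a => by
    have m0 := m 0
    have m1 := m a
    rw [gd, zc_zero, qf_zero, add_zero, sub_zero, gs_zero] at m0
    rw [gd, mul_add, Real.exp_add, m0, sub_zero, gs] at m1
    have := mul_left_cancel₀ (m0 ▸ (Real.exp_pos _).ne') (m1.trans (by ring :
      _ = (B.T.sh (B.S G0 1 c)).Zc * (h.rho z * (1 / dt (c • h.M z))) *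
        Real.exp (-(Real.pi * qf (c • h.M z) (zc a)))))
    rw [Real.exp_eq_exp, neg_mul, neg_inj] at this
    exact mul_left_cancel₀ Real.pi_ne_zero this
  rw [← m2, ← l]
  have e1 : (fun c => P (.inl c)) =
      fun c => Sum.elim (zc z) (h.wy k hp fun c => P (.inl c)) (E.symm c) := funext fun c => by
    obtain ⟨r' | r', rfl⟩ := (h.sE_bij k hp hs).2 c
    · rw [e]; exact hz r'
    · rw [e]; rfl
  simp only [hf, ← e1]
  rfl

end Bd

end Crest.Agent.N49.Br

end
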