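import Crest.Agent.N49.Br.Err
import Crest.Agent.N49.Br.Fac
import Crest.Agent.N49.Sy.Swt

/-!
# Row 49 (helper74): words without the first block form a symbol ring
-/

set_option autoImplicit false
set_option linter.unusedSectionVars false

open Matrix Finset MvPolynomial

noncomputable section

namespace Crest.Agent.N49.Br

open Po Tw Sy

variable {ι τ : Type} [Fintype ι] [LinearOrder ι] [Fintype τ] [DecidableEq τ]

/-- the letters of a word -/
def lw (lt : τ → ι × ℕ) (t : Pt ι) : Finset τ := {a | t (lt a).1 = some (lt a).2}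

/-- `D` avoids the first block, its letters are named by `τ`, its words are `W` -/
structure Lt (x : ι) (D : Finset (Pt ι)) (lt : τ → ι × ℕ) (W : Finset (Finset τ)) : Prop where
  hx : ∀ i, x ≤ i
  nx : ∀ t ∈ D, t x = none
  inj : Function.Injective lt
  cov : ∀ t ∈ D, ∀ i n, t i = some n → ∃ a, lt a = (i, n)
  wd : ∀ A, A ∈ W ↔ ∃ t ∈ D, lw lt t = A

variable {x : ι} {D : Finset (Pt ι)} {lt : τ → ι × ℕ} {W : Finset (Finset τ)} {s : ℕ}
  {V : ℕ → Pt ι → ℝ} {t t' : Pt ι} {T : TS Unit}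

theorem mem_lw {a : τ} : a ∈ lw lt t ↔ t (lt a).1 = some (lt a).2 := by simp [lw]

theorem Le.lw (h : Le t t') : lw lt t ⊆ Br.lw lt t' := fun a k => by
  rw [mem_lw] at k ⊢; rw [← h _ (k ▸ nofun), k]

namespace Lt

variable (h : Lt x D lt W)
include h

theorem ex (a : t ∈ D) {i : ι} (k : t i ≠ none) : ∃ b ∈ lw lt t, (lt b).1 = i := by
  obtain ⟨n, e⟩ := Option.ne_none_iff_exists'.1 k
  obtain ⟨b, f⟩ := h.cov t a i n e
  exact ⟨b, by rw [mem_lw, f]; exact e, by rw [f]⟩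

theorem le (a : t ∈ D) (k : lw lt t ⊆ lw lt t') : Le t t' := fun i e => by
  obtain ⟨b, f, rfl⟩ := h.ex a e
  rw [mem_lw.1 f, mem_lw.1 (k f)]

theorem eq (a : t ∈ D) (a' : t' ∈ D) (k : lw lt t = lw lt t') : t = t' :=
  (h.le a k.subset).eq (Le.refl _)
    (Subset.antisymm (h.le a k.subset).bl (h.le a' k.superset).bl)

theorem card (a : t ∈ D) : #(lw lt t) = #(bl t) :=
  card_nbij (fun b => (lt b).1) (fun b k => mem_bl.2 (by rw [mem_lw.1 k]; nofun))
    (fun b k c k' e => h.inj (Prod.ext e (Option.some.inj (by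
      rw [← mem_lw.1 k, ← mem_lw.1 k']; exact congrArg t e))))
    fun i k => let ⟨b, f, e⟩ := h.ex a (mem_bl.1 k); ⟨b, f, e⟩

theorem lv (w : Wd s D) : #(lw lt w.tr) = w.lv :=
  (h.card w.mem).trans (w.card_eq (h.nx _ w.mem))

theorem deg (m : Wd s D →₀ ℕ) : (Finsupp.weight (fun v : Wd s D => ind (lw lt v.tr)) m).degree =
    Finsupp.weight Wd.lv m := by
  simp only [Finsupp.weight_apply, Finsupp.sum, map_sum, map_nsmul, Swt.deg_ind, h.lv]

omit h in
theorem wt_ne (m : Wd s D →₀ ℕ) (a : τ) :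
    Finsupp.weight (fun v : Wd s D => ind (lw lt v.tr)) m a ≠ 0 ↔
      ∃ v ∈ m.support, a ∈ lw lt v.tr := by
  simp only [Finsupp.weight_apply, Finsupp.sum, Finsupp.finsetSum_apply, Finsupp.smul_apply,
    ind_apply, ne_eq, sum_eq_zero_iff, not_forall, smul_eq_mul, mul_ite, mul_one, mul_zero,
    ite_eq_right_iff, exists_prop]
  exact exists_congr fun v => and_congr_right fun k => and_iff_left (Finsupp.mem_support_iff.1 k)

theorem rr (w : Wd s D) (m : Wd s D →₀ ℕ) :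
    Rr w m ↔ Finsupp.weight (fun v : Wd s D => ind (lw lt v.tr)) m = ind (lw lt w.tr) := by
  constructor
  · rintro ⟨a, b, c⟩
    have e : ind (lw lt w.tr) ≤ Finsupp.weight (fun v : Wd s D => ind (lw lt v.tr)) m := fun i => by
      rw [ind_apply]
      split_ifs with k
      · have k1 : (lt i).1 ∈ bl w.tr := mem_bl.2 (by rw [mem_lw.1 k]; nofun)
        have k2 : (lt i).1 ∈ m.support.biUnion fun v => bl v.tr := by
          by_contra n
          refine mem_bl.1 (c.2 _ k1 n x (lt_of_le_of_ne (h.hx _) fun e => ?_)) (h.nx _ w.mem)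
          exact mem_bl.1 k1 (e ▸ h.nx _ w.mem)
        obtain ⟨v, hv, k3⟩ := mem_biUnion.1 k2
        exact Nat.pos_of_ne_zero ((wt_ne m i).2 ⟨v, hv, by
          rw [mem_lw, b v hv _ (mem_bl.1 k3)]; exact mem_lw.1 k⟩)
      · exact Nat.zero_le _
    obtain ⟨d, hd⟩ := exists_add_of_le e
    have := congrArg Finsupp.degree hd
    rw [h.deg, a, map_add, Swt.deg_ind, h.lv] at this
    rw [hd, (Finsupp.degree_eq_zero_iff d).1 (by omega), add_zero]
  · intro e
    have b : ∀ v ∈ m.support, Le v.tr w.tr := fun v hv => h.le v.mem fun i k => by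
      have := (wt_ne m i).2 ⟨v, hv, k⟩
      rw [e, ind_apply] at this
      by_contra n; exact this (if_neg n)
    refine ⟨by rw [← h.deg, e, Swt.deg_ind, h.lv], b,
      biUnion_subset.2 fun v hv => (b v hv).bl, fun i k n => absurd ?_ n⟩
    obtain ⟨c, f, rfl⟩ := h.ex w.mem (mem_bl.1 k)
    obtain ⟨v, hv, g⟩ := (wt_ne m c).1 (by rw [e, ind_apply, if_pos f]; nofun)
    exact mem_biUnion.2 ⟨v, hv, mem_bl.2 (by rw [mem_lw.1 g]; nofun)⟩

theorem eps : (tw s D V).ε = 0 := funext fun w => if_neg fun e => by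
  obtain ⟨i, k⟩ : (bl w.tr).Nonempty := card_pos.1 (by rw [w.card_eq (h.nx _ w.mem), e.1]; simp)
  exact mem_bl.1 (e.2.2 i k (by simp) x (lt_of_le_of_ne (h.hx _) fun c =>
    mem_bl.1 k (c ▸ h.nx _ w.mem))) (h.nx _ w.mem)

omit h in
variable (s D V lt) in
/-- words as monomials -/
def ro : MvPolynomial (Wd s D) ℝ →ₐ[ℝ] MvPolynomial τ ℝ :=
  En.rho ((tw s D V).rety (fun _ => ()) fun w => ind (lw lt w.tr)) ℝ

omit h in
theorem ro_mon (m : Wd s D →₀ ℕ) (a : ℝ) : ro D lt s V (monomial m a) =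
    monomial (Finsupp.weight (fun v : Wd s D => ind (lw lt v.tr)) m) a :=
  En.rho_mon ((tw s D V).rety (fun _ => ()) fun w => ind (lw lt w.tr)) m a

theorem cf (w : Wd s D) (P : MvPolynomial (Wd s D) ℝ) :
    (tw s D V).cf ℝ w P = coeff (ind (lw lt w.tr)) (ro D lt s V P) := by
  induction P using MvPolynomial.induction_on' with
  | add p q a b => rw [map_add, map_add, coeff_add, a, b]
  | monomial m a =>
    rw [ro_mon, Sh.cf_monomial, coeff_monomial]
    simp only [Int.cast_ite, Int.cast_one, Int.cast_zero, mul_ite, mul_one, mul_zero]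
    exact if_congr (h.rr w m) rfl rfl

variable {p : T.C → Prop} [DecidablePred p]

omit h in
theorem cw_lv (q : T.Cw (tw s D V)) : Wd.lv q.1.2 = T.lev q.1.1 :=
  (tw_dg _).symm.trans (TS.lev_cw q).symm

variable (s V) in
/-- the symbol coordinate -/
def fs (hp : ∀ c, p c) (q : T.Cw (tw s D V)) : SC T p W :=
  ⟨(q.1.1, lw lt (Wd.tr q.1.2)), hp _, (h.wd _).2 ⟨_, q.1.2.mem, rfl⟩, (h.lv _).trans (cw_lv q)⟩

theorem fs_bij (hp : ∀ c, p c) (hT : T.Tri) (hs : ∀ c, T.lev c ≤ s) :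
    Function.Bijective (h.fs s V hp) := by
  refine ⟨fun q q' e => ?_, fun ⟨⟨c, A⟩, _, a, b⟩ => ?_⟩
  · have e1 : q.1.1 = q'.1.1 := congrArg (fun z : SC T p W => z.1.1) e
    exact cw_ext e1 (by rw [cw_lv, cw_lv, e1])
      (h.eq q.1.2.mem q'.1.2.mem (congrArg (fun z : SC T p W => z.1.2) e))
  · obtain ⟨t, ht, rfl⟩ := (h.wd A).1 a
    have k := hT.lev_pos c
    have k' := hs c
    have k2 : #(bl t) ≤ Fintype.card ι := card_le_univ _
    rw [h.card ht] at b
    refine ⟨⟨(c, ⟨(⟨T.lev c - 1, by omega⟩, ⟨t, ht⟩), ?_⟩), ?_⟩, rfl⟩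
    · dsimp only at b ⊢; omega
    · rw [tw_cd]
      refine unit_ext ?_
      rw [Finsupp.degree_single]
      show T.lev c - 1 + 1 = T.lev c
      omega

/-- **the errors are symbols** -/
theorem u_fs (hp : ∀ c, p c) (hT : T.Tri) (hs : ∀ c, T.lev c ≤ s) (y : SC T p W → ℝ)
    (q : T.Cw (tw s D V)) : (T.sh (tw s D V)).u (fun r => y (h.fs s V hp r)) q =
      sP T p W (T.Φ q.1.1) (lw lt (Wd.tr q.1.2)) y := by
  refine (TS.sh_u _ q).trans ((h.cf _ _).trans (Eq.trans (congrArg _ ?_)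
    (Swt.hz_sy _ _ ((h.lv _).trans (cw_lv q)))))
  rw [T.hz_map, h.eps, show (tw s D V).el (R := ℝ) 0 = 0 by simp [Sh.el], map_zero]
  refine congrArg (T.hz 0 · _) (funext fun c => ?_)
  rw [Yp]
  refine (map_sum _ _ _).trans ?_
  refine sum_of_injOn (fun r => lw lt (Wd.tr r.1.2)) (fun r hr r' hr' e => ?_) (fun r hr => ?_)
    (fun A _ n => ?_) fun r hr => ?_
  · exact (h.fs_bij hp hT hs).1 (Subtype.ext (Prod.ext
      ((mem_filter.1 hr).2.trans (mem_filter.1 hr').2.symm) e))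
  · exact mem_powersetCard.2 ⟨subset_univ _,
      (h.lv _).trans ((cw_lv r).trans (congrArg _ (mem_filter.1 hr).2))⟩
  · rw [sx, dif_neg, map_zero]
    intro k
    obtain ⟨r, e⟩ := (h.fs_bij (V := V) hp hT hs).2 ⟨(c, A), k⟩
    exact n ⟨r, mem_filter.2 ⟨mem_univ _, congrArg (fun z : SC T p W => z.1.1) e⟩,
      congrArg (fun z : SC T p W => z.1.2) e⟩
  · obtain rfl : r.1.1 = c := (mem_filter.1 hr).2
    rw [X, C_mul_monomial, mul_one, ro_mon, Finsupp.weight_single, one_smul]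
    exact congrArg (monomial _) (Eq.symm (dif_pos (h.fs s V hp r).2))

end Lt

end Crest.Agent.N49.Br

end
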