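import Crest.Agent.N49.Br.Vis

/-!
# Row 49 (helper4): morphisms to the visible ring, split surjections (generic part)
-/

set_option autoImplicit false
set_option linter.unusedSectionVars false

open Finset Matrix MvPolynomial

noncomputable section

namespace Crest.Agent.N49.Br

open Po Tw Vs

section gen
variable {σ τ τ' : Type} {S : Sh σ τ} {S' : Sh σ τ'} {φ : Matrix S'.W S.W ℤ} {ψ : Matrix S.W S'.W ℤ}

/-- the kernel of `φ` is generated in degree one (tested on functionals killing the words `p`) -/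
def KG (S : Sh σ τ) {W' : Type} (φ : Matrix W' S.W ℤ) (p : S.W → Prop) : Prop :=
  ∀ (κ : S.W → ℤ) (l : ℕ), (∀ w, p w → κ w = 0) →
    (∀ (v : S.W → ℤ) (lam : Fin l → S.W), (∀ w, v w ≠ 0 → S.dg w = 1) → φ *ᵥ v = 0 →
      (∀ i, S.dg (lam i) = 1) →
      ∑ w, κ w * ∑ w0, v w0 * S.r w (Finsupp.single w0 1 + ∑ i, Finsupp.single (lam i) 1) = 0) →
    ∀ w, S.dg w = l + 1 → κ w = 0

/-- the kernel basis -/
def kN (φ : Matrix S'.W S.W ℤ) (ψ : Matrix S.W S'.W ℤ) (p : S.W → Prop) :
    Matrix S.W {w // ¬ p w} ℤ := (1 - ψ * φ).submatrix id Subtype.val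
/-- the kernel coordinates -/
def kQ (S : Sh σ τ) (p : S.W → Prop) : Matrix {w // ¬ p w} S.W ℤ :=
  (1 : Matrix S.W S.W ℤ).submatrix Subtype.val id

theorem kQ_vec (p : S.W → Prop) [DecidablePred p] (κ : {w // ¬ p w} → ℤ) (w : S.W) :
    (κ ᵥ* kQ S p) w = if h : p w then 0 else κ ⟨w, h⟩ := by
  simp only [vecMul, dotProduct, kQ, submatrix_apply, id, one_apply]
  split_ifs with h
  · exact sum_eq_zero fun j _ => by rw [if_neg (fun e : j.1 = w => j.2 (e ▸ h)), mul_zero]
  · rw [Fintype.sum_eq_single ⟨w, h⟩, if_pos rfl, mul_one]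
    exact fun j n => by rw [if_neg (fun e : j.1 = w => n (Subtype.ext e)), mul_zero]

/-- **split surjections from a section with values in the standard words `p`** -/
theorem spl_of (p : S.W → Prop) [DecidablePred p] {n : ℕ} (o : S.Ok) (o' : S'.Ok) (hm : S.Hm S' φ)
    (hK : S'.K = rl φ * S.K * (rl φ)ᵀ) (e : φ * ψ = 1)
    (hψ : ∀ w w', ψ w w' ≠ 0 → p w ∧ S.cd w = S'.cd w')
    (inj : ∀ x : S.W → ℤ, (∀ w, x w ≠ 0 → p w) → φ *ᵥ x = 0 → x = 0)
    {a b : ℕ} (h1 : ∀ w w', |ψ w w'| ≤ a) (h2 : ∀ w' w, |φ w' w| ≤ b) (ha : a ≤ n) (hb : b ≤ n)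
    (hn : 1 + Fintype.card S'.W * (a * b) ≤ n) (hg : KG S φ p) :
    S.Spl S' n φ ψ (kN φ ψ p) (kQ S p) fun j => S.cd j.1 := by
  have z : φ * (1 - ψ * φ) = 0 := by rw [Matrix.mul_sub, ← Matrix.mul_assoc, e]; simp
  have s1 : ∀ w w', ¬ p w → (ψ * φ) w w' = 0 := fun w w' h =>
    sum_eq_zero fun x _ => mul_eq_zero_of_left (of_not_not fun c => h (hψ _ _ c).1) _
  have s2 : ∀ w w', p w' → (1 - ψ * φ : Matrix S.W S.W ℤ) w w' = 0 := fun w w' h =>
    congrFun (inj (fun w => (1 - ψ * φ : Matrix S.W S.W ℤ) w w') (fun x c => by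
      by_contra k
      rw [Matrix.sub_apply, s1 x w' k, one_apply_ne (fun e : x = w' => k (e ▸ h)), sub_zero] at c
      exact c rfl) (funext fun x => congrFun (congrFun z x) w')) w
  have one : ψ * φ + kN φ ψ p * kQ S p = 1 := by
    ext w w'
    have : (kN φ ψ p * kQ S p) w w' = (1 - ψ * φ : Matrix S.W S.W ℤ) w w' := by
      change ((fun j => kN φ ψ p w j) ᵥ* kQ S p) w' = _
      rw [kQ_vec]
      split_ifs with h
      · exact (s2 w w' h).symm
      · rfl
    rw [Matrix.add_apply, this, Matrix.sub_apply, add_sub_cancel]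
  have cN : ∀ w (j : {w // ¬ p w}), kN φ ψ p w j ≠ 0 → S.cd w = S.cd j.1 := fun w j c => by
    by_contra k
    refine c ?_
    change (1 - ψ * φ : Matrix S.W S.W ℤ) w j.1 = 0
    rw [Matrix.sub_apply, one_apply_ne (fun e => k (by rw [e])), zero_sub, neg_eq_zero]
    exact sum_eq_zero fun x _ => of_not_not fun c => k ((hψ _ _ (left_ne_zero_of_mul c)).2.trans
      (hm.cd _ _ (right_ne_zero_of_mul c)))
  refine ⟨o', hm, hK, e, ?_, ?_, ?_, one, fun w w' c => (hψ w w' c).2, fun w j c => ?_,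
    fun w w' j => ⟨(h1 _ _).trans (by exact_mod_cast ha), (h2 _ _).trans (by exact_mod_cast hb),
      ?_, ?_⟩, fun κ j hj => ?_⟩
  · ext x j; exact congrFun (congrFun z x) j.1
  · ext j j'
    change ((1 : Matrix S.W S.W ℤ) * (1 - ψ * φ) : Matrix S.W S.W ℤ) j.1 j'.1 = _
    rw [Matrix.one_mul, Matrix.sub_apply, s1 _ _ j.2, sub_zero]
    simp [one_apply, Subtype.ext_iff]
  · ext j x
    change ((1 : Matrix S.W S.W ℤ) * ψ : Matrix S.W S'.W ℤ) j.1 x = 0
    rw [Matrix.one_mul]
    exact of_not_not fun c => j.2 (hψ _ _ c).1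
  · refine c.elim (cN w j) fun c => ?_
    by_contra k
    exact c (one_apply_ne fun e => k (by rw [show j.1 = w from e]))
  · change |(1 - ψ * φ : Matrix S.W S.W ℤ) w j.1| ≤ n
    rw [Matrix.sub_apply]
    refine (abs_sub _ _).trans (le_trans (add_le_add (b := (1 : ℤ))
      (d := ((Fintype.card S'.W * (a * b) : ℕ) : ℤ)) ?_ ?_) (by exact_mod_cast hn))
    · rw [one_apply]; split_ifs <;> simp
    · refine (abs_sum_le_sum_abs _ _).trans ((sum_le_card_nsmul _ _ ((a : ℤ) * b) fun x _ => ?_).trans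
        (by simp))
      rw [abs_mul]
      exact mul_le_mul (h1 _ _) (h2 _ _) (abs_nonneg _) (by positivity)
  · change |(1 : Matrix S.W S.W ℤ) j.1 w| ≤ n
    rw [one_apply]; split_ifs <;> simp; omega
  · by_contra c
    push Not at c
    obtain ⟨l, hl⟩ := Nat.exists_eq_add_one_of_ne_zero (o.dg_pos j.1).ne'
    refine hj ?_
    have := hg (κ ᵥ* kQ S p) l (fun w h => by rw [kQ_vec, dif_pos h]) (fun v lam v1 v0 hl' => ?_) j.1 hl
    · rwa [kQ_vec, dif_neg j.2] at this
    have ev : ∀ w0, v w0 = ∑ j0 : {w // ¬ p w}, kN φ ψ p w0 j0 * v j0.1 := fun w0 => by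
      have t := congrFun (congrArg (· *ᵥ v) one) w0
      simp only [add_mulVec, ← mulVec_mulVec, v0, mulVec_zero, zero_add, one_mulVec] at t
      rw [← t]
      refine sum_congr rfl fun j0 _ => congrArg _ ?_
      change ((1 : Matrix S.W S.W ℤ) *ᵥ v) j0.1 = _
      rw [one_mulVec]
    calc _ = ∑ j0 : {w // ¬ p w}, v j0.1 * ∑ w, (κ ᵥ* kQ S p) w * ∑ w0, kN φ ψ p w0 j0 *
          S.r w (Finsupp.single w0 1 + ∑ i, Finsupp.single (lam i) 1) := by
          simp only [mul_sum]
          conv_rhs => rw [sum_comm]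
          refine sum_congr rfl fun w _ => ?_
          conv_rhs => rw [sum_comm]
          refine sum_congr rfl fun w0 _ => ?_
          rw [ev w0, sum_mul, mul_sum]
          exact sum_congr rfl fun _ _ => by ring
      _ = 0 := sum_eq_zero fun j0 _ => by
          by_cases t : v j0.1 = 0
          · rw [t, zero_mul]
          · rw [c l j0 lam (by rw [Sh.cd_degree, hl]) (by rw [Sh.cd_degree, v1 _ t]) hl', mul_zero]

/-- a section that is an injection of words -/
theorem inj_of_word (f : S'.W → S.W) 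
    (e : φ * (Matrix.of fun w w' => if w = f w' then (1 : ℤ) else 0) = 1)
    (x : S.W → ℤ) (hx : ∀ w, x w ≠ 0 → w ∈ Set.range f) (h : φ *ᵥ x = 0) : x = 0 := by
  have e' : ∀ a b, φ a (f b) = if a = b then 1 else 0 := fun a b => by
    have := congrFun (congrFun e a) b
    simpa [mul_apply, one_apply] using this
  have fi : Function.Injective f := fun a b k => by
    have := e' a b
    rw [← k, e', if_pos rfl] at this
    by_contra n; simp [n] at this
  funext w
  by_contra c
  obtain ⟨a, rfl⟩ := hx w c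
  have := congrFun h a
  rw [mulVec, dotProduct, Fintype.sum_eq_single (f a), e', if_pos rfl, one_mul] at this
  · exact c this
  · intro w n
    by_contra k
    obtain ⟨b, rfl⟩ := hx w (right_ne_zero_of_mul k)
    exact left_ne_zero_of_mul k (by rw [e', if_neg fun t => n (by rw [t])])

theorem cd_unit {S : Sh Unit τ} (w : S.W) : S.cd w = Finsupp.single () (S.dg w) := by
  rw [← Sh.cd_degree]
  exact Finsupp.unique_ext (by simp [Finsupp.degree_eq_sum])

end gen

variable {ι : Type} [Fintype ι] [LinearOrder ι] {s : ℕ} {q : ι → ℕ} {K : Matrix (Vw s q) (Vw s q) ℝ}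

/-- **morphisms to the visible ring are tested on the points** -/
theorem hm_of_pts {τ : Type} {S : Sh Unit τ} (o : S.Ok) (hq : ∀ i, 0 < q i)
    {φ : Matrix (Vw s q) S.W ℤ} (hl : ∀ w' w, φ w' w ≠ 0 → w'.lv = S.dg w)
    (hp : 1 ≤ s → ∀ ω ∈ pts q, S.Pt s (cv ω ᵥ* φ)) : S.Hm (vis s q K) φ where
  cd w' w h := by rw [vis_cd, cd_unit, hl _ _ h]
  mul w' m h0 := by
    set P := aeval (fun w => (vis s q K).el (R := ℤ) fun w'' => φ w'' w) (monomial m (1 : ℤ)) with hP
    have H : P.IsWeightedHomogeneous Vw.lv (Finsupp.weight S.dg m) := by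
      rw [hP, aeval_monomial, map_one, one_mul, Finsupp.weight_apply, Finsupp.sum, Finsupp.prod]
      refine IsWeightedHomogeneous.prod _ _ _ fun w _ => IsWeightedHomogeneous.pow ?_ _
      refine IsWeightedHomogeneous.sum _ _ _ fun x _ => ?_
      change IsWeightedHomogeneous Vw.lv (φ x w • X x) (S.dg w)
      by_cases c : φ x w = 0
      · rw [c, zero_smul]; exact isWeightedHomogeneous_zero _ _ _
      · rw [← hl _ _ c]
        exact (weightedHomogeneousSubmodule ℤ Vw.lv x.lv).smul_mem _ (isWeightedHomogeneous_X _ _ x)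
    have sup : ∀ x : Vw s q, ∑ w, φ x w * S.r w m - (vis s q K).cf ℤ x P ≠ 0 →
        x.lv = Finsupp.weight S.dg m := fun x c => by
      by_contra k
      refine c (sub_eq_zero.2 ((sum_eq_zero fun w _ => of_not_not fun t => k ?_).trans
        (Eq.symm (of_not_not fun t => k ?_))))
      · rw [hl _ _ (left_ne_zero_of_mul t), o.gr_dg (right_ne_zero_of_mul t)]
      · obtain ⟨m', a, b⟩ := Sh.cf_ne (S := vis s q K) t
        have b' : Rv x m' := by simpa using b
        rw [← b'.1, H a]
    by_contra c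
    have e := sup w' (sub_ne_zero.2 c)
    have l1 := lv_pos w'
    have l2 := lv_le w'
    refine c (sub_eq_zero.1 (congrFun (vis_ind hq sup fun ω hω => ?_) w'))
    change cv ω ⬝ᵥ ((φ *ᵥ fun w => S.r w m) - fun x => (vis s q K).cf ℤ x P) = 0
    rw [dotProduct_sub, cv_cf ω (e ▸ l1) (e ▸ l2) H, dotProduct_mulVec, sub_eq_zero, dotProduct_comm,
      dotProduct, ← (hp (l1.trans l2) ω hω).mul m h0 (e ▸ l2), hP, aeval_monomial, map_one, one_mul,
      Finsupp.prod, Finsupp.prod, map_prod]
    refine prod_congr rfl fun w _ => ?_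
    rw [map_pow]
    congr 1
    simp only [Sh.el, map_sum, map_zsmul, eval_X, vecMul, dotProduct, smul_eq_mul]
    exact sum_congr rfl fun _ _ => mul_comm _ _
  mass := by
    funext w'
    have hs := (lv_pos w').trans (lv_le w')
    refine sub_eq_zero.1 (congrFun (vis_ind hq (j := 1) (x := φ *ᵥ S.ε - (vis s q K).ε)
      (fun x c => ?_) fun ω hω => ?_) w')
    · by_contra k
      refine c (sub_eq_zero.2 ((sum_eq_zero fun w _ => of_not_not fun t => k ?_).trans
        (Eq.symm (if_neg fun t => k t.1))))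
      rw [hl _ _ (left_ne_zero_of_mul t), o.eps _ (right_ne_zero_of_mul t)]
    · rw [dotProduct_sub, dotProduct_mulVec, dotProduct_comm, dotProduct_comm (cv ω), dotProduct,
        (hp hs ω hω).mass, dotProduct, cv_mass ω hs, sub_self]

/-- one factor of the coefficients of an indicator -/
def cc (a b : Option ℕ) : ℤ :=
  if a = none then (if b = none ∨ b = some 0 then 1 else 0)
  else if b = some 0 then -1 else if a = b then 1 else 0

/-- the coefficients of the indicator of the cylinder `B` -/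
def co (w : Vw s q) (B : Pt ι) : ℤ := ∏ i, cc (w.tr i) (B i)

theorem abs_co (w : Vw s q) (B : Pt ι) : |co w B| ≤ 1 := by
  rw [co, abs_prod]
  exact prod_le_one (fun _ _ => abs_nonneg _) fun i _ => by unfold cc; split_ifs <;> simp

theorem co_ne {w : Vw s q} {B : Pt ι} (h : co w B ≠ 0) (i : ι) : (w.tr i ≠ none → B i ≠ none) ∧
    (B i ≠ none → B i ≠ some 0 → w.tr i = B i) := by
  have := prod_ne_zero_iff.1 h i (mem_univ _)
  unfold cc at this
  split_ifs at this with a b c d <;> simp_all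
  tauto

theorem ind_le (u ω : Pt ι) :
    (if Le u ω then 1 else 0 : ℤ) = ∏ i, if u i = none ∨ u i = ω i then 1 else 0 := by
  rw [Fintype.prod_boole]
  exact if_congr (forall_congr' fun i => by by_cases h : u i = none <;> simp [h]) rfl rfl

/-- the expansion of an indicator -/
theorem sum_co {ω B : Pt ι} (hω : ω ∈ pts q) {l : ℕ} (h1 : 1 ≤ l) (h2 : l ≤ s) (hB : #(bl B) ≤ l) :
    ∑ w : Vw s q, cv ω w * (if w.lv = l then co w B else 0) = if Le B ω then 1 else 0 := by
  have k : ∀ i, ∑ a ∈ (insertNone (range (q i))).erase (some 0),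
      (if a = none ∨ a = ω i then 1 else 0) * cc a (B i) =
        if B i = none ∨ B i = ω i then 1 else 0 := fun i => by
    obtain ⟨c, c1, c2⟩ := mem_pts.1 hω i
    rw [c2]
    by_cases z : c = 0
    · rw [sum_eq_single none]
      · simp [cc, z]
      · intro a ha n
        rw [if_neg, zero_mul]
        rintro (t | t)
        · exact n t
        · exact (mem_erase.1 ha).1 (z ▸ t)
      · simp
    · rw [sum_eq_add_of_mem none (some c) (by simp) (by simp [z, c1]) (by simp)]
      · cases B i with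
        | none => simp [cc]
        | some b =>
          by_cases t : b = 0
          · simp [cc, t, eq_comm, z]
          · simp [cc, t, eq_comm]
      · intro a _ n
        rw [if_neg (not_or.2 n), zero_mul]
  rw [ind_le, ← prod_congr rfl fun i _ => k i, prod_univ_sum]
  simp only [mul_ite, mul_zero]
  rw [← sum_filter]
  refine sum_of_injOn Vw.tr (fun a ha b hb e => ext' ?_ e) (fun a _ => ?_) (fun u hu n => ?_)
    fun a _ => by rw [prod_mul_distrib, ← ind_le]; rfl
  · exact (mem_filter.1 ha).2.trans (mem_filter.1 hb).2.symm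
  · exact Fintype.mem_piFinset.2 fun i =>
      mem_erase.2 ⟨a.2.1 i, Fintype.mem_piFinset.1 a.1.2.2 i⟩
  · by_contra c
    have hu' := Fintype.mem_piFinset.1 hu
    obtain ⟨w, e1, e2⟩ := exists_vw (u := u) (q := q) h1 h2
      (Fintype.mem_piFinset.2 fun i => (mem_erase.1 (hu' i)).2) (fun i => (mem_erase.1 (hu' i)).1)
      ((card_le_card fun i hi => mem_bl.2 fun t => by
        have := right_ne_zero_of_mul (prod_ne_zero_iff.1 c i (mem_univ _))
        simp [cc, t, mem_bl.1 hi] at this).trans hB)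
    exact n ⟨w, mem_filter.2 ⟨mem_univ _, e1⟩, e2⟩

end Crest.Agent.N49.Br

end
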