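import Crest.Agent.N49.Br.Vsp
import Crest.Agent.N49.Tw.Mh1

/-!
# Row 49 (helper4): the top-word ring splits over the visible ring
-/

set_option autoImplicit false
set_option linter.unusedSectionVars false

open Finset Matrix MvPolynomial

noncomputable section

namespace Crest.Agent.N49.Br

open Po Tw Vs

/-- lower bounds pass to a quotient -/
theorem lo_sec {σ τ W' : Type} [Fintype W'] [DecidableEq W'] {S : Sh σ τ} {n : ℕ} {a : ℝ}
    (h : S.Sz n a) (ha : 0 ≤ a) {φ : Matrix W' S.W ℤ} {ψ : Matrix S.W W' ℤ} (e : φ * ψ = 1)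
    (hU : ∀ w j, |ψ w j| ≤ n) (x : W' → ℝ) :
    a / (n + 1) ^ 4 * ∑ j, x j ^ 2 ≤ qf (rl φ * S.K * (rl φ)ᵀ) x := by
  have e' : qf (rl φ * S.K * (rl φ)ᵀ) x = qf S.K ((rl φ)ᵀ *ᵥ x) := by
    simp only [qf, ← mulVec_mulVec, dotProduct_mulVec, mulVec_transpose]
  set z := (rl φ)ᵀ *ᵥ x
  have ex : ∀ j, x j = ∑ w, ψ w j * z w := fun j => by
    have : (rl ψ)ᵀ *ᵥ z = x := by
      rw [mulVec_mulVec, ← transpose_mul, ← rl_mul, e, rl_one, transpose_one, one_mulVec]
    rw [← this]; rfl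
  have cW : (Fintype.card S.W : ℝ) ≤ n + 1 := by have := h.card; exact_mod_cast by omega
  have cB : (Fintype.card W' : ℝ) ≤ n + 1 := le_trans (by exact_mod_cast Mh.card_le e) cW
  have b1 : ∀ j, x j ^ 2 ≤ (n + 1) ^ 3 * ∑ w, z w ^ 2 := fun j => by
    rw [ex j]
    refine (sum_mul_sq_le_sq_mul_sq _ _ _).trans (mul_le_mul_of_nonneg_right
      ((sum_le_card_nsmul _ _ ((n + 1 : ℝ) ^ 2) fun w _ => ?_).trans ?_) (by positivity))
    · have : |(ψ w j : ℝ)| ≤ n + 1 := by have := hU w j; exact_mod_cast by omega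
      rw [← sq_abs]; gcongr
    · rw [card_univ, nsmul_eq_mul]; nlinarith [sq_nonneg (n + 1 : ℝ)]
  have b2 : ∑ j, x j ^ 2 ≤ (n + 1) ^ 4 * ∑ w, z w ^ 2 := by
    refine (sum_le_card_nsmul _ _ _ fun j _ => b1 j).trans ?_
    rw [card_univ, nsmul_eq_mul]
    calc _ ≤ (n + 1 : ℝ) * ((n + 1) ^ 3 * ∑ w, z w ^ 2) := by gcongr
      _ = _ := by ring
  rw [e']
  refine le_trans ?_ (h.lo z)
  calc _ ≤ a / (n + 1) ^ 4 * ((n + 1) ^ 4 * ∑ w, z w ^ 2) := by gcongr
    _ = _ := by field_simp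

variable {ι ι1 : Type} [Fintype ι] [LinearOrder ι] [Fintype ι1] [LinearOrder ι1] {s : ℕ}
  {q : ι → ℕ} {q1 : ι1 → ℕ} {ρ : ι → ι1} {u ω : Pt ι1} {V : ℕ → Pt ι1 → ℝ}

theorem card_vw : Fintype.card (Vw s q) ≤ s * #(grid q) :=
  (Fintype.card_subtype_le _).trans (by simp)

theorem vis_sz {K : Matrix (Vw s q) (Vw s q) ℝ} (hK : K.PosDef)
    (hb : ∀ w w', K w w' ≠ 0 → w.lv = w'.lv) {n : ℕ} {a : ℝ} (hl : ∀ x, a * ∑ w, x w ^ 2 ≤ qf K x)
    (h1 : 1 ≤ n) (hn : Fintype.card (Vw s q) ≤ n) : (vis s q K).Sz n a where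
  toOk := vis_ok hK hb
  card := hn
  ht := fun (w : Vw s q) (m : Vw s q →₀ ℕ) => by
    change |(if Rv w m then 1 else 0 : ℤ)| ≤ n
    split_ifs <;> simp [h1]
  lo := hl
  gen := fun κ _ (w : Vw s q) h => by
    classical
    obtain ⟨f⟩ : Nonempty (bl w.tr ↪ Fin w.lv) := Function.Embedding.nonempty_of_card_le
      (by simp only [Fintype.card_coe, Fintype.card_fin]; exact w.2.2)
    let F : Fin w.lv → Finset ι := fun i => (bl w.tr).filter fun b => ∃ h, f ⟨b, h⟩ = i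
    have hF : ∀ i, F i ⊆ bl w.tr := fun i => filter_subset _ _
    choose lam h1 h2 using fun i => exists_vw (s := s) (q := q) (u := rs w.tr (F i)) le_rfl
      ((lv_pos w).trans (lv_le w)) (dc_grid q _ w.1.2.2 _ (rs_le _ _))
      (fun b e => w.2.1 b ((rs_le w.tr (F i) b (by simp [e])).symm.trans e))
      (by
        rw [bl_rs (hF i)]
        refine card_le_one.2 fun a ha b hb => ?_
        obtain ⟨_, e⟩ := (mem_filter.1 ha).2
        obtain ⟨_, e'⟩ := (mem_filter.1 hb).2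
        exact congrArg Subtype.val (f.injective (e.trans e'.symm)))
    have hs : ∀ x, x ∈ (∑ i, Finsupp.single (lam i) 1 : Vw s q →₀ ℕ).support ↔ ∃ i, lam i = x := by
      intro x
      simp [Finsupp.finsetSum_apply, Finsupp.single_apply]
    have hw : Rv w (∑ i, Finsupp.single (lam i) 1) := by
      refine ⟨by simp [Finsupp.weight_single, h1], fun x hx => ?_, ?_⟩
      · obtain ⟨i, rfl⟩ := (hs x).1 hx; exact h2 i ▸ rs_le _ _
      · ext a
        simp only [vu, mem_biUnion, hs]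
        refine ⟨fun ⟨x, ⟨i, e⟩, h⟩ => hF i (by rwa [← e, h2, bl_rs (hF i)] at h), fun h => ?_⟩
        exact ⟨_, ⟨f ⟨a, h⟩, rfl⟩, by rw [h2, bl_rs (hF _)]; exact mem_filter.2 ⟨h, h, rfl⟩⟩
    refine ⟨w.1.1.val, lam, (vis_dg (K := K) w).symm, fun i => (vis_dg (K := K) _).trans (h1 i), id, ?_⟩
    refine (Fintype.sum_eq_single (α := Vw s q) w fun b n => ?_).trans_ne
      (mul_ne_zero h ((if_pos hw).trans_ne one_ne_zero))
    refine mul_eq_zero_of_right _ (if_neg fun c => n (uniq c hw (.refl _) fun a ha => ?_))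
    obtain ⟨x, hx, e⟩ := mem_biUnion.1 (hw.2.2 ▸ mem_bl.2 ha : a ∈ vu _)
    exact (hw.2.1 x hx a (mem_bl.1 e)).symm.trans (c.2.1 x hx a (mem_bl.1 e))

/-- the blocks `ι` sit in `ι1`; the other blocks have one clone -/
structure Xt (ρ : ι → ι1) (q : ι → ℕ) (q1 : ι1 → ℕ) : Prop where
  inj : Function.Injective ρ
  eq : ∀ i, q1 (ρ i) = q i
  one : ∀ j, j ∉ Set.range ρ → q1 j = 1
  pos : ∀ i, 0 < q i

theorem Xt.refl (h : ∀ i, 0 < q i) : Xt id q q :=
  ⟨Function.injective_id, fun _ => rfl, fun j n => (n ⟨j, rfl⟩).elim, h⟩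

variable (s ρ q q1) in
/-- the projection to the visible ring -/
def ph : Matrix (Vw s q) (Wd s (grid q1)) ℤ :=
  Matrix.of fun x w => if x.lv = w.lv then co x (w.tr ∘ ρ) else 0
variable (s ρ q q1) in
/-- its section -/
def vs : Matrix (Wd s (grid q1)) (Vw s q) ℤ := Matrix.of fun w x =>
  if x.lv = w.lv ∧ Le x.tr (w.tr ∘ ρ) ∧ Fill ((bl x.tr).image ρ) (bl w.tr) then 1 else 0
variable (s ρ q q1 V) in
/-- the visible ring with the pushed covariance -/
abbrev vp : Sh Unit Unit := vis s q (rl (ph s q q1 ρ) * (tw s (grid q1) V).K * (rl (ph s q q1 ρ))ᵀ)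
variable (ρ) in
/-- the point over a point -/
def up (ω : Pt ι) : Pt ι1 := Function.extend ρ ω fun _ => some 0
/-- the blocks with a letter other than `0` -/
def nb (u : Pt ι1) : Finset ι1 := {j | u j ≠ none ∧ u j ≠ some 0}
/-- standard words -/
def Sd (w : Wd s (grid q1)) : Prop := Fill (nb w.tr) (bl w.tr)
instance : DecidablePred (Sd (s := s) (q1 := q1)) := fun _ => by unfold Sd; infer_instance

theorem abs_ph (x : Vw s q) (w : Wd s (grid q1)) : |ph s q q1 ρ x w| ≤ (1 : ℕ) := by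
  simp only [ph, of_apply]; split_ifs; exacts [abs_co _ _, by simp]
theorem abs_vs (w : Wd s (grid q1)) (x : Vw s q) : |vs s q q1 ρ w x| ≤ (1 : ℕ) := by
  simp only [vs, of_apply]; split_ifs <;> simp
theorem ph_lv {x : Vw s q} {w : Wd s (grid q1)} (h : ph s q q1 ρ x w ≠ 0) : x.lv = w.lv :=
  of_not_not fun c => h (if_neg c)

namespace Xt
variable (h : Xt ρ q q1)
include h

theorem off (hu : u ∈ grid q1) {j : ι1} (n : j ∉ Set.range ρ) (e : u j ≠ none) : u j = some 0 := by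
  obtain ⟨a, t⟩ := Option.ne_none_iff_exists'.1 e
  have := mem_grid.1 hu j a t
  rw [h.one j n] at this
  rw [t]; congr; omega
theorem pts_comp (hω : ω ∈ pts q1) : ω ∘ ρ ∈ pts q := mem_pts.2 fun i => h.eq i ▸ mem_pts.1 hω (ρ i)
theorem grid_comp (hω : ω ∈ grid q1) : ω ∘ ρ ∈ grid q :=
  mem_grid.2 fun i a e => h.eq i ▸ mem_grid.1 hω (ρ i) a e
theorem up_comp (ω : Pt ι) : up ρ ω ∘ ρ = ω := Function.extend_comp h.inj _ _
theorem up_pts {ω : Pt ι} (hω : ω ∈ pts q) : up ρ ω ∈ pts q1 := mem_pts.2 fun j => by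
  by_cases c : j ∈ Set.range ρ
  · obtain ⟨i, rfl⟩ := c
    rw [h.eq, up, h.inj.extend_apply]; exact mem_pts.1 hω i
  · exact ⟨0, by rw [h.one j c]; exact one_pos, Function.extend_apply' _ _ _ c⟩
theorem up_eq (hω : ω ∈ pts q1) : up ρ (ω ∘ ρ) = ω := funext fun j => by
  by_cases c : j ∈ Set.range ρ
  · obtain ⟨i, rfl⟩ := c
    exact congrFun (h.up_comp _) i
  · rw [up, Function.extend_apply' _ _ _ c, h.off (pts_grid hω) c (mem_bl.1 (pts_bl hω ▸ mem_univ _))]
theorem le_comp (hu : u ∈ grid q1) (hω : ω ∈ pts q1) : Le (u ∘ ρ) (ω ∘ ρ) ↔ Le u ω := by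
  refine ⟨fun k j e => ?_, fun k i e => k _ e⟩
  by_cases c : j ∈ Set.range ρ
  · obtain ⟨i, rfl⟩ := c; exact k i e
  · rw [h.off hu c e, h.off (pts_grid hω) c (mem_bl.1 (pts_bl hω ▸ mem_univ _))]
theorem card_comp (u : Pt ι1) : #(bl (u ∘ ρ)) ≤ #(bl u) :=
  card_le_card_of_injOn ρ (fun _ hi => mem_coe.2 (mem_bl.2 ((mem_bl (u := u ∘ ρ)).1 (mem_coe.1 hi)))) h.inj.injOn

/-- **the points correspond** -/
theorem cv_ph (hω : ω ∈ pts q1) : cv (ω ∘ ρ) ᵥ* ph s q q1 ρ = chi V ω := funext fun w =>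
  (sum_co (h.pts_comp hω) w.lv_pos w.lv_le ((h.card_comp _).trans (w.card.trans_le
    (min_le_left ..)))).trans (if_congr (h.le_comp w.mem hω) rfl rfl)

theorem cv_ph' {ω : Pt ι} (hω : ω ∈ pts q) : cv ω ᵥ* ph s q q1 ρ = chi V (up ρ ω) := by
  rw [← h.cv_ph (h.up_pts hω), h.up_comp]

theorem chi_ps (hω : ω ∈ pts q1) : chi V ω ᵥ* vs s q q1 ρ = cv (ω ∘ ρ) := funext fun x => by
  refine (sum_two (α := Wd s (grid q1)) (P := fun w => Le w.tr ω) (R := Le x.tr (ω ∘ ρ))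
    (Q := fun w => x.lv = w.lv ∧ Le x.tr (w.tr ∘ ρ) ∧ Fill ((bl x.tr).image ρ) (bl w.tr))
    ⟨fun k => ?_, fun ⟨w, a, b⟩ => b.2.1.trans fun i e => a _ e⟩
    fun _ _ a b a' b' => Wd.uniq (b.1.symm.trans b'.1) b.2.2 b'.2.2 a a').symm
  obtain ⟨F, f, e⟩ := exists_fill ((bl x.tr).image ρ) (k := min x.lv (Fintype.card ι1))
    (le_min (card_image_le.trans x.2.2) (card_le_univ _)) (min_le_right ..)
  obtain ⟨w, e1, e2⟩ := exists_wd (dc_grid q1) (pts_grid hω) (lv_pos x) (lv_le x)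
    (pts_bl hω ▸ subset_univ F) e
  refine ⟨w, e2 ▸ rs_le _ _, e1.symm, fun i hi => ?_, by rwa [e2, bl_rs (pts_bl hω ▸ subset_univ F)]⟩
  rw [e2, k i hi]
  exact (if_pos (f.1 (mem_image_of_mem ρ (mem_bl.2 hi)))).symm

theorem ph_ps : ph s q q1 ρ * vs s q q1 ρ = 1 := by
  ext x y
  refine sub_eq_zero.1 (congrFun (vis_ind h.pos (j := y.lv)
    (x := fun x => (ph s q q1 ρ * vs s q q1 ρ) x y - (1 : Matrix _ _ ℤ) x y) (fun x c => ?_)
    fun ω hω => ?_) x)
  · by_contra k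
    refine c (sub_eq_zero.2 ((sum_eq_zero fun w _ => of_not_not fun t => k ?_).trans
      (one_apply_ne fun e => k (by rw [e])).symm))
    exact (ph_lv (left_ne_zero_of_mul t)).trans
      (of_not_not fun n => right_ne_zero_of_mul t (if_neg fun a => n a.1.symm))
  · change (cv ω ᵥ* (ph s q q1 ρ * vs s q q1 ρ - 1)) y = 0
    rw [vecMul_sub, ← vecMul_vecMul, h.cv_ph' (V := fun _ _ => 0) hω, h.chi_ps (h.up_pts hω),
      h.up_comp, vecMul_one, sub_self, Pi.zero_apply]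

theorem hm [Nonempty ι1] (hV : ∀ j w, 0 < V j w) (K : Matrix (Vw s q) (Vw s q) ℝ) :
    (tw s (grid q1) V).Hm (vis s q K) (ph s q q1 ρ) :=
  hm_of_pts (tw_ok (dc_grid q1) hV) h.pos (fun _ w e => (ph_lv e).trans (tw_dg w).symm)
    fun hs _ hω => by
      rw [h.cv_ph' (V := V) hω]
      exact tw_pt (dc_grid q1) (pts_grid (h.up_pts hω)) (pts_bl (h.up_pts hω)) hs

theorem ps_sd {w : Wd s (grid q1)} {x : Vw s q} (e : vs s q q1 ρ w x ≠ 0) : Sd w ∧ x.lv = w.lv := by
  have ⟨a, b, c⟩ : x.lv = w.lv ∧ Le x.tr (w.tr ∘ ρ) ∧ Fill ((bl x.tr).image ρ) (bl w.tr) :=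
    of_not_not fun c => e (if_neg c)
  refine ⟨c.grow (fun j hj => ?_) fun j hj => mem_bl.2 (mem_filter.1 hj).2.1, a⟩
  obtain ⟨i, hi, rfl⟩ := mem_image.1 hj
  have t : x.tr i = w.tr (ρ i) := b i (mem_bl.1 hi)
  exact mem_filter.2 ⟨mem_univ _, t ▸ mem_bl.1 hi, t ▸ x.2.1 i⟩

theorem sd_inj (x : Wd s (grid q1) → ℤ) (hx : ∀ w, x w ≠ 0 → Sd w) (e : ph s q q1 ρ *ᵥ x = 0) :
    x = 0 := by
  have k : ∀ n, ∀ w : Wd s (grid q1), #(nb w.tr) = n → x w = 0 := fun n => by
    induction n using Nat.strong_induction_on with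
    | _ n ih =>
    intro w hw
    by_contra c
    let z : Pt ι := fun i => if w.tr (ρ i) = some 0 then none else w.tr (ρ i)
    have zl : Le z (w.tr ∘ ρ) := fun i hi => if_neg fun t => hi (if_pos t)
    obtain ⟨y, e1, e2⟩ := exists_vw (u := z) (q := q) w.lv_pos w.lv_le
      (dc_grid q _ (h.grid_comp w.mem) _ zl) (fun i => by simp only [z]; split_ifs <;> simp [*])
      ((card_le_card zl.bl).trans ((h.card_comp _).trans (w.card.trans_le (min_le_left ..))))
    have t := congrFun e y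
    rw [mulVec, dotProduct, Fintype.sum_eq_single w, ph, of_apply, if_pos e1, co,
      prod_eq_one, one_mul] at t
    · exact c t
    · intro i _
      simp only [e2, z, cc, Function.comp]
      split_ifs <;> simp_all
    · intro w' n
      by_contra p
      have l := ph_lv (left_ne_zero_of_mul p)
      have r : co y (w'.tr ∘ ρ) ≠ 0 := by simpa [ph, l] using left_ne_zero_of_mul p
      have a : ∀ j ∈ nb w'.tr, w'.tr j = w.tr j := fun j hj => by
        obtain ⟨-, j1, j2⟩ := mem_filter.1 hj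
        obtain ⟨i, rfl⟩ : j ∈ Set.range ρ := of_not_not fun c => j2 (h.off w'.mem c j1)
        have t := (co_ne r i).2 j1 j2
        rw [e2] at t
        exact t.symm.trans (zl i (t ▸ j1))
      have b : nb w'.tr ⊆ nb w.tr := fun j hj =>
        mem_filter.2 ⟨mem_univ _, a j hj ▸ (mem_filter.1 hj).2⟩
      refine right_ne_zero_of_mul p (ih _ (hw ▸ card_lt_card (b.ssubset_of_ne fun g => n ?_)) w' rfl)
      have l' : w'.lv = w.lv := l.symm.trans e1
      have d : bl w'.tr = bl w.tr := Fill.unique (hx _ (right_ne_zero_of_mul p)) (g ▸ hx _ c)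
        (by rw [w.card, w'.card, l'])
      refine Wd.ext' l' (Le.eq (fun j hj => ?_) (.refl _) d)
      by_cases t : j ∈ nb w'.tr
      · exact a j t
      · have t' := g ▸ t
        have hj' := mem_bl.1 (d ▸ mem_bl.2 hj)
        simp only [nb, mem_filter, mem_univ, true_and, not_and, not_not] at t t'
        rw [t hj, t' hj']
  exact funext fun w => k _ w rfl

/-- sums of the letters of one block -/
theorem blk_sum (hs : 1 ≤ s) (c : ι1) (hω : ω ∈ pts q1) :
    chi V ω ⬝ᵥ (fun w : Wd s (grid q1) => if w.lv = 1 ∧ bl w.tr = {c} then (1 : ℤ) else 0) = 1 := by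
  have p' : 0 < Fintype.card ι1 := Fintype.card_pos_iff.2 ⟨c⟩
  obtain ⟨w, e1, e2⟩ := exists_wd (dc_grid q1) (pts_grid hω) le_rfl hs (F := {c})
    (pts_bl hω ▸ subset_univ _) (by rw [card_singleton]; omega)
  exact (sum_two (R := True) (P := fun w : Wd s (grid q1) => Le w.tr ω)
    (Q := fun w => w.lv = 1 ∧ bl w.tr = {c}) ⟨fun _ => ⟨w, e2 ▸ rs_le _ _, e1, by
      rw [e2, bl_rs (pts_bl hω ▸ subset_univ _)]⟩, fun _ => trivial⟩ fun _ _ a b a' b' =>
      Wd.ext' (b.1.trans b'.1.symm) (a.eq a' (b.2.trans b'.2.symm))).symm.trans (if_pos trivial)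

theorem kg : KG (tw s (grid q1) V) (ph s q q1 ρ) Sd := by
  intro κ l h0 hk
  let g : ι1 → Option ℕ → ℕ := fun j o => if o = some 0 then #{b | b ≤ j} else 0
  have k : ∀ n, ∀ w : Wd s (grid q1), w.lv = l + 1 → ∑ j, g j (w.tr j) = n → κ w = 0 := fun n => by
    induction n using Nat.strong_induction_on with
    | _ n ih =>
    intro w hl hw
    by_contra c
    have ns : ¬ Sd w := fun t => c (h0 w t)
    have nb1 : nb w.tr ⊆ bl w.tr := fun j hj => mem_bl.2 (mem_filter.1 hj).2.1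
    simp only [Sd, Fill, nb1, true_and, not_forall] at ns
    obtain ⟨a, ha, na, b, ba, hb⟩ := ns
    have a0 : w.tr a = some 0 :=
      of_not_not fun t => na (mem_filter.2 ⟨mem_univ _, mem_bl.1 ha, t⟩)
    have cl : #(bl w.tr) < Fintype.card ι1 := card_lt_univ_of_notMem hb
    have cw : #(bl w.tr) = l + 1 := by have := w.card; omega
    have hs : 1 ≤ s := w.lv_pos.trans w.lv_le
    set B := (bl w.tr).erase a with hB
    have cB : #B = l := by rw [hB, card_erase_of_mem ha, cw]; rfl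
    have sB : B ⊆ bl w.tr := erase_subset _ _
    let e := B.orderEmbOfFin cB
    choose lam h1 h2 using fun i : Fin l => exists_wd (s := s) (dc_grid q1) w.mem le_rfl hs
      (F := {e i}) (singleton_subset_iff.2 (sB (B.orderEmbOfFin_mem cB i)))
      (by rw [card_singleton]; omega)
    have hsup : ∀ x, x ∈ (∑ i, Finsupp.single (lam i) 1 : Wd s (grid q1) →₀ ℕ).support ↔
        ∃ i, lam i = x := by
      intro x
      simp [Finsupp.finsetSum_apply, Finsupp.single_apply]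
    have eb : ∀ j ∈ B, ∃ i, e i = j := fun j hj =>
      (B.range_orderEmbOfFin cB ▸ mem_coe.2 hj : j ∈ Set.range (B.orderEmbOfFin cB))
    have lb : ∀ i, bl (lam i).tr = {e i} := fun i => by
      rw [h2, bl_rs (singleton_subset_iff.2 (sB (B.orderEmbOfFin_mem cB i)))]
    have hbu : bu (∑ i, Finsupp.single (lam i) 1) = B := by
      ext j
      simp only [bu, mem_biUnion, hsup]
      refine ⟨fun ⟨x, ⟨i, t⟩, p⟩ => ?_, fun p => ?_⟩
      · rw [← t, lb, mem_singleton] at p; exact p ▸ B.orderEmbOfFin_mem cB i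
      · obtain ⟨i, t⟩ := eb j p
        exact ⟨_, ⟨i, rfl⟩, by rw [lb, t]; exact mem_singleton_self _⟩
    have hwt : Finsupp.weight Wd.lv (∑ i, Finsupp.single (lam i) 1 : Wd s (grid q1) →₀ ℕ) = l := by
      simp [Finsupp.weight_single, h1]
    have hle : ∀ w' : Wd s (grid q1), (∀ x ∈ (∑ i, Finsupp.single (lam i) 1 : _ →₀ ℕ).support,
        Le x.tr w'.tr) ↔ ∀ j ∈ B, w'.tr j = w.tr j := fun w' => by
      refine ⟨fun t j hj => ?_, fun t x hx j hj => ?_⟩
      · obtain ⟨i, rfl⟩ := eb j hj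
        have e1 : (lam i).tr (e i) = w.tr (e i) := by rw [h2, rs, if_pos (mem_singleton_self _)]
        rw [← e1]
        exact (t _ ((hsup _).2 ⟨i, rfl⟩) _ (e1 ▸ mem_bl.1 (sB hj))).symm
      · obtain ⟨i, rfl⟩ := (hsup x).1 hx
        have : j = e i := mem_singleton.1 (lb i ▸ mem_bl.2 hj)
        rw [t j (this ▸ B.orderEmbOfFin_mem cB i), h2, rs, if_pos (mem_singleton.2 this)]
    -- the product of a block sum with the letters
    have pr : ∀ d, d ∉ B → ∀ w' : Wd s (grid q1),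
        ∑ w0 : Wd s (grid q1), (if w0.lv = 1 ∧ bl w0.tr = {d} then (1 : ℤ) else 0) *
          (if Rr w' (Finsupp.single w0 1 + ∑ i, Finsupp.single (lam i) 1) then 1 else 0) =
        if w'.lv = l + 1 ∧ (∀ j ∈ B, w'.tr j = w.tr j) ∧ bl w'.tr = insert d B then 1 else 0 :=
      fun d hd w' => by
      refine (sum_two ⟨fun ⟨r1, r2, r3⟩ => ?_, fun ⟨w0, ⟨p1, p2⟩, r⟩ => ?_⟩ fun _ _ p r p' r' =>
        Wd.ext' (p.1.trans p'.1.symm) ((rr_add.1 r).2.1.1.eq (rr_add.1 r').2.1.1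
          (p.2.trans p'.2.symm))).symm
      · have t : {d} ⊆ bl w'.tr := singleton_subset_iff.2 (r3 ▸ mem_insert_self _ _)
        obtain ⟨w0, e1, e2⟩ := exists_wd (s := s) (dc_grid q1) w'.mem le_rfl hs t
          (by rw [card_singleton]; omega)
        refine ⟨w0, ⟨e1, by rw [e2, bl_rs t]⟩, rr_add.2 ⟨by rw [e1, hwt, r1, add_comm],
          ⟨e2 ▸ rs_le _ _, (hle w').2 r2⟩, ?_⟩⟩
        rw [e2, bl_rs t, hbu, r3, ← insert_eq]; exact .refl _
      · obtain ⟨r1, ⟨-, r2⟩, r3⟩ := rr_add.1 r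
        rw [p1, hwt] at r1
        rw [p2, hbu, ← insert_eq] at r3
        refine ⟨by omega, (hle w').1 r2, (eq_of_subset_of_card_le r3.1 ?_).symm⟩
        rw [card_insert_of_notMem hd, cB, w'.card]; omega
    have aB : a ∉ B := notMem_erase _ _
    have bB : b ∉ B := fun t => hb (sB t)
    have z := hk (fun w0 => (if w0.lv = 1 ∧ bl w0.tr = {a} then 1 else 0) -
        if w0.lv = 1 ∧ bl w0.tr = {b} then 1 else 0) lam
      (fun w0 t => (tw_dg _).trans (of_not_not fun n => t (by simp [n])))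
      (vis_ind h.pos (j := 1) (fun x t => by
        obtain ⟨w0, -, t⟩ := exists_ne_zero_of_sum_ne_zero t
        exact (ph_lv (left_ne_zero_of_mul t)).trans
          (of_not_not fun n => right_ne_zero_of_mul t (by simp [n]))) fun ω hω => by
        rw [dotProduct_mulVec, h.cv_ph' (V := V) hω]
        exact (dotProduct_sub _ _ _).trans (by
          rw [h.blk_sum hs a (h.up_pts hω), h.blk_sum hs b (h.up_pts hω), sub_self]))
      fun i => (tw_dg _).trans (h1 i)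
    simp only [sub_mul, sum_sub_distrib, pr a aB, pr b bB, mul_sub] at z
    have mu : ∀ d, d ∉ B → ∀ w' : Wd s (grid q1), (∀ j ∈ B, w'.tr j = w.tr j) →
        bl w'.tr = insert d B → ∑ j, g j (w'.tr j) = g d (w'.tr d) + ∑ j ∈ B, g j (w.tr j) :=
      fun d hd w' r2 r3 => by
      rw [← sum_subset (subset_univ (bl w'.tr)) fun j _ t => if_neg fun p => t (mem_bl.2 (by simp [p])),
        r3, sum_insert hd, sum_congr rfl fun j hj => by rw [r2 j hj]]
    have wa : bl w.tr = insert a B := (insert_erase ha).symm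
    have mw := mu a aB w (fun _ _ => rfl) wa
    have ga : g a (w.tr a) = #{b | b ≤ a} := if_pos a0
    have lt : #{x | x ≤ b} < #{x | x ≤ a} := card_lt_card ⟨fun x hx =>
      mem_filter.2 ⟨mem_univ _, (mem_filter.1 hx).2.trans ba.le⟩, fun t =>
      ba.not_ge (mem_filter.1 (t (mem_filter.2 ⟨mem_univ _, le_rfl⟩))).2⟩
    rw [Fintype.sum_eq_single w, if_pos ⟨hl, fun _ _ => rfl, wa⟩, mul_one, sum_eq_zero, sub_zero] at z
    · exact c z
    · intro w' _
      split_ifs with r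
      · rw [ih _ ?_ w' r.1 rfl, zero_mul]
        have : g b (w'.tr b) ≤ #{x | x ≤ b} := by simp only [g]; split_ifs <;> simp
        rw [mu b bB w' r.2.1 r.2.2]; omega
      · rw [mul_zero]
    · intro w' n
      split_ifs with r
      · rw [ih _ ?_ w' r.1 rfl, zero_mul]
        have : g a (w'.tr a) = 0 := if_neg fun t => n (Wd.ext' (r.1.trans hl.symm)
          (Le.eq (fun j hj => ?_) (.refl _) (r.2.2.trans wa.symm)))
        · rw [mu a aB w' r.2.1 r.2.2]; omega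
        · rcases mem_insert.1 (r.2.2 ▸ mem_bl.2 hj) with p | p
          · rw [p, t, a0]
          · exact r.2.1 j p
      · rw [mul_zero]
  exact fun w hw => k _ w ((tw_dg w).symm.trans hw) rfl

/-- the pushed covariance -/
theorem push_lv (hV : ∀ j w, 0 < V j w) {x y : Vw s q}
    (e : (rl (ph s q q1 ρ) * (tw s (grid q1) V).K * (rl (ph s q q1 ρ))ᵀ) x y ≠ 0) : x.lv = y.lv := by
  obtain ⟨w, w', a, b, c⟩ := Mh.conj_ne e
  have := (tw_ok (dc_grid q1) hV).blk w w' b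
  rw [tw_cd, tw_cd] at this
  rw [ph_lv a, ph_lv c, Finsupp.single_injective () this]

/-- **the top-word ring splits over the visible ring** -/
theorem spl [Nonempty ι1] (hV : ∀ j w, 0 < V j w) {n : ℕ} (hn : s * #(grid q) + 1 ≤ n) :
    ∃ (J : Type) (_ : Fintype J) (_ : DecidableEq J) (N : Matrix (tw s (grid q1) V).W J ℤ)
      (Q : Matrix J (tw s (grid q1) V).W ℤ) (cj : J → Unit →₀ ℕ),
      (tw s (grid q1) V).Spl (vp s q q1 ρ V) n (ph s q q1 ρ) (vs s q q1 ρ) N Q cj :=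
  ⟨_, _, _, _, _, _, spl_of (S := tw s (grid q1) V) (S' := vp s q q1 ρ V) (a := 1) (b := 1) Sd
    (tw_ok (dc_grid q1) hV)
    (vis_ok (Mh.posDef_conj (tw_ok (dc_grid q1) hV).pd h.ph_ps) fun _ _ => h.push_lv hV)
    (h.hm hV _) rfl h.ph_ps (fun _ _ e => ⟨(h.ps_sd e).1, by rw [tw_cd, vis_cd, (h.ps_sd e).2]⟩)
    h.sd_inj abs_vs abs_ph (by omega) (by omega) (by
      have := card_vw (s := s) (q := q)
      change 1 + Fintype.card (Vw s q) * (1 * 1) ≤ n
      omega) h.kg⟩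

/-- its size -/
theorem sz [Nonempty ι1] {n : ℕ} {a : ℝ} (ha : 0 < a) (hV : ∀ j w, a ≤ V j w) (h1 : 1 ≤ n)
    (hn : s * #(grid q1) ≤ n) :
    (vp s q q1 ρ V).Sz n (a / (n + 1) ^ 4) :=
  have o := tw_sz (dc_grid q1) ha hV h1 hn
  vis_sz (Mh.posDef_conj o.pd h.ph_ps) (fun _ _ => h.push_lv fun j w => ha.trans_le (hV j w))
    (lo_sec o ha.le h.ph_ps fun w j => (abs_vs w j).trans (by exact_mod_cast h1)) h1
    ((Mh.card_le h.ph_ps).trans o.card)

end Xt

end Crest.Agent.N49.Br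

end
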